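import Mathlib

/-!
# P230: parameters and basic notions for the lower bound `Θ_T(n) ≥ c n log n`

The body is the unit ball cut by random half spaces `{u | ⟪v, u⟫ ≤ 1}`; the vectors `v` run over a
finite set carrying Bernoulli weights that imitate a Gaussian measure (`CapSys`).
-/

namespace Vale.Agent.P230

open Finset
open scoped RealInnerProductSpace

/-- Euclidean space of dimension `n`. -/
abbrev Sp (n : ℕ) := EuclideanSpace ℝ (Fin n)

/-- The squared Gaussian threshold per dimension. -/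
noncomputable def AA : ℝ := 2 ^ 20

/-- Gaussian threshold. -/
noncomputable def zz (n : ℕ) : ℝ := Real.sqrt (AA * n)

/-- Discretisation scale. -/
noncomputable def eta (n : ℕ) : ℝ := 1 / (n : ℝ) ^ 3

/-- Robust cap threshold. -/
noncomputable def tau (n : ℕ) : ℝ := 1 + 5 * eta n

/-- Largest admissible radial gap of a coverer. -/
noncomputable def gapMax (n : ℕ) : ℝ := 4 * Real.log n / n

/-- Separation of test points. -/
noncomputable def r1 (n : ℕ) : ℝ := (n : ℝ) ^ (-(1 / 20) : ℝ)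

/-- Clustering radius. -/
noncomputable def r2 (n : ℕ) : ℝ := (n : ℝ) ^ (-(9 / 20) : ℝ)

/-- Patch radius. -/
noncomputable def rho (n : ℕ) : ℝ := (n : ℝ) ^ (-(1 / 40) : ℝ)

/-- Margin of cluster representatives. -/
noncomputable def mm (n : ℕ) : ℝ := (n : ℝ) ^ (-(4 / 5) : ℝ)

/-- Cluster size. -/
noncomputable def KK (n : ℕ) : ℝ := (n : ℝ) ^ (3 / 4 : ℝ)

/-- Largest total cost of the units meeting one vector. -/
noncomputable def QQ (n : ℕ) : ℝ := (n : ℝ) ^ (4 / 5 : ℝ)

/-- Cost factor per unit of density. -/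
noncomputable def C2 : ℝ := 4000 * AA

/-- The small constant in front of `n log n`. -/
noncomputable def cc : ℝ := 1 / (200 * C2)

/-- The density that is shown to be impossible. -/
noncomputable def DD (n : ℕ) : ℝ := cc * n * Real.log n

/-- The vectors of `V` whose cap at threshold `t` contains `u`. -/
noncomputable def capSet {n : ℕ} (V : Finset (Sp n)) (u : Sp n) (t : ℝ) : Finset (Sp n) := by
  classical exact V.filter fun v => t ≤ ⟪v, u⟫

/-- A finite weighted family of cap vectors imitating the Gaussian measure. -/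
structure CapSys (n : ℕ) where
  V : Finset (Sp n)
  w : Sp n → ℝ
  w_nonneg : ∀ v, 0 ≤ w v
  w_le : ∀ v, w v ≤ 1 / 2
  norm_le : ∀ v ∈ V, ‖v‖ ≤ 4
  mass_le : ∀ (u : Sp n) (t : ℝ), u ≠ 0 → ‖u‖ ≤ 6 → eta n ≤ t →
    ∑ v ∈ capSet V u t, w v
      ≤ 20 * zz n * Real.exp (zz n ^ 2 / 2 * (1 - (t - eta n) ^ 2 / ‖u‖ ^ 2))
  mass_ge : ∀ (u : Sp n) (t : ℝ), 1 ≤ t → t ≤ 2 → ‖u‖ ≤ 2 → t - ‖u‖ ≤ 1 / 8 →
    Real.exp (-(4 + 10 * zz n ^ 2 * (max 0 (t - ‖u‖) + eta n))) ≤ ∑ v ∈ capSet V u t, w v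
  mass_unit : ∀ (u : Sp n), ‖u‖ ≤ 1 → ∑ v ∈ capSet V u 1, w v ≤ 4

/-- The centres of `X` whose ball of radius `1 + eta` contains `y`. -/
noncomputable def coverers {n : ℕ} (X : Finset (Sp n)) (y : Sp n) : Finset (Sp n) := by
  classical exact X.filter fun x => ‖y - x‖ ≤ 1 + eta n

/-- The cube `[-R, R]^n`. -/
def cube (n : ℕ) (R : ℝ) : Set (Sp n) := {x | ∀ i, |x i| ≤ R}

/-- A test point with few coverers, small total depth and no deep coverer. -/
def IsGood {n : ℕ} (X : Finset (Sp n)) (y : Sp n) : Prop :=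
  ((coverers X y).card : ℝ) ≤ 200 * DD n ∧
  ∑ x ∈ coverers X y, (n : ℝ) * (tau n - ‖y - x‖) ≤ 200 * DD n ∧
  ∀ x ∈ coverers X y, tau n - ‖y - x‖ ≤ gapMax n

/-- Weight of the outcome `T` of independent Bernoulli trials on `U`. -/
noncomputable def bwt {α : Type*} [DecidableEq α] (w : α → ℝ) (U T : Finset α) : ℝ :=
  (∏ v ∈ T, w v) * ∏ v ∈ U \ T, (1 - w v)

/-- Probability of an event for independent Bernoulli trials on `U`. -/
noncomputable def pr {α : Type*} [DecidableEq α] (w : α → ℝ) (U : Finset α)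
    (E : Finset α → Prop) : ℝ := by
  classical exact ∑ T ∈ U.powerset, if E T then bwt w U T else 0

end Vale.Agent.P230
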