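import Mathlib
import Vale.Agent.P230.Defs

/-!
# P230: averaging step

From a point set of small density we find a translate around which few centres live and half of
the unit ball consists of good test points.
-/

namespace Vale.Agent.P230

open Finset Filter MeasureTheory Metric
open scoped RealInnerProductSpace ENNReal Topology

variable {n : ℕ}

/-- The radii of the averaged functional. -/
noncomputable def rad (n : ℕ) : Option (Option (Fin (n + 1))) → ℝ
  | none => 1 + 6 * eta n - gapMax n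
  | some none => 1 + 2 * eta n
  | some (some j) => 1 + 2 * eta n - (j : ℝ) / n

/-- The weights of the averaged functional. -/
noncomputable def wgt (n : ℕ) : Option (Option (Fin (n + 1))) → ℝ
  | none => 200 * DD n + 1
  | some _ => 1

/-- The averaged functional. -/
noncomputable def phi (S : Finset (Sp n)) (y : Sp n) : ℝ≥0∞ :=
  ∑ x ∈ S, ∑ k, ENNReal.ofReal (wgt n k) * (closedBall x (rad n k)).indicator (fun _ => 1) y

lemma ball_vol (hn : 1 ≤ n) (x : Sp n) {r : ℝ} (hr : 0 ≤ r) :
    volume (closedBall x r)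
      = ENNReal.ofReal (r ^ n) * volume (closedBall (0 : Sp n) 1) := by
  have : Nonempty (Fin n) := ⟨⟨0, hn⟩⟩
  rw [Measure.addHaar_closedBall' volume x hr, finrank_euclideanSpace_fin]

lemma volume_cube (n : ℕ) {R : ℝ} (hR : 0 ≤ R) :
    volume (cube n R) = ENNReal.ofReal ((2 * R) ^ n) := by
  have e : cube n R
      = (WithLp.ofLp : Sp n → Fin n → ℝ) ⁻¹' (Set.univ.pi fun _ => Set.Icc (-R) R) := by
    ext x; simp [cube, Pi.le_def, abs_le, forall_and]
  rw [e, (PiLp.volume_preserving_ofLp (Fin n)).measure_preimage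
    (MeasurableSet.univ_pi fun _ => measurableSet_Icc).nullMeasurableSet, volume_pi_pi]
  simp [Real.volume_Icc, ← ENNReal.ofReal_pow (by linarith : (0 : ℝ) ≤ R + R), two_mul]

lemma abs_coord_le (x : Sp n) (i : Fin n) : |x i| ≤ ‖x‖ := by
  have := PiLp.norm_apply_le (p := 2) x i
  simpa using this

/-- One ball contributes at most its volume times that of the window. -/
lemma window_le (hn : 1 ≤ n) (R : ℝ) (x : Sp n) {r : ℝ} (hr : 0 ≤ r) :
    ∫⁻ w in cube n R, ∫⁻ h in closedBall (0 : Sp n) 1,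
        (closedBall x r).indicator (fun _ => (1 : ℝ≥0∞)) (w + h)
      ≤ volume (closedBall (0 : Sp n) 1)
          * (ENNReal.ofReal (r ^ n) * volume (closedBall (0 : Sp n) 1)) := by
  have : IsFiniteMeasure (volume.restrict (closedBall (0 : Sp n) 1)) :=
    isFiniteMeasure_restrict.2 measure_closedBall_lt_top.ne
  refine le_trans (setLIntegral_le_lintegral _ _) ?_
  rw [lintegral_lintegral_swap]
  · calc ∫⁻ h in closedBall (0 : Sp n) 1, ∫⁻ w,
          (closedBall x r).indicator (fun _ => (1 : ℝ≥0∞)) (w + h)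
        = ∫⁻ _ in closedBall (0 : Sp n) 1, volume (closedBall x r) := by
          refine lintegral_congr fun h => ?_
          rw [lintegral_add_right_eq_self
            (fun w => (closedBall x r).indicator (fun _ => (1 : ℝ≥0∞)) w) h,
            lintegral_indicator_const measurableSet_closedBall, one_mul]
      _ = _ := by rw [setLIntegral_const, ball_vol hn x hr, mul_comm]
      _ ≤ _ := le_rfl
  · exact ((measurable_const.indicator measurableSet_closedBall).comp
      (measurable_fst.add measurable_snd)).aemeasurable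

lemma eta_pos (hn : 1 ≤ n) : 0 < eta n := by
  unfold eta; positivity

lemma n_eta_le (hn : 1 ≤ n) : (n : ℝ) * eta n ≤ 1 / (n : ℝ) ^ 2 := by
  have h : (0 : ℝ) < n := by exact_mod_cast hn
  rw [eta, le_div_iff₀ (by positivity)]
  field_simp
  rfl

/-- Elementary facts valid for large `n`. -/
lemma large_facts : ∀ᶠ n : ℕ in atTop, 10 ≤ n ∧ 0 ≤ DD n ∧ 0 < DD n ∧
    gapMax n ≤ 1 ∧ (200 * DD n + 1) * (2 / (n : ℝ) ^ 4) ≤ 1 ∧
    2 * DD n * (5 / 6 : ℝ) ^ n ≤ 1 / 10 := by
  have hcc : 0 < cc := by unfold cc C2 AA; positivity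
  have hlog := Real.isLittleO_log_id_atTop.def (c := 1 / 8) (by norm_num)
  have h56 : Tendsto (fun n : ℕ => (n : ℝ) ^ 2 * (5 / 6 : ℝ) ^ n) atTop (𝓝 0) :=
    tendsto_pow_const_mul_const_pow_of_abs_lt_one 2 (by norm_num [abs_of_pos])
  have h56' := h56.eventually (eventually_le_nhds
    (show (0 : ℝ) < 1 / (20 * (cc + 1)) by positivity))
  filter_upwards [eventually_ge_atTop 10, tendsto_natCast_atTop_atTop.eventually hlog, h56',
    eventually_ge_atTop (⌈400 * cc + 4⌉₊)] with n h10 hl h2 hbig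
  have hn : (10 : ℝ) ≤ n := by exact_mod_cast h10
  have hb : 400 * cc + 4 ≤ (n : ℝ) := Nat.ceil_le.1 hbig
  have hl0 : 0 < Real.log n := Real.log_pos (by linarith)
  simp only [id, Real.norm_eq_abs, abs_of_pos hl0, Nat.abs_cast] at hl
  have hD : 0 < DD n := by unfold DD; positivity
  have hD2 : DD n ≤ cc * (n : ℝ) ^ 2 := by
    unfold DD
    have : Real.log n ≤ n := by linarith
    calc cc * n * Real.log n ≤ cc * n * n := by gcongr
      _ = _ := by ring
  refine ⟨h10, hD.le, hD, ?_, ?_, ?_⟩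
  · rw [gapMax, div_le_one (by linarith)]; linarith
  · rw [mul_div, div_le_one (by positivity)]
    have : (100 : ℝ) ≤ (n : ℝ) ^ 2 := by nlinarith
    nlinarith [mul_le_mul_of_nonneg_right hb (sq_nonneg (n : ℝ))]
  · rw [le_div_iff₀ (by positivity)] at h2
    have hp : (0 : ℝ) ≤ (5 / 6 : ℝ) ^ n := by positivity
    have hsq : 0 ≤ (n : ℝ) ^ 2 * (5 / 6 : ℝ) ^ n := by positivity
    nlinarith [mul_le_mul_of_nonneg_right hD2 hp]

lemma rad_nonneg (hn : 1 ≤ n) (hg : gapMax n ≤ 1) (k : Option (Option (Fin (n + 1)))) :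
    0 ≤ rad n k := by
  have he := eta_pos hn
  rcases k with _ | _ | j
  · simp only [rad]; linarith
  · simp only [rad]; linarith
  · simp only [rad]
    have : (j : ℝ) / n ≤ 1 := by
      rw [div_le_one (by exact_mod_cast hn)]
      exact_mod_cast Nat.lt_succ_iff.1 j.2
    linarith

lemma rad_le (hn : 1 ≤ n) (hg : 0 ≤ gapMax n) (k : Option (Option (Fin (n + 1)))) :
    rad n k ≤ 1 + 6 * eta n := by
  have he := eta_pos hn
  rcases k with _ | _ | j
  · simp only [rad]; linarith
  · simp only [rad]; linarith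
  · simp only [rad]
    have : (0 : ℝ) ≤ (j : ℝ) / n := by positivity
    linarith

lemma exp_neg_nat_sum_le (m : ℕ) : ∑ j ∈ Finset.range m, Real.exp (-(j : ℝ)) ≤ 2 := by
  have h : ∀ m : ℕ, ∑ j ∈ Finset.range m, Real.exp (-(j : ℝ)) ≤ 2 * (1 - (1 / 2 : ℝ) ^ m) := by
    intro m
    induction m with
    | zero => simp
    | succ m ih =>
      rw [sum_range_succ, pow_succ]
      have : Real.exp (-(m : ℝ)) ≤ (1 / 2 : ℝ) ^ m := by
        rw [show (-(m : ℝ)) = (m : ℝ) * (-1) by ring, Real.exp_nat_mul]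
        gcongr
        rw [Real.exp_neg, one_div]
        gcongr
        linarith [Real.add_one_le_exp (1 : ℝ)]
      linarith
  have := h m
  have : (0 : ℝ) ≤ (1 / 2 : ℝ) ^ m := by positivity
  linarith [h m]

/-- Total weight of the functional. -/
lemma weight_le (h : 10 ≤ n ∧ 0 ≤ DD n ∧ 0 < DD n ∧
    gapMax n ≤ 1 ∧ (200 * DD n + 1) * (2 / (n : ℝ) ^ 4) ≤ 1 ∧
    2 * DD n * (5 / 6 : ℝ) ^ n ≤ 1 / 10) :
    ∑ k, wgt n k * rad n k ^ n ≤ 7 := by
  obtain ⟨h10, -, hD, hg, hdeep, -⟩ := h
  have hn : 1 ≤ n := by omega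
  have hn' : (10 : ℝ) ≤ n := by exact_mod_cast h10
  have hne : (n : ℝ) * eta n ≤ 1 / 100 := (n_eta_le hn).trans
    (by rw [div_le_div_iff₀ (by positivity) (by norm_num)]; nlinarith)
  have hpow : ∀ s : ℝ, -1 ≤ s → (1 + s) ^ n ≤ Real.exp ((n : ℝ) * s) := fun s hs => by
    rw [Real.exp_nat_mul]
    exact pow_le_pow_left₀ (by linarith) (by linarith [Real.add_one_le_exp s]) n
  have he2 : ∀ c : ℝ, c ≤ 6 → Real.exp ((n : ℝ) * (c * eta n)) ≤ 2 := fun c hc => by
    have h1 : (n : ℝ) * (c * eta n) ≤ 1 / 2 := by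
      have := mul_le_mul_of_nonneg_right hc (mul_nonneg (by linarith : (0 : ℝ) ≤ n) (eta_pos hn).le)
      nlinarith
    calc Real.exp ((n : ℝ) * (c * eta n)) ≤ Real.exp (1 / 2) := Real.exp_le_exp.2 h1
      _ ≤ 2 := by
        have := Real.exp_bound' (x := 1 / 2) (by norm_num) (by norm_num) (n := 3) (by norm_num)
        simp [Finset.sum_range_succ, Nat.factorial] at this ⊢
        linarith
  rw [Fintype.sum_option, Fintype.sum_option]
  simp only [wgt, one_mul]
  have a1 : rad n none ^ n ≤ 2 / (n : ℝ) ^ 4 := by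
    refine le_trans (le_of_eq_of_le ?_ (hpow (6 * eta n - gapMax n)
      (by linarith [eta_pos hn]))) ?_
    · simp only [rad]; ring
    · rw [mul_sub, Real.exp_sub]
      gcongr
      · exact he2 6 le_rfl
      · rw [gapMax, mul_div_cancel₀ _ (by linarith),
          show 4 * Real.log n = Real.log n * ((4 : ℕ) : ℝ) by push_cast; ring, mul_comm,
          Real.exp_nat_mul, Real.exp_log (by linarith)]
  have a2 : rad n (some none) ^ n ≤ 2 := by
    simp only [rad]
    exact (hpow _ (by linarith [eta_pos hn])).trans (he2 2 (by norm_num))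
  have a3 : ∑ j : Fin (n + 1), rad n (some (some j)) ^ n ≤ 4 := by
    calc ∑ j : Fin (n + 1), rad n (some (some j)) ^ n
        ≤ ∑ j : Fin (n + 1), 2 * Real.exp (-((j : ℕ) : ℝ)) := by
          refine sum_le_sum fun j _ => ?_
          have h1 := rad_nonneg hn hg (some (some j))
          simp only [rad] at h1 ⊢
          rw [show (1 + 2 * eta n - (j : ℝ) / n) = 1 + (2 * eta n - (j : ℝ) / n) by ring] at h1 ⊢
          refine (hpow _ (by linarith)).trans ?_
          rw [mul_sub, Real.exp_sub, mul_div_cancel₀ _ (by linarith : (n : ℝ) ≠ 0),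
            Real.exp_neg, ← div_eq_mul_inv]
          gcongr
          exact he2 2 (by norm_num)
      _ ≤ 4 := by
          rw [← mul_sum, Fin.sum_univ_eq_sum_range (fun j => Real.exp (-(j : ℝ)))]
          linarith [exp_neg_nat_sum_le (n + 1)]
  have := mul_le_mul_of_nonneg_left a1 (by linarith : (0 : ℝ) ≤ 200 * DD n + 1)
  linarith

/-- Few centres and small functional make a good test point. -/
lemma isGood_of_phi (hn : 10 ≤ n) (hD : 0 ≤ DD n) (S : Finset (Sp n)) (w h : Sp n)
    (X' : Finset (Sp n)) (pre : Sp n → Sp n)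
    (hpre : ∀ p ∈ X', pre p ∈ S ∧ ‖(pre p - w) - p‖ ≤ eta n)
    (hinj : ∀ p ∈ X', ∀ p' ∈ X', pre p = pre p' → p = p')
    (hphi : phi S (w + h) ≤ ENNReal.ofReal (200 * DD n)) : IsGood X' h := by
  classical
  have hn1 : 1 ≤ n := by omega
  have he := eta_pos hn1
  set ψ : Sp n → ℝ := fun x =>
    ∑ k, wgt n k * (closedBall x (rad n k)).indicator (fun _ => (1 : ℝ)) (w + h) with hψ
  have hw0 : ∀ k, 0 ≤ wgt n k := by rintro (_ | _) <;> simp only [wgt] <;> linarith
  have hψ0 : ∀ x, 0 ≤ ψ x := fun x => sum_nonneg fun k _ =>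
    mul_nonneg (hw0 k) (Set.indicator_nonneg (fun _ _ => zero_le_one) _)
  have hsum : ∑ x ∈ S, ψ x ≤ 200 * DD n := by
    rw [← ENNReal.ofReal_le_ofReal_iff (by positivity)]
    refine le_of_eq_of_le ?_ hphi
    rw [ENNReal.ofReal_sum_of_nonneg fun x _ => hψ0 x, phi]
    refine sum_congr rfl fun x _ => ?_
    rw [hψ, ENNReal.ofReal_sum_of_nonneg fun k _ =>
      mul_nonneg (hw0 k) (Set.indicator_nonneg (fun _ _ => zero_le_one) _)]
    refine sum_congr rfl fun k _ => ?_
    rw [ENNReal.ofReal_mul (hw0 k)]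
    congr 1
    by_cases hm : w + h ∈ closedBall x (rad n k) <;> simp [Set.indicator, hm]
  -- each coverer pays for itself
  have key : ∀ p ∈ coverers X' h,
      1 ≤ ψ (pre p) ∧ (n : ℝ) * (tau n - ‖h - p‖) ≤ ψ (pre p) ∧
      (gapMax n < tau n - ‖h - p‖ → 200 * DD n + 1 ≤ ψ (pre p)) := by
    intro p hp
    simp only [coverers, mem_filter] at hp
    obtain ⟨hpX, hd⟩ := hp
    set x := pre p
    have hs : |‖w + h - x‖ - ‖h - p‖| ≤ eta n := by
      refine (abs_norm_sub_norm_le _ _).trans ?_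
      rw [show w + h - x - (h - p) = -((x - w) - p) by abel, norm_neg]
      exact (hpre p hpX).2
    obtain ⟨hs1, hs2⟩ := abs_le.1 hs
    set s := ‖w + h - x‖
    have hmem : ∀ k, s ≤ rad n k → (closedBall x (rad n k)).indicator
        (fun _ => (1 : ℝ)) (w + h) = 1 := fun k hk =>
      Set.indicator_of_mem (by rwa [mem_closedBall, dist_eq_norm]) _
    have hψx : ψ x = wgt n none * (closedBall x (rad n none)).indicator (fun _ => (1 : ℝ)) (w + h)
        + ((closedBall x (rad n (some none))).indicator (fun _ => (1 : ℝ)) (w + h)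
        + ∑ j : Fin (n + 1),
            (closedBall x (rad n (some (some j)))).indicator (fun _ => (1 : ℝ)) (w + h)) := by
      rw [hψ]; simp [Fintype.sum_option, wgt]
    have h0 : 0 ≤ wgt n none *
        (closedBall x (rad n none)).indicator (fun _ => (1 : ℝ)) (w + h) :=
      mul_nonneg (hw0 _) (Set.indicator_nonneg (fun _ _ => zero_le_one) _)
    have h1 := hmem (some none) (by simp only [rad]; linarith)
    have h2 : (0 : ℝ) ≤ ∑ j : Fin (n + 1),
        (closedBall x (rad n (some (some j)))).indicator (fun _ => (1 : ℝ)) (w + h) :=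
      sum_nonneg fun j _ => Set.indicator_nonneg (fun _ _ => zero_le_one) _
    refine ⟨by linarith, ?_, fun hdeep => ?_⟩
    · set q := (n : ℝ) * (1 + 2 * eta n - s)
      have hq0 : 0 ≤ q := mul_nonneg (Nat.cast_nonneg _) (by linarith)
      have hqn : ⌊q⌋₊ ≤ n := by
        have : q < n + 1 := by
          have := mul_le_mul_of_nonneg_left
            (show 1 + 2 * eta n - s ≤ 1 + 2 * eta n by linarith [norm_nonneg (w + h - x)])
            (Nat.cast_nonneg n (α := ℝ))
          have h3 : (n : ℝ) * eta n ≤ 1 / 100 := (n_eta_le hn1).trans (by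
            rw [div_le_div_iff₀ (by positivity) (by norm_num)]
            have : (10 : ℝ) ≤ n := by exact_mod_cast hn
            nlinarith)
          nlinarith
        exact Nat.lt_succ_iff.1 ((Nat.floor_lt hq0).2 (by exact_mod_cast this))
      have hcount : ((⌊q⌋₊ + 1 : ℕ) : ℝ) ≤ ∑ j : Fin (n + 1),
          (closedBall x (rad n (some (some j)))).indicator (fun _ => (1 : ℝ)) (w + h) := by
        simp only [rad]
        rw [Fin.sum_univ_eq_sum_range (fun j =>
          (closedBall x (1 + 2 * eta n - (j : ℝ) / n)).indicator (fun _ => (1 : ℝ)) (w + h))]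
        refine le_trans ?_ (sum_le_sum_of_subset_of_nonneg
          (range_mono (Nat.succ_le_succ hqn)) fun j _ _ =>
            Set.indicator_nonneg (fun _ _ => zero_le_one) _)
        refine le_of_eq ?_
        rw [sum_eq_card_nsmul (b := 1) fun j hj => ?_]
        · simp
        · refine Set.indicator_of_mem ?_ _
          rw [mem_closedBall, dist_eq_norm]
          have hj' : (j : ℝ) ≤ q :=
            le_trans (by exact_mod_cast Nat.lt_succ_iff.1 (mem_range.1 hj)) (Nat.floor_le hq0)
          have hnp : (0 : ℝ) < n := by exact_mod_cast hn1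
          have : (j : ℝ) / n ≤ 1 + 2 * eta n - s := by
            rw [div_le_iff₀ hnp, mul_comm]; exact hj'
          linarith
      have h3 : (n : ℝ) * (4 * eta n) ≤ 1 := by
        have := n_eta_le hn1
        have : (1 : ℝ) / (n : ℝ) ^ 2 ≤ 1 / 100 := by
          rw [div_le_div_iff₀ (by positivity) (by norm_num)]
          have : (10 : ℝ) ≤ n := by exact_mod_cast hn
          nlinarith
        nlinarith
      have h4 : (n : ℝ) * (tau n - ‖h - p‖) ≤ q + (n : ℝ) * (4 * eta n) := by
        have : tau n - ‖h - p‖ ≤ (1 + 2 * eta n - s) + 4 * eta n := by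
          unfold tau; linarith
        calc (n : ℝ) * (tau n - ‖h - p‖) ≤ n * ((1 + 2 * eta n - s) + 4 * eta n) := by gcongr
          _ = _ := by ring
      have h5 : q ≤ (⌊q⌋₊ : ℝ) + 1 := (Nat.lt_floor_add_one q).le
      push_cast at hcount
      linarith
    · have h6 := hmem none (by simp only [rad, tau] at hdeep ⊢; linarith)
      rw [hψx, h6]; simp only [wgt]; linarith
  have hpay : ∀ f : Sp n → ℝ, (∀ p ∈ coverers X' h, f p ≤ ψ (pre p)) →
      ∑ p ∈ coverers X' h, f p ≤ 200 * DD n := by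
    intro f hf
    refine le_trans (sum_le_sum hf) ?_
    have hsub : coverers X' h ⊆ X' := by simp [coverers]
    rw [← sum_image (g := pre) fun p hp p' hp' e => hinj p (hsub hp) p' (hsub hp') e]
    refine le_trans (sum_le_sum_of_subset_of_nonneg (fun x hx => ?_) fun x _ _ => hψ0 x) hsum
    obtain ⟨p, hp, rfl⟩ := mem_image.1 hx
    exact (hpre p (hsub hp)).1
  refine ⟨?_, hpay _ fun p hp => (key p hp).2.1, fun p hp => ?_⟩
  · simpa using hpay (fun _ => 1) fun p hp => (key p hp).1
  · by_contra hcon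
    have h7 := (key p hp).2.2 (not_le.1 hcon)
    have hsub : coverers X' h ⊆ X' := by simp [coverers]
    have := single_le_sum (fun x _ => hψ0 x) (hpre p (hsub hp)).1
    linarith

/-- Windows averaged against a weighted family of balls. -/
lemma window_sum_le {K : Type*} (T : Finset K) (c : K → ℝ≥0∞) (x : K → Sp n) (r : K → ℝ)
    (hn : 1 ≤ n) (R : ℝ) (hr : ∀ k ∈ T, 0 ≤ r k) :
    ∫⁻ w in cube n R, ∫⁻ h in closedBall (0 : Sp n) 1,
        ∑ k ∈ T, c k * (closedBall (x k) (r k)).indicator (fun _ => (1 : ℝ≥0∞)) (w + h)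
      ≤ ∑ k ∈ T, c k * (volume (closedBall (0 : Sp n) 1)
          * (ENNReal.ofReal (r k ^ n) * volume (closedBall (0 : Sp n) 1))) := by
  have hm : ∀ k, Measurable (Function.uncurry fun (w h : Sp n) =>
      (closedBall (x k) (r k)).indicator (fun _ => (1 : ℝ≥0∞)) (w + h)) := fun k =>
    (measurable_const.indicator measurableSet_closedBall).comp
      (measurable_fst.add measurable_snd)
  have hm1 : ∀ k (w : Sp n), Measurable (fun h : Sp n =>
      (closedBall (x k) (r k)).indicator (fun _ => (1 : ℝ≥0∞)) (w + h)) := fun k w =>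
    (hm k).of_uncurry_left
  have hm2 : ∀ k, Measurable (fun w : Sp n => ∫⁻ h in closedBall (0 : Sp n) 1,
      (closedBall (x k) (r k)).indicator (fun _ => (1 : ℝ≥0∞)) (w + h)) := fun k =>
    (hm k).lintegral_prod_right'
  calc ∫⁻ w in cube n R, ∫⁻ h in closedBall (0 : Sp n) 1,
        ∑ k ∈ T, c k * (closedBall (x k) (r k)).indicator (fun _ => (1 : ℝ≥0∞)) (w + h)
      = ∫⁻ w in cube n R, ∑ k ∈ T, c k * ∫⁻ h in closedBall (0 : Sp n) 1,
          (closedBall (x k) (r k)).indicator (fun _ => (1 : ℝ≥0∞)) (w + h) := by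
        refine lintegral_congr fun w => ?_
        rw [lintegral_finsetSum T fun k _ => (hm1 k w).const_mul (c k)]
        exact sum_congr rfl fun k _ => lintegral_const_mul (c k) (hm1 k w)
    _ = ∑ k ∈ T, c k * ∫⁻ w in cube n R, ∫⁻ h in closedBall (0 : Sp n) 1,
          (closedBall (x k) (r k)).indicator (fun _ => (1 : ℝ≥0∞)) (w + h) := by
        rw [lintegral_finsetSum T fun k _ => (hm2 k).const_mul (c k)]
        exact sum_congr rfl fun k _ => lintegral_const_mul (c k) (hm2 k)
    _ ≤ _ := by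
        refine sum_le_sum fun k hk => ?_
        exact mul_le_mul_of_nonneg_left (window_le hn R (x k) (hr k hk)) bot_le

/-- The averaged functional over all windows. -/
lemma phi_window_le (hlarge : 10 ≤ n ∧ 0 ≤ DD n ∧ 0 < DD n ∧
    gapMax n ≤ 1 ∧ (200 * DD n + 1) * (2 / (n : ℝ) ^ 4) ≤ 1 ∧
    2 * DD n * (5 / 6 : ℝ) ^ n ≤ 1 / 10) (S : Finset (Sp n)) (R : ℝ) (P : ℝ≥0∞)
    (hSV : volume (closedBall (0 : Sp n) 1) * (S.card : ℝ≥0∞)
      ≤ ENNReal.ofReal (2 * DD n) * P) :
    ∫⁻ w in cube n R, ∫⁻ h in closedBall (0 : Sp n) 1, phi S (w + h)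
      ≤ ENNReal.ofReal (14 * DD n) * volume (closedBall (0 : Sp n) 1) * P := by
  obtain ⟨h10, hD0, hD, hg, -, -⟩ := id hlarge
  have hn : 1 ≤ n := by omega
  have hw0 : ∀ k, 0 ≤ wgt n k := by rintro (_ | _) <;> simp only [wgt] <;> linarith
  have e : ∀ y, phi S y = ∑ q ∈ S ×ˢ (univ : Finset (Option (Option (Fin (n + 1))))),
      ENNReal.ofReal (wgt n q.2) *
        (closedBall q.1 (rad n q.2)).indicator (fun _ => (1 : ℝ≥0∞)) y := fun y => by
    rw [phi, sum_product]
  simp only [e]
  refine (window_sum_le _ (fun q : Sp n × Option (Option (Fin (n + 1))) => ENNReal.ofReal (wgt n q.2)) (fun q => q.1)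
    (fun q => rad n q.2) hn R (fun q _ => rad_nonneg hn hg q.2)).trans ?_
  generalize hV : volume (closedBall (0 : Sp n) 1) = V0 at hSV ⊢
  have key : ∑ q ∈ S ×ˢ (univ : Finset (Option (Option (Fin (n + 1))))),
      ENNReal.ofReal (wgt n q.2) * (V0 * (ENNReal.ofReal (rad n q.2 ^ n) * V0))
      = (V0 * S.card) * (V0 * ENNReal.ofReal (∑ k, wgt n k * rad n k ^ n)) := by
    simp only [sum_product]
    rw [sum_const, nsmul_eq_mul, ENNReal.ofReal_sum_of_nonneg fun k _ =>
      mul_nonneg (hw0 k) (pow_nonneg (rad_nonneg hn hg k) n), mul_sum, mul_sum, mul_sum]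
    refine sum_congr rfl fun k _ => ?_
    rw [ENNReal.ofReal_mul (hw0 k)]
    ring
  rw [key]
  calc (V0 * S.card) * (V0 * ENNReal.ofReal (∑ k, wgt n k * rad n k ^ n))
      ≤ (ENNReal.ofReal (2 * DD n) * P) * (V0 * ENNReal.ofReal 7) := by
        gcongr
        exact weight_le hlarge
    _ = _ := by
        rw [show (14 : ℝ) * DD n = (2 * DD n) * 7 by ring,
          ENNReal.ofReal_mul (q := 7) (by positivity)]
        ring

/-- Centres in a ball of radius `5 / 2`, averaged over all windows. -/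
lemma count_window_le (hn : 1 ≤ n) (hD0 : 0 ≤ DD n) (S : Finset (Sp n)) (R : ℝ) (P : ℝ≥0∞)
    (hSV : volume (closedBall (0 : Sp n) 1) * (S.card : ℝ≥0∞)
      ≤ ENNReal.ofReal (2 * DD n) * P) :
    ∫⁻ w in cube n R, ∑ x ∈ S, (closedBall x (5 / 2)).indicator (fun _ => (1 : ℝ≥0∞)) w
      ≤ ENNReal.ofReal (2 * DD n * (5 / 2) ^ n) * P := by
  set V0 := volume (closedBall (0 : Sp n) 1) with hV0
  set N : Sp n → ℝ≥0∞ := fun w =>
    ∑ x ∈ S, (closedBall x (5 / 2)).indicator (fun _ => (1 : ℝ≥0∞)) w with hN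
  show ∫⁻ w in cube n R, N w ≤ _

  refine le_trans (setLIntegral_le_lintegral _ _) ?_
  rw [hN, lintegral_finsetSum _ fun x _ => measurable_const.indicator measurableSet_closedBall]
  simp only [lintegral_indicator_const measurableSet_closedBall, one_mul,
    ball_vol hn _ (show (0 : ℝ) ≤ 5 / 2 by norm_num)]
  rw [sum_const, nsmul_eq_mul]
  calc (S.card : ℝ≥0∞) * (ENNReal.ofReal ((5 / 2) ^ n) * V0)
      = (V0 * S.card) * ENNReal.ofReal ((5 / 2) ^ n) := by ring
    _ ≤ ENNReal.ofReal (2 * DD n) * P * ENNReal.ofReal ((5 / 2) ^ n) := by gcongr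
    _ = _ := by
        rw [ENNReal.ofReal_mul (q := (5 / 2 : ℝ) ^ n) (by positivity)]
        ring


theorem exists_config : ∀ᶠ n : ℕ in atTop, ∀ (Nt : Finset (Sp n)),
    (∀ x : Sp n, ‖x‖ ≤ 5 / 2 → ∃ p ∈ Nt, ‖x - p‖ ≤ eta n) →
    ∀ X : Set (Sp n), (∀ R : ℝ, (X ∩ cube n R).Finite) →
    limsup (fun R : ℝ => volume (closedBall (0 : Sp n) 1) *
        ((X ∩ cube n R).encard : ℝ≥0∞) / ENNReal.ofReal ((2 * R) ^ n)) atTop
      < ENNReal.ofReal (DD n) →
    ∃ (a : Sp n) (X' : Finset (Sp n)), X' ⊆ Nt ∧ (X'.card : ℝ) ≤ 3 ^ n ∧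
      (∀ x ∈ X, ‖x - a‖ ≤ 5 / 2 → ∃ p ∈ X', ‖(x - a) - p‖ ≤ eta n) ∧
      volume (closedBall (0 : Sp n) 1) / 2
        ≤ volume {y ∈ closedBall (0 : Sp n) 1 | IsGood X' y} := by
  filter_upwards [large_facts] with n hlarge Nt hNt X hX hdens
  classical
  obtain ⟨h10, hD0, hD, hg, -, h56⟩ := id hlarge
  have hn : 1 ≤ n := by omega
  have hgap0 : 0 ≤ gapMax n := by
    have : (10 : ℝ) ≤ n := by exact_mod_cast h10
    have := Real.log_nonneg (by linarith : (1 : ℝ) ≤ n)
    unfold gapMax; positivity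
  set V0 := volume (closedBall (0 : Sp n) 1) with hV0
  have hV0top : V0 ≠ ⊤ := measure_closedBall_lt_top.ne
  have hV0pos : V0 ≠ 0 := (measure_closedBall_pos volume 0 one_pos).ne'
  obtain ⟨R₀, hR₀⟩ := eventually_atTop.1 (eventually_lt_of_limsup_lt hdens)
  set R : ℝ := max R₀ (6 * n) with hR
  have hRn : 6 * (n : ℝ) ≤ R := le_max_right _ _
  have hnR : (10 : ℝ) ≤ n := by exact_mod_cast h10
  have hR0 : (0 : ℝ) < R := by linarith
  set S := (hX (R + 3)).toFinset with hS
  set P := ENNReal.ofReal ((2 * R) ^ n) with hP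
  have hPtop : P ≠ ⊤ := ENNReal.ofReal_ne_top
  have hP0 : P ≠ 0 := by
    rw [hP, ne_eq, ENNReal.ofReal_eq_zero, not_le]; positivity
  -- the count in the larger cube
  have hSV : V0 * (S.card : ℝ≥0∞) ≤ ENNReal.ofReal (2 * DD n) * P := by
    have h1 := (hR₀ (R + 3) (by linarith [le_max_left R₀ (6 * (n : ℝ))])).le
    rw [(hX (R + 3)).encard_eq_coe_toFinset_card, ← hS] at h1
    push_cast at h1
    rw [ENNReal.div_le_iff (by
      rw [ne_eq, ENNReal.ofReal_eq_zero, not_le]; positivity) ENNReal.ofReal_ne_top] at h1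
    refine h1.trans ?_
    rw [hP, ← ENNReal.ofReal_mul hD0, ← ENNReal.ofReal_mul (by positivity)]
    refine ENNReal.ofReal_le_ofReal ?_
    have h2 : (2 * (R + 3)) ^ n ≤ 2 * (2 * R) ^ n := by
      rw [show 2 * (R + 3) = (2 * R) * (1 + 3 / R) by field_simp, mul_pow,
        mul_comm 2 ((2 * R) ^ n)]
      refine mul_le_mul_of_nonneg_left ?_ (by positivity)
      calc (1 + 3 / R) ^ n ≤ Real.exp (3 / R) ^ n := by
            gcongr; linarith [Real.add_one_le_exp (3 / R)]
        _ = Real.exp ((n : ℝ) * (3 / R)) := (Real.exp_nat_mul _ _).symm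
        _ ≤ Real.exp (1 / 2) := by
            refine Real.exp_le_exp.2 ?_
            rw [mul_div, div_le_iff₀ hR0]; linarith
        _ ≤ 2 := by
            have := Real.exp_bound' (x := 1 / 2) (by norm_num) (by norm_num) (n := 3) (by norm_num)
            simp [Finset.sum_range_succ, Nat.factorial] at this ⊢
            linarith
    calc DD n * (2 * (R + 3)) ^ n ≤ DD n * (2 * (2 * R) ^ n) := by gcongr
      _ = _ := by ring
  -- the two functionals
  set J : Sp n → ℝ≥0∞ := fun w => ∫⁻ h in closedBall (0 : Sp n) 1, phi S (w + h) with hJ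
  set N : Sp n → ℝ≥0∞ := fun w =>
    ∑ x ∈ S, (closedBall x (5 / 2)).indicator (fun _ => (1 : ℝ≥0∞)) w with hN
  have hJint : ∫⁻ w in cube n R, J w ≤ ENNReal.ofReal (14 * DD n) * V0 * P :=
    phi_window_le hlarge S R P hSV
  have hNm : Measurable N := Finset.measurable_sum _ fun x _ =>
    measurable_const.indicator measurableSet_closedBall
  have hNint : ∫⁻ w in cube n R, N w ≤ ENNReal.ofReal (2 * DD n * (5 / 2) ^ n) * P :=
    count_window_le hn hD0 S R P hSV
  -- a window that is small for both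
  obtain ⟨w, hwR, hwJ, hwN⟩ : ∃ w ∈ cube n R,
      J w ≤ ENNReal.ofReal (100 * DD n) * V0 ∧ N w ≤ ENNReal.ofReal (3 ^ n) := by
    by_contra hcon
    push Not at hcon
    set a := ENNReal.ofReal (100 * DD n) * V0
    set b := ENNReal.ofReal ((3 : ℝ) ^ n)
    have ha0 : a ≠ 0 := mul_ne_zero (by
      rw [ne_eq, ENNReal.ofReal_eq_zero, not_le]; positivity) hV0pos
    have hat : a ≠ ⊤ := ENNReal.mul_ne_top ENNReal.ofReal_ne_top hV0top
    have hb0 : b ≠ 0 := by rw [ne_eq, ENNReal.ofReal_eq_zero, not_le]; positivity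
    have h1 : ∀ w ∈ cube n R, 1 ≤ J w / a + N w / b := fun w hw => by
      by_cases hj : J w ≤ a
      · refine le_trans ?_ le_add_self
        rw [ENNReal.le_div_iff_mul_le (Or.inl hb0) (Or.inl ENNReal.ofReal_ne_top), one_mul]
        exact (hcon w hw hj).le
      · refine le_trans ?_ le_self_add
        rw [ENNReal.le_div_iff_mul_le (Or.inl ha0) (Or.inl hat), one_mul]
        exact (not_le.1 hj).le
    have hcm : MeasurableSet (cube n R) := by
      have : cube n R = ⋂ i, {x : Sp n | |x i| ≤ R} := by ext x; simp [cube]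
      rw [this]
      exact MeasurableSet.iInter fun i => (isClosed_le (by fun_prop) continuous_const).measurableSet
    have h2 := setLIntegral_mono_ae' hcm (Eventually.of_forall h1) (μ := volume)
    rw [setLIntegral_const, one_mul, volume_cube n hR0.le, ← hP,
      lintegral_add_right _ (hNm.div_const _)] at h2
    have h3 : ∫⁻ w in cube n R, J w / a ≤ ENNReal.ofReal (14 / 100) * P := by
      rw [lintegral_congr fun w => div_eq_mul_inv (J w) a,
        lintegral_mul_const' _ _ (ENNReal.inv_ne_top.2 ha0), ← div_eq_mul_inv]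
      refine (ENNReal.div_le_iff ha0 hat).2 (hJint.trans (le_of_eq ?_))
      rw [show a = ENNReal.ofReal (100 * DD n) * V0 from rfl,
        show (14 : ℝ) * DD n = 14 / 100 * (100 * DD n) by ring,
        ENNReal.ofReal_mul (q := 100 * DD n) (by norm_num)]
      ring
    have h4 : ∫⁻ w in cube n R, N w / b ≤ ENNReal.ofReal (1 / 10) * P := by
      rw [lintegral_congr fun w => div_eq_mul_inv (N w) b,
        lintegral_mul_const' _ _ (ENNReal.inv_ne_top.2 hb0), ← div_eq_mul_inv]
      refine (ENNReal.div_le_iff hb0 ENNReal.ofReal_ne_top).2 (hNint.trans ?_)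
      rw [show b = ENNReal.ofReal ((3 : ℝ) ^ n) from rfl,
        mul_right_comm (ENNReal.ofReal (1 / 10)) P,
        ← ENNReal.ofReal_mul (by norm_num : (0 : ℝ) ≤ 1 / 10)]
      refine mul_le_mul_of_nonneg_right (ENNReal.ofReal_le_ofReal ?_) bot_le
      calc 2 * DD n * (5 / 2 : ℝ) ^ n = 2 * DD n * (5 / 6 : ℝ) ^ n * 3 ^ n := by
            rw [mul_assoc _ ((5 / 6 : ℝ) ^ n), ← mul_pow]; norm_num
        _ ≤ _ := by gcongr
    have h5 := h2.trans (add_le_add h3 h4)
    rw [← add_mul, ← ENNReal.ofReal_add (by norm_num) (by norm_num)] at h5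
    have h6 : (1 : ℝ≥0∞) * P ≤ ENNReal.ofReal (14 / 100 + 1 / 10) * P := by rwa [one_mul]
    rw [ENNReal.mul_le_mul_iff_left hP0 hPtop, ← ENNReal.ofReal_one,
      ENNReal.ofReal_le_ofReal_iff (by norm_num)] at h6
    norm_num at h6
  -- the configuration
  set near := S.filter fun x => ‖x - w‖ ≤ 5 / 2 with hnear
  have hex : ∀ x : Sp n, ∃ p, x ∈ near → p ∈ Nt ∧ ‖(x - w) - p‖ ≤ eta n := fun x => by
    by_cases hx : x ∈ near
    · obtain ⟨p, hp, hd⟩ := hNt _ (mem_filter.1 hx).2
      exact ⟨p, fun _ => ⟨hp, hd⟩⟩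
    · exact ⟨0, fun h => absurd h hx⟩
  choose f hf using hex
  have hpre : ∀ p : Sp n, ∃ x, p ∈ near.image f → x ∈ near ∧ f x = p := fun p => by
    by_cases hp : p ∈ near.image f
    · obtain ⟨x, hx, e⟩ := mem_image.1 hp
      exact ⟨x, fun _ => ⟨hx, e⟩⟩
    · exact ⟨0, fun h => absurd h hp⟩
  choose g hg' using hpre
  refine ⟨w, near.image f, fun p hp => ?_, ?_, fun x hxX hxw => ?_, ?_⟩
  · obtain ⟨x, hx, rfl⟩ := mem_image.1 hp
    exact (hf x hx).1
  · have h1 : (near.card : ℝ≥0∞) ≤ N w := by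
      simp only [hN]
      rw [← Finset.sum_filter_add_sum_filter_not S (fun x => ‖x - w‖ ≤ 5 / 2)]
      refine le_trans (le_of_eq ?_) le_self_add
      rw [sum_eq_card_nsmul (b := 1) fun x hx => ?_]
      · simp [hnear]
      · refine Set.indicator_of_mem ?_ _
        rw [mem_closedBall, dist_eq_norm, norm_sub_rev]; exact (mem_filter.1 hx).2
    have h2 : (near.card : ℝ) ≤ 3 ^ n := by
      have := h1.trans hwN
      rw [← ENNReal.ofReal_natCast, ENNReal.ofReal_le_ofReal_iff (by positivity)] at this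
      exact this
    exact le_trans (by exact_mod_cast card_image_le) h2
  · have hx : x ∈ near := by
      refine mem_filter.2 ⟨(hX (R + 3)).mem_toFinset.2 ⟨hxX, fun i => ?_⟩, hxw⟩
      have h1 := hwR i
      have h2 := (abs_coord_le (x - w) i).trans hxw
      have : |x i| ≤ |w i| + |(x - w) i| := by
        simpa using abs_add_le (w i) ((x - w) i)
      linarith
    exact ⟨f x, mem_image_of_mem f hx, (hf x hx).2⟩
  · set B := closedBall (0 : Sp n) 1
    set bad := {h ∈ B | ENNReal.ofReal (200 * DD n) ≤ phi S (w + h)}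
    have hbad : volume bad ≤ V0 / 2 := by
      have hm : Measurable fun h : Sp n => phi S (w + h) := by
        unfold phi
        refine Finset.measurable_sum _ fun x _ => Finset.measurable_sum _ fun k _ => ?_
        exact ((measurable_const.indicator measurableSet_closedBall).comp
          (measurable_const_add w)).const_mul _
      have h1 := mul_meas_ge_le_lintegral (μ := volume.restrict B) hm
        (ENNReal.ofReal (200 * DD n))
      rw [Measure.restrict_apply (measurableSet_le measurable_const hm)] at h1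
      have e : {x | ENNReal.ofReal (200 * DD n) ≤ phi S (w + x)} ∩ B = bad := by
        ext x; simp [bad, and_comm]
      rw [e] at h1
      have h2 := h1.trans hwJ
      rw [show (200 : ℝ) * DD n = 2 * (100 * DD n) by ring,
        ENNReal.ofReal_mul (by norm_num), mul_right_comm, mul_comm, ← mul_assoc] at h2
      rw [ENNReal.le_div_iff_mul_le (Or.inl two_ne_zero) (Or.inl ENNReal.ofNat_ne_top)]
      have h100 : ENNReal.ofReal (100 * DD n) ≠ 0 := by
        rw [ne_eq, ENNReal.ofReal_eq_zero, not_le]; positivity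
      rw [ENNReal.ofReal_ofNat] at h2
      calc volume bad * 2 ≤ V0 := (ENNReal.mul_le_mul_iff_right h100 ENNReal.ofReal_ne_top).1
            (le_trans (le_of_eq (by ring)) (h2.trans (le_of_eq (by ring))))
        _ = _ := rfl
    have hsub : B ⊆ bad ∪ {y ∈ B | IsGood (near.image f) y} := by
      intro h hh
      by_cases hb : ENNReal.ofReal (200 * DD n) ≤ phi S (w + h)
      · exact Or.inl ⟨hh, hb⟩
      · refine Or.inr ⟨hh, isGood_of_phi h10 hD0 S w h _ g (fun p hp => ?_)
          (fun p hp p' hp' e => ?_) (not_le.1 hb).le⟩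
        · obtain ⟨hx, e⟩ := hg' p hp
          refine ⟨(mem_filter.1 hx).1, ?_⟩
          have := (hf _ hx).2
          rwa [e] at this
        · rw [← (hg' p hp).2, ← (hg' p' hp').2, e]
    have h3 : V0 ≤ V0 / 2 + volume {y ∈ B | IsGood (near.image f) y} :=
      le_trans (measure_mono hsub) (le_trans (measure_union_le _ _)
        (add_le_add hbad le_rfl))
    have h4 : V0 / 2 + V0 / 2 ≤ V0 / 2 + volume {y ∈ B | IsGood (near.image f) y} := by
      rwa [ENNReal.add_halves]
    exact (ENNReal.add_le_add_iff_left (ENNReal.div_ne_top hV0top two_ne_zero)).1 h4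

end Vale.Agent.P230
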