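import Vale.Agent.P230.Defs

/-!
# P230: independent Bernoulli trials on a finite set

Harris' inequality, independence on disjoint coordinates, and the second moment bound for
some test has all its units hit.
-/

namespace Vale.Agent.P230

open Finset

variable {α : Type*} [DecidableEq α]

/-- The expectation of `f` for independent Bernoulli trials on `U`. -/
noncomputable def ex (w : α → ℝ) (U : Finset α) (f : Finset α → ℝ) : ℝ :=
  ∑ T ∈ U.powerset, bwt w U T * f T

/-- The indicator of an event. -/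
noncomputable def ind (E : Finset α → Prop) (T : Finset α) : ℝ := by
  classical exact if E T then 1 else 0

lemma pr_eq_ex (w : α → ℝ) (U : Finset α) (E : Finset α → Prop) : pr w U E = ex w U (ind E) := by
  classical
  unfold pr ex ind
  exact Finset.sum_congr rfl fun T _ => by split_ifs <;> simp

section ind
omit [DecidableEq α]

lemma ind_of_true {E : Finset α → Prop} {T : Finset α} (h : E T) : ind E T = 1 := by
  simp [ind, h]

lemma ind_of_false {E : Finset α → Prop} {T : Finset α} (h : ¬ E T) : ind E T = 0 := by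
  simp [ind, h]

lemma ind_nonneg (E : Finset α → Prop) (T : Finset α) : 0 ≤ ind E T := by
  unfold ind; split_ifs <;> norm_num

lemma ind_le_one (E : Finset α → Prop) (T : Finset α) : ind E T ≤ 1 := by
  unfold ind; split_ifs <;> norm_num

lemma ind_mul (E F : Finset α → Prop) (T : Finset α) :
    ind E T * ind F T = ind (fun T => E T ∧ F T) T := by
  by_cases hE : E T <;> by_cases hF : F T <;> simp [ind, hE, hF]

lemma ind_le_ind {E F : Finset α → Prop} {A B : Finset α} (h : E A → F B) : ind E A ≤ ind F B := by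
  by_cases hE : E A
  · rw [ind_of_true hE, ind_of_true (h hE)]
  · rw [ind_of_false hE]; exact ind_nonneg _ _

lemma ind_congr {E F : Finset α → Prop} {A B : Finset α} (h : E A ↔ F B) : ind E A = ind F B :=
  le_antisymm (ind_le_ind h.1) (ind_le_ind h.2)

end ind

section ex

variable (w : α → ℝ) (U : Finset α)

lemma ex_empty (f : Finset α → ℝ) : ex w ∅ f = f ∅ := by simp [ex, bwt]

lemma ex_congr {f g : Finset α → ℝ} (h : ∀ T ⊆ U, f T = g T) : ex w U f = ex w U g :=
  Finset.sum_congr rfl fun T hT => by rw [h T (mem_powerset.1 hT)]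

lemma ex_insert {v : α} (hv : v ∉ U) (f : Finset α → ℝ) :
    ex w (insert v U) f = (1 - w v) * ex w U f + w v * ex w U (fun T => f (insert v T)) := by
  simp only [ex]
  rw [Finset.sum_powerset_insert hv, Finset.mul_sum, Finset.mul_sum]
  refine congr_arg₂ (· + ·) (Finset.sum_congr rfl fun T hT => ?_)
    (Finset.sum_congr rfl fun T hT => ?_)
  · have hvT : v ∉ T := fun h => hv (mem_powerset.1 hT h)
    rw [bwt, bwt, Finset.insert_sdiff_of_notMem _ hvT,
      Finset.prod_insert (fun h => hv (Finset.mem_sdiff.1 h).1)]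
    ring
  · have hvT : v ∉ T := fun h => hv (mem_powerset.1 hT h)
    have hsd : insert v U \ insert v T = U \ T := by
      ext x
      simp only [mem_sdiff, mem_insert]
      exact ⟨fun ⟨h, h'⟩ => ⟨h.resolve_left fun e => h' (.inl e), fun h'' => h' (.inr h'')⟩,
        fun ⟨h, h'⟩ => ⟨.inr h, fun h'' => h''.elim (fun e => hv (e ▸ h)) h'⟩⟩
    rw [bwt, bwt, Finset.prod_insert hvT, hsd]
    ring

lemma ex_add (f g : Finset α → ℝ) : ex w U (fun T => f T + g T) = ex w U f + ex w U g := by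
  simp only [ex, mul_add, Finset.sum_add_distrib]

lemma ex_const_mul (c : ℝ) (f : Finset α → ℝ) : ex w U (fun T => c * f T) = c * ex w U f := by
  simp only [ex, Finset.mul_sum]
  exact Finset.sum_congr rfl fun T _ => by ring

lemma ex_sum {J : Type*} (Js : Finset J) (f : J → Finset α → ℝ) :
    ex w U (fun T => ∑ j ∈ Js, f j T) = ∑ j ∈ Js, ex w U (f j) := by
  simp only [ex, Finset.mul_sum]
  exact Finset.sum_comm

lemma ex_const (c : ℝ) : ex w U (fun _ => c) = c := by
  induction U using Finset.induction with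
  | empty => rw [ex_empty]
  | @insert v s hv ih => rw [ex_insert w s hv, ih]; ring

lemma ex_mono (h0 : ∀ v, 0 ≤ w v) (h1 : ∀ v, w v ≤ 1) {f g : Finset α → ℝ}
    (h : ∀ T ⊆ U, f T ≤ g T) : ex w U f ≤ ex w U g := by
  refine Finset.sum_le_sum fun T hT => mul_le_mul_of_nonneg_left (h T (mem_powerset.1 hT)) ?_
  exact mul_nonneg (Finset.prod_nonneg fun v _ => h0 v)
    (Finset.prod_nonneg fun v _ => sub_nonneg.2 (h1 v))

lemma ex_union {S R : Finset α} (hd : Disjoint S R) (f : Finset α → ℝ) :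
    ex w (S ∪ R) f = ex w S (fun A => ex w R (fun B => f (A ∪ B))) := by
  induction S using Finset.induction generalizing f with
  | empty => simp [ex_empty]
  | @insert v s hv ih =>
    rw [Finset.disjoint_insert_left] at hd
    have hvsR : v ∉ s ∪ R := by simp [hv, hd.1]
    rw [Finset.insert_union, ex_insert w _ hvsR, ih hd.2, ih hd.2, ex_insert w s hv]
    simp only [Finset.insert_union]

lemma ex_split {S : Finset α} (hS : S ⊆ U) (f : Finset α → ℝ) :
    ex w U f = ex w S (fun A => ex w (U \ S) (fun B => f (A ∪ B))) := by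
  rw [← ex_union w disjoint_sdiff, Finset.union_sdiff_of_subset hS]

lemma ex_pow (c : ℝ) :
    ex w U (fun T => c ^ T.card) = ∏ v ∈ U, (1 - w v + w v * c) := by
  induction U using Finset.induction with
  | empty => simp [ex_empty]
  | @insert v s hv ih =>
    rw [ex_insert w s hv, Finset.prod_insert hv, ← ih]
    have : ex w s (fun T => c ^ (insert v T).card) = c * ex w s (fun T => c ^ T.card) := by
      rw [← ex_const_mul]
      refine ex_congr w s fun T hT => ?_
      rw [Finset.card_insert_of_notMem fun h => hv (hT h), pow_succ']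
    rw [this]; ring

/-- Harris' inequality. -/
lemma harris (h0 : ∀ v, 0 ≤ w v) (h1 : ∀ v, w v ≤ 1) {f g : Finset α → ℝ}
    (hf : ∀ A B, A ⊆ B → f A ≤ f B) (hg : ∀ A B, A ⊆ B → g A ≤ g B) :
    ex w U f * ex w U g ≤ ex w U (fun T => f T * g T) := by
  induction U using Finset.induction generalizing f g with
  | empty => simp [ex_empty]
  | @insert v s hv ih =>
    simp only [ex_insert w s hv]
    have hi : ∀ A B : Finset α, A ⊆ B → insert v A ⊆ insert v B := fun A B h =>
      Finset.insert_subset_insert v h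
    have e0 := ih hf hg
    have e1 := ih (f := fun T => f (insert v T)) (g := fun T => g (insert v T))
      (fun A B h => hf _ _ (hi A B h)) (fun A B h => hg _ _ (hi A B h))
    have df : ex w s f ≤ ex w s fun T => f (insert v T) :=
      ex_mono w s h0 h1 fun T _ => hf _ _ (Finset.subset_insert v T)
    have dg : ex w s g ≤ ex w s fun T => g (insert v T) :=
      ex_mono w s h0 h1 fun T _ => hg _ _ (Finset.subset_insert v T)
    have a0 : 0 ≤ 1 - w v := sub_nonneg.2 (h1 v)
    nlinarith [mul_le_mul_of_nonneg_left e0 a0, mul_le_mul_of_nonneg_left e1 (h0 v),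
      mul_nonneg (mul_nonneg a0 (h0 v)) (mul_nonneg (sub_nonneg.2 df) (sub_nonneg.2 dg))]

end ex

/-! ### Basic facts about `pr` -/

theorem pr_nonneg (w : α → ℝ) (U : Finset α) (E : Finset α → Prop)
    (h0 : ∀ v, 0 ≤ w v) (h1 : ∀ v, w v ≤ 1) : 0 ≤ pr w U E := by
  rw [pr_eq_ex, ← ex_const w U 0]
  exact ex_mono w U h0 h1 fun T _ => ind_nonneg E T

/-- Total mass. -/
theorem pr_true (w : α → ℝ) (U : Finset α) : pr w U (fun _ => True) = 1 := by
  rw [pr_eq_ex]
  exact (ex_congr w U fun T _ => ind_of_true trivial).trans (ex_const w U 1)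

/-- Complement. -/
theorem pr_not (w : α → ℝ) (U : Finset α) (E : Finset α → Prop) :
    pr w U (fun T => ¬ E T) = 1 - pr w U E := by
  rw [eq_sub_iff_add_eq, pr_eq_ex, pr_eq_ex, ← ex_add]
  refine (ex_congr w U fun T _ => ?_).trans (ex_const w U 1)
  by_cases h : E T <;> simp [ind, h]

/-- Monotonicity. -/
theorem pr_mono (w : α → ℝ) (U : Finset α) {E F : Finset α → Prop}
    (h0 : ∀ v, 0 ≤ w v) (h1 : ∀ v, w v ≤ 1) (h : ∀ T ⊆ U, E T → F T) :
    pr w U E ≤ pr w U F := by
  rw [pr_eq_ex, pr_eq_ex]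
  exact ex_mono w U h0 h1 fun T hT => ind_le_ind (h T hT)

/-- Union bound. -/
theorem pr_exists_le {J : Type*} (Js : Finset J) (w : α → ℝ) (U : Finset α)
    (E : J → Finset α → Prop) (h0 : ∀ v, 0 ≤ w v) (h1 : ∀ v, w v ≤ 1) :
    pr w U (fun T => ∃ j ∈ Js, E j T) ≤ ∑ j ∈ Js, pr w U (E j) := by
  simp only [pr_eq_ex]
  rw [← ex_sum]
  refine ex_mono w U h0 h1 fun T _ => ?_
  by_cases h : ∃ j ∈ Js, E j T
  · obtain ⟨j, hj, hjT⟩ := h
    rw [ind_of_true ⟨j, hj, hjT⟩, ← ind_of_true hjT]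
    exact Finset.single_le_sum (fun i _ => ind_nonneg (E i) T) hj
  · rw [ind_of_false (E := fun T => ∃ j ∈ Js, E j T) h]
    exact Finset.sum_nonneg fun i _ => ind_nonneg (E i) T

theorem exists_of_pr_lt (w : α → ℝ) (U : Finset α) (E F : Finset α → Prop)
    (h0 : ∀ v, 0 ≤ w v) (h1 : ∀ v, w v ≤ 1) (h : pr w U F < pr w U E) :
    ∃ T ⊆ U, E T ∧ ¬ F T := by
  by_contra hn
  push Not at hn
  exact absurd (pr_mono w U h0 h1 hn) (not_le.2 h)

/-- A `[0, B]`-valued function is at least half its mean bound with substantial probability. -/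
theorem pr_ge_of_mean (w : α → ℝ) (U : Finset α) (f : Finset α → ℝ) (B a : ℝ)
    (h0 : ∀ v, 0 ≤ w v) (h1 : ∀ v, w v ≤ 1) (hf : ∀ T ⊆ U, 0 ≤ f T ∧ f T ≤ B) (hB : 0 < B)
    (hmean : a ≤ ∑ T ∈ U.powerset, bwt w U T * f T) :
    a / (2 * B) ≤ pr w U (fun T => a / 2 ≤ f T) := by
  rcases le_or_gt a 0 with ha | ha
  · exact le_trans (div_nonpos_of_nonpos_of_nonneg ha (by positivity)) (pr_nonneg w U _ h0 h1)
  have hle : ex w U f ≤ ex w U (fun T => a / 2 + B * ind (fun T => a / 2 ≤ f T) T) := by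
    refine ex_mono w U h0 h1 fun T hT => ?_
    by_cases h : a / 2 ≤ f T
    · rw [ind_of_true (E := fun T => a / 2 ≤ f T) h]; linarith [(hf T hT).2]
    · rw [ind_of_false (E := fun T => a / 2 ≤ f T) h]; linarith
  rw [ex_add, ex_const, ex_const_mul, ← pr_eq_ex] at hle
  rw [div_le_iff₀ (by positivity)]
  have : a ≤ ex w U f := hmean
  linarith

theorem pr_restrict (w : α → ℝ) (U S : Finset α) (E : Finset α → Prop) (hS : S ⊆ U) :
    pr w U (fun T => E (T ∩ S)) = pr w S E := by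
  rw [pr_eq_ex, pr_eq_ex, ex_split w U hS]
  refine ex_congr w S fun A hA => (ex_congr w _ fun B hB => ?_).trans (ex_const w _ _)
  have : (A ∪ B) ∩ S = A := by
    ext x
    simp only [mem_inter, mem_union]
    refine ⟨fun ⟨h, hx⟩ => h.resolve_right fun hb => (mem_sdiff.1 (hB hb)).2 hx,
      fun h => ⟨.inl h, hA h⟩⟩
  exact ind_congr (by rw [this])

/-- Events looking at pairwise disjoint sets of coordinates are independent. -/
theorem pr_forall_indep {Z : Type*} (Zs : Finset Z) (w : α → ℝ) (U : Finset α) (S : Z → Finset α)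
    (E : Z → Finset α → Prop) (hS : ∀ z ∈ Zs, S z ⊆ U)
    (hd : (Zs : Set Z).PairwiseDisjoint S) :
    pr w U (fun T => ∀ z ∈ Zs, E z (T ∩ S z)) = ∏ z ∈ Zs, pr w (S z) (E z) := by
  classical
  induction Zs using Finset.induction generalizing U with
  | empty => simp [pr_true]
  | @insert z Zs hz ih =>
    have hsub : ∀ z' ∈ Zs, S z' ⊆ U \ S z := fun z' hz' => Finset.subset_sdiff.2
      ⟨hS z' (mem_insert_of_mem hz'), hd (mem_coe.2 (mem_insert_of_mem hz'))
        (mem_coe.2 (mem_insert_self z Zs)) fun h => hz (h ▸ hz')⟩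
    have ih' := ih (U \ S z) hsub (hd.subset (by simp))
    rw [Finset.prod_insert hz, ← ih', pr_eq_ex, pr_eq_ex, pr_eq_ex,
      ex_split w U (hS z (mem_insert_self z Zs)), mul_comm (ex w (S z) _), ← ex_const_mul]
    refine ex_congr w _ fun A hA => ?_
    rw [mul_comm, ← ex_const_mul]
    refine ex_congr w _ fun B hB => ?_
    rw [show ind (E z) A = ind (fun _ => E z A) B from ind_congr Iff.rfl, ind_mul]
    have e1 : (A ∪ B) ∩ S z = A := by
      ext x
      simp only [mem_inter, mem_union]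
      exact ⟨fun ⟨h, hx⟩ => h.resolve_right fun hb => (mem_sdiff.1 (hB hb)).2 hx,
        fun h => ⟨.inl h, hA h⟩⟩
    have e2 : ∀ z' ∈ Zs, (A ∪ B) ∩ S z' = B ∩ S z' := fun z' hz' => by
      ext x
      simp only [mem_inter, mem_union]
      exact ⟨fun ⟨h, hx⟩ => ⟨h.resolve_left fun ha => (mem_sdiff.1 (hsub z' hz' hx)).2 (hA ha), hx⟩,
        fun ⟨h, hx⟩ => ⟨.inr h, hx⟩⟩
    refine ind_congr ?_
    simp only [Finset.forall_mem_insert, e1]
    exact and_congr_right fun _ => forall₂_congr fun z' hz' => by rw [e2 z' hz']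

/-- No vector of `W` is chosen. -/
theorem pr_none (w : α → ℝ) (U W : Finset α) (h : W ⊆ U) :
    pr w U (fun T => ∀ v ∈ W, v ∉ T) = ∏ v ∈ W, (1 - w v) := by
  have h2 : pr w W (fun T => ∀ v ∈ W, v ∉ T) = ∏ v ∈ W, (1 - w v) := by
    have h0 : ex w W (fun T => (0 : ℝ) ^ T.card) = ∏ v ∈ W, (1 - w v) := by
      rw [ex_pow]; exact Finset.prod_congr rfl fun v _ => by ring
    rw [← h0, pr_eq_ex]
    refine ex_congr w W fun T hT => ?_
    by_cases hT0 : T = ∅
    · subst hT0; simp [ind]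
    · obtain ⟨v, hv⟩ := Finset.nonempty_iff_ne_empty.2 hT0
      rw [ind_of_false (E := fun T => ∀ v ∈ W, v ∉ T) fun hh => hh v (hT hv) hv,
        zero_pow (Finset.card_ne_zero.2 ⟨v, hv⟩)]
  rw [← h2, ← pr_restrict w U W (fun T => ∀ v ∈ W, v ∉ T) h]
  congr 1
  funext T
  exact propext ⟨fun hh v hv hvT => hh v hv (mem_inter.1 hvT).1,
    fun hh v hv hvT => hh v hv (mem_inter.2 ⟨hvT, hv⟩)⟩

/-! ### The second moment -/

/-- All the units in `A` are hit by `T`. -/
def AllHit {ι : Type*} (A : Finset ι) (W : ι → Finset α) (T : Finset α) : Prop :=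
  ∀ a ∈ A, ∃ v ∈ W a, v ∈ T

omit [DecidableEq α] in
lemma AllHit.mono {ι : Type*} {A : Finset ι} {W : ι → Finset α} {T T' : Finset α} (h : T ⊆ T')
    (hT : AllHit A W T) : AllHit A W T' := fun a ha =>
  let ⟨v, hv, hvT⟩ := hT a ha; ⟨v, hv, h hvT⟩

/-- Units with mass `2 exp (-κ)` are all hit with probability at least `exp (-∑ κ)`. -/
lemma exp_le_pr_allHit {ι : Type*} (w : α → ℝ) (U : Finset α) (h0 : ∀ v, 0 ≤ w v)
    (h1 : ∀ v, w v ≤ 1) (A : Finset ι) (W : ι → Finset α) (κ : ι → ℝ)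
    (hsub : ∀ a ∈ A, W a ⊆ U) (hκ : ∀ a ∈ A, 1 ≤ κ a)
    (hW : ∀ a ∈ A, 2 * Real.exp (-κ a) ≤ ∑ v ∈ W a, w v) :
    Real.exp (-∑ a ∈ A, κ a) ≤ ex w U (ind (AllHit A W)) := by
  classical
  induction A using Finset.induction with
  | empty =>
    rw [Finset.sum_empty, neg_zero, Real.exp_zero]
    exact ((ex_congr w U fun T _ => ind_of_true (fun a ha => by simp at ha)).trans
      (ex_const w U 1)).ge
  | @insert a A ha ih =>
    rw [Finset.sum_insert ha, neg_add, Real.exp_add]
    have hq : Real.exp (-κ a) ≤ ex w U (ind fun T => ∃ v ∈ W a, v ∈ T) := by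
      have e : pr w U (fun T => ∃ v ∈ W a, v ∈ T) = 1 - ∏ v ∈ W a, (1 - w v) := by
        rw [← pr_none w U (W a) (hsub a (mem_insert_self a A)), eq_sub_iff_add_eq,
          show (fun T => ∀ v ∈ W a, v ∉ T) = fun T => ¬ ∃ v ∈ W a, v ∈ T by
            funext T; simp, pr_not, add_sub_cancel]
      rw [← pr_eq_ex, e]
      set x := 2 * Real.exp (-κ a) with hx
      have hx1 : x ≤ 1 := by
        have h2 := Real.add_one_le_exp (κ a)
        have h3 : Real.exp (κ a) * Real.exp (-κ a) = 1 := by rw [← Real.exp_add]; simp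
        have := hκ a (mem_insert_self a A)
        nlinarith [Real.exp_pos (-κ a)]
      have hp : ∏ v ∈ W a, (1 - w v) ≤ Real.exp (-x) :=
        calc ∏ v ∈ W a, (1 - w v) ≤ ∏ v ∈ W a, Real.exp (-w v) :=
              Finset.prod_le_prod (fun v _ => sub_nonneg.2 (h1 v))
                fun v _ => by linarith [Real.add_one_le_exp (-w v)]
          _ ≤ _ := by
            rw [← Real.exp_sum, Real.exp_le_exp, Finset.sum_neg_distrib]
            exact neg_le_neg (hW a (mem_insert_self a A))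
      have hexp : Real.exp (-x) * (1 + x) ≤ 1 := by
        have h3 : Real.exp (-x) * Real.exp x = 1 := by rw [← Real.exp_add]; simp
        nlinarith [Real.add_one_le_exp x, Real.exp_pos (-x)]
      have hx0 : 0 < x := by positivity
      nlinarith
    have ih' := ih (fun b hb => hsub b (mem_insert_of_mem hb))
      (fun b hb => hκ b (mem_insert_of_mem hb)) (fun b hb => hW b (mem_insert_of_mem hb))
    refine (mul_le_mul hq ih' (Real.exp_pos _).le ((Real.exp_pos _).le.trans hq)).trans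
      ((harris w U h0 h1 ?_ ?_).trans (le_of_eq (ex_congr w U fun T _ => ?_)))
    · exact fun S T h => ind_le_ind fun ⟨v, hv, hvT⟩ => ⟨v, hv, h hvT⟩
    · exact fun S T h => ind_le_ind fun hh => hh.mono h
    · rw [ind_mul]
      exact ind_congr (by simp only [AllHit, Finset.forall_mem_insert])

/-- Conditionally on the trials in `S` being `s`, the units of one test are hit with probability
at most `exp (Q |s|)` times the unconditional one. -/
lemma ex_allHit_cond_le {ι : Type*} (w : α → ℝ) (U S : Finset α) (h0 : ∀ v, 0 ≤ w v)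
    (h1 : ∀ v, w v ≤ 1) (A : Finset ι) (W : ι → Finset α) (κ : ι → ℝ) (Q : ℝ) (hS : S ⊆ U)
    (hsub : ∀ a ∈ A, W a ⊆ U) (hκ : ∀ a ∈ A, 1 ≤ κ a)
    (hW : ∀ a ∈ A, 2 * Real.exp (-κ a) ≤ ∑ v ∈ W a, w v)
    (hload : ∀ v, ∑ a ∈ A.filter (fun a => v ∈ W a), κ a ≤ Q) (s : Finset α) :
    ex w (U \ S) (ind (AllHit (A.filter fun a => ∀ v ∈ W a, v ∉ s) W))
      ≤ ex w U (ind (AllHit A W)) * Real.exp (Q * s.card) := by
  classical
  set A₀ := A.filter fun a => ∀ v ∈ W a, v ∉ s
  set A₁ := A.filter fun a => ¬ ∀ v ∈ W a, v ∉ s with hA₁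
  have hmono : ∀ B : Finset ι, ∀ T T', T ⊆ T' → ind (AllHit B W) T ≤ ind (AllHit B W) T' :=
    fun B T T' h => ind_le_ind fun hh => hh.mono h
  have e1 : ex w (U \ S) (ind (AllHit A₀ W)) ≤ ex w U (ind (AllHit A₀ W)) := by
    rw [ex_split w U hS, ← ex_const w S (ex w (U \ S) _)]
    exact ex_mono w S h0 h1 fun B _ => ex_mono w _ h0 h1 fun T _ => hmono _ _ _ subset_union_right
  have e2 := exp_le_pr_allHit w U h0 h1 A₁ W κ (fun a ha => hsub a (mem_filter.1 ha).1)
    (fun a ha => hκ a (mem_filter.1 ha).1) (fun a ha => hW a (mem_filter.1 ha).1)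
  have e3 : ∑ a ∈ A₁, κ a ≤ Q * s.card := by
    calc ∑ a ∈ A₁, κ a ≤ ∑ a ∈ A₁, ∑ v ∈ s, if v ∈ W a then κ a else 0 := by
          refine Finset.sum_le_sum fun a ha => ?_
          obtain ⟨haA, hh⟩ := mem_filter.1 ha
          push Not at hh
          obtain ⟨v, hv, hvs⟩ := hh
          refine le_trans (by rw [if_pos hv]) (Finset.single_le_sum (fun u _ => ?_) hvs)
          split_ifs
          · linarith [hκ a haA]
          · exact le_rfl
      _ = ∑ v ∈ s, ∑ a ∈ A₁, if v ∈ W a then κ a else 0 := Finset.sum_comm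
      _ ≤ ∑ v ∈ s, Q := by
          refine Finset.sum_le_sum fun v _ => le_trans ?_ (hload v)
          rw [← Finset.sum_filter]
          refine Finset.sum_le_sum_of_subset_of_nonneg ?_ fun a ha _ => ?_
          · intro a ha
            rw [mem_filter, hA₁, mem_filter] at ha
            exact mem_filter.2 ⟨ha.1.1, ha.2⟩
          · linarith [hκ a (mem_filter.1 ha).1]
      _ = Q * s.card := by rw [Finset.sum_const, nsmul_eq_mul, mul_comm]
  have e4 : ex w U (ind (AllHit A₀ W)) * ex w U (ind (AllHit A₁ W)) ≤ ex w U (ind (AllHit A W)) := by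
    refine (harris w U h0 h1 (hmono _) (hmono _)).trans (ex_mono w U h0 h1 fun T _ => ?_)
    rw [ind_mul]
    refine ind_le_ind fun ⟨h₀, h₁⟩ a ha => ?_
    by_cases hh : ∀ v ∈ W a, v ∉ s
    · exact h₀ a (mem_filter.2 ⟨ha, hh⟩)
    · exact h₁ a (mem_filter.2 ⟨ha, hh⟩)
  have hpos : 0 ≤ ex w U (ind (AllHit A₀ W)) := by
    rw [← pr_eq_ex]; exact pr_nonneg w U _ h0 h1
  refine e1.trans ?_
  calc ex w U (ind (AllHit A₀ W))
      = ex w U (ind (AllHit A₀ W)) * Real.exp (-(Q * s.card)) * Real.exp (Q * s.card) := by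
        rw [mul_assoc, ← Real.exp_add]; simp
    _ ≤ _ := by
        refine mul_le_mul_of_nonneg_right ?_ (Real.exp_pos _).le
        refine le_trans (mul_le_mul_of_nonneg_left ?_ hpos) e4
        exact le_trans (Real.exp_le_exp.2 (neg_le_neg e3)) e2

/-- Second moment for some test has all its units hit. -/
theorem second_moment {Y ι : Type*} [DecidableEq ι] (w : α → ℝ) (U : Finset α)
    (h0 : ∀ v, 0 ≤ w v) (h1 : ∀ v, w v ≤ 1)
    (Ys : Finset Y) (A : Y → Finset ι) (W : Y → ι → Finset α) (κ : Y → ι → ℝ) (Q C : ℝ)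
    (hQ : 0 ≤ Q) (hsub : ∀ y ∈ Ys, ∀ a ∈ A y, W y a ⊆ U)
    (hκ : ∀ y ∈ Ys, ∀ a ∈ A y, 1 ≤ κ y a)
    (hW : ∀ y ∈ Ys, ∀ a ∈ A y, 2 * Real.exp (-κ y a) ≤ ∑ v ∈ W y a, w v)
    (hcost : ∀ y ∈ Ys, ∑ a ∈ A y, κ y a ≤ C)
    (hload : ∀ y ∈ Ys, ∀ v, ∑ a ∈ (A y).filter (fun a => v ∈ W y a), κ y a ≤ Q)
    (hpair : ∀ y ∈ Ys, ∀ y' ∈ Ys, y ≠ y' →
      ∑ v ∈ (A y).biUnion (W y) ∩ (A y').biUnion (W y'), w v ≤ Real.exp (-2 * Q) / 2)
    (hnum : Real.exp C ≤ (Ys.card : ℝ)) :
    1 / 4 ≤ pr w U (fun T => ∃ y ∈ Ys, ∀ a ∈ A y, ∃ v ∈ W y a, v ∈ T) := by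
  classical
  let B : Y → Finset α → ℝ := fun y => ind (AllHit (A y) (W y))
  let P : Y → ℝ := fun y => ex w U (B y)
  have hP : ∀ y ∈ Ys, Real.exp (-C) ≤ P y := fun y hy =>
    le_trans (Real.exp_le_exp.2 (neg_le_neg (hcost y hy)))
      (exp_le_pr_allHit w U h0 h1 (A y) (W y) (κ y) (hsub y hy) (hκ y hy) (hW y hy))
  have hP0 : ∀ y ∈ Ys, 0 ≤ P y := fun y hy => (Real.exp_pos _).le.trans (hP y hy)
  have pair : ∀ y ∈ Ys, ∀ y' ∈ Ys, y ≠ y' →
      ex w U (fun T => B y T * B y' T) ≤ 2 * (P y * P y') := by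
    intro y hy y' hy' hne
    set Uy := (A y).biUnion (W y) with hUy
    set Uy' := (A y').biUnion (W y') with hUy'
    set S := Uy ∩ Uy' with hSdef
    have hUyU : Uy ⊆ U := Finset.biUnion_subset.2 (hsub y hy)
    have hS : S ⊆ U := inter_subset_left.trans hUyU
    have hR1 : Uy \ S ⊆ U \ S := Finset.sdiff_subset_sdiff hUyU le_rfl
    rw [ex_split w U hS]
    refine (ex_mono w S h0 h1 (g := fun s => P y * P y' * Real.exp (2 * Q) ^ s.card)
      fun s _ => ?_).trans ?_
    · set g := ind (AllHit ((A y).filter fun a => ∀ v ∈ W y a, v ∉ s) (W y)) with hg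
      set g' := ind (AllHit ((A y').filter fun a => ∀ v ∈ W y' a, v ∉ s) (W y')) with hg'
      have step : ∀ r, B y (s ∪ r) * B y' (s ∪ r) ≤ g r * g' r := by
        intro r
        rw [hg, hg', ind_mul, ind_mul]
        refine ind_le_ind fun ⟨hb, hb'⟩ => ⟨fun a ha => ?_, fun a ha => ?_⟩
        · obtain ⟨v, hv, hvT⟩ := hb a (mem_filter.1 ha).1
          exact ⟨v, hv, (mem_union.1 hvT).resolve_left ((mem_filter.1 ha).2 v hv)⟩
        · obtain ⟨v, hv, hvT⟩ := hb' a (mem_filter.1 ha).1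
          exact ⟨v, hv, (mem_union.1 hvT).resolve_left ((mem_filter.1 ha).2 v hv)⟩
      refine (ex_mono w _ h0 h1 fun r _ => step r).trans (le_of_eq_of_le (b :=
        ex w (U \ S) g * ex w (U \ S) g') ?_ ?_)
      · have eg : ∀ A₁ ⊆ Uy \ S, ∀ B₁ ⊆ (U \ S) \ (Uy \ S), g (A₁ ∪ B₁) = g A₁ := by
          intro A₁ _ B₁ hB₁
          refine le_antisymm (ind_le_ind fun hh a ha => ?_)
            (ind_le_ind fun hh => hh.mono subset_union_left)
          obtain ⟨v, hv, hvT⟩ := hh a ha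
          refine ⟨v, hv, (mem_union.1 hvT).resolve_right fun hb => ?_⟩
          obtain ⟨hvR, hvn⟩ := mem_sdiff.1 (hB₁ hb)
          exact hvn (mem_sdiff.2 ⟨mem_biUnion.2 ⟨a, (mem_filter.1 ha).1, hv⟩, (mem_sdiff.1 hvR).2⟩)
        have eg' : ∀ A₁ ⊆ Uy \ S, ∀ B₁ : Finset α, g' (A₁ ∪ B₁) = g' B₁ := by
          intro A₁ hA₁ B₁
          refine le_antisymm (ind_le_ind fun hh a ha => ?_)
            (ind_le_ind fun hh => hh.mono subset_union_right)
          obtain ⟨v, hv, hvT⟩ := hh a ha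
          refine ⟨v, hv, (mem_union.1 hvT).resolve_left fun hb => ?_⟩
          obtain ⟨hvy, hvn⟩ := mem_sdiff.1 (hA₁ hb)
          exact hvn (mem_inter.2 ⟨hvy, mem_biUnion.2 ⟨a, (mem_filter.1 ha).1, hv⟩⟩)
        have e1 : ex w (U \ S) g = ex w (Uy \ S) g := by
          rw [ex_split w (U \ S) hR1]
          exact ex_congr w _ fun A₁ hA₁ =>
            (ex_congr w _ fun B₁ hB₁ => eg A₁ hA₁ B₁ hB₁).trans (ex_const w _ _)
        have e2 : ex w (U \ S) g' = ex w ((U \ S) \ (Uy \ S)) g' := by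
          rw [ex_split w (U \ S) hR1]
          exact (ex_congr w _ fun A₁ hA₁ => ex_congr w _ fun B₁ _ => eg' A₁ hA₁ B₁).trans
            (ex_const w _ _)
        rw [e1, e2, ex_split w (U \ S) hR1, mul_comm (ex w (Uy \ S) g), ← ex_const_mul]
        refine ex_congr w _ fun A₁ hA₁ => ?_
        rw [mul_comm, ← ex_const_mul]
        exact ex_congr w _ fun B₁ hB₁ => by rw [eg A₁ hA₁ B₁ hB₁, eg' A₁ hA₁ B₁]
      · have hc := ex_allHit_cond_le w U S h0 h1 (A y) (W y) (κ y) Q hS (hsub y hy) (hκ y hy)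
          (hW y hy) (hload y hy) s
        have hc' := ex_allHit_cond_le w U S h0 h1 (A y') (W y') (κ y') Q hS (hsub y' hy')
          (hκ y' hy') (hW y' hy') (hload y' hy') s
        have hg0 : 0 ≤ ex w (U \ S) g' := by rw [hg', ← pr_eq_ex]; exact pr_nonneg w _ _ h0 h1
        refine (mul_le_mul hc hc' hg0 (mul_nonneg (hP0 y hy) (Real.exp_pos _).le)).trans (le_of_eq ?_)
        rw [← Real.exp_nat_mul]
        calc P y * Real.exp (Q * s.card) * (P y' * Real.exp (Q * s.card))
            = P y * P y' * Real.exp (Q * s.card + Q * s.card) := by rw [Real.exp_add]; ring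
          _ = _ := by ring_nf
    · rw [ex_const_mul, ex_pow]
      refine (mul_le_mul_of_nonneg_left (c := 2) ?_
        (mul_nonneg (hP0 y hy) (hP0 y' hy'))).trans (le_of_eq (mul_comm _ _))
      have he : 0 < Real.exp (2 * Q) := Real.exp_pos _
      calc ∏ v ∈ S, (1 - w v + w v * Real.exp (2 * Q))
          ≤ ∏ v ∈ S, Real.exp (w v * Real.exp (2 * Q)) :=
            Finset.prod_le_prod (fun v _ => by nlinarith [h0 v, h1 v])
              fun v _ => by linarith [Real.add_one_le_exp (w v * Real.exp (2 * Q)), h0 v]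
        _ = Real.exp ((∑ v ∈ S, w v) * Real.exp (2 * Q)) := by rw [← Real.exp_sum, Finset.sum_mul]
        _ ≤ Real.exp (1 / 2) := by
            refine Real.exp_le_exp.2 ?_
            calc _ ≤ Real.exp (-2 * Q) / 2 * Real.exp (2 * Q) :=
                  mul_le_mul_of_nonneg_right (hpair y hy y' hy' hne) he.le
              _ = _ := by
                  rw [div_mul_eq_mul_div, ← Real.exp_add]; simp
        _ ≤ 2 := by
            have h3 : Real.exp (1 / 2) * Real.exp (-(1 / 2)) = 1 := by rw [← Real.exp_add]; simp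
            nlinarith [Real.add_one_le_exp (-(1 / 2) : ℝ), Real.exp_pos (1 / 2 : ℝ)]
  let X : Finset α → ℝ := fun T => ∑ y ∈ Ys, B y T
  obtain ⟨μ, hμ⟩ : ∃ μ, μ = ∑ y ∈ Ys, P y := ⟨_, rfl⟩
  have hμ1 : 1 ≤ μ :=
    calc (1 : ℝ) = Real.exp C * Real.exp (-C) := by rw [← Real.exp_add]; simp
      _ ≤ (Ys.card : ℝ) * Real.exp (-C) := mul_le_mul_of_nonneg_right hnum (Real.exp_pos _).le
      _ ≤ μ := by rw [hμ, ← nsmul_eq_mul]; exact Finset.card_nsmul_le_sum _ _ _ hP
  have hEX : ex w U X = μ := by rw [hμ]; exact ex_sum w U Ys B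
  have hEX2 : ex w U (fun T => X T * X T) ≤ 3 * μ ^ 2 := by
    calc ex w U (fun T => X T * X T)
        = ∑ y ∈ Ys, ∑ y' ∈ Ys, ex w U (fun T => B y T * B y' T) := by
          simp only [← ex_sum]
          exact ex_congr w U fun T _ => Finset.sum_mul_sum ..
      _ ≤ ∑ y ∈ Ys, ∑ y' ∈ Ys, (2 * (P y * P y') + if y = y' then P y else 0) := by
          refine Finset.sum_le_sum fun y hy => Finset.sum_le_sum fun y' hy' => ?_
          by_cases h : y = y'
          · subst h
            rw [if_pos rfl]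
            refine le_add_of_nonneg_of_le (by have := hP0 y hy; positivity) (le_of_eq ?_)
            exact ex_congr w U fun T _ => by
              simp only [B, ind]; split_ifs <;> simp
          · rw [if_neg h, add_zero]; exact pair y hy y' hy' h
      _ = 2 * (μ * μ) + μ := by
          rw [hμ, Finset.sum_mul_sum]
          simp only [Finset.sum_add_distrib, Finset.mul_sum]
          congr 1
          exact Finset.sum_congr rfl fun y hy => by rw [Finset.sum_ite_eq, if_pos hy]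
      _ ≤ _ := by nlinarith
  rw [pr_eq_ex]
  obtain ⟨t, ht⟩ : ∃ t, t = 1 / (3 * μ) := ⟨_, rfl⟩
  have hle : ex w U (fun T => 2 * t * X T + (-t ^ 2) * (X T * X T)) ≤
      ex w U (ind fun T => ∃ y ∈ Ys, ∀ a ∈ A y, ∃ v ∈ W y a, v ∈ T) := by
    refine ex_mono w U h0 h1 fun T _ => ?_
    by_cases h : ∃ y ∈ Ys, ∀ a ∈ A y, ∃ v ∈ W y a, v ∈ T
    · rw [ind_of_true (E := fun T => ∃ y ∈ Ys, ∀ a ∈ A y, ∃ v ∈ W y a, v ∈ T) h]
      nlinarith [sq_nonneg (t * X T - 1)]
    · have : X T = 0 := Finset.sum_eq_zero fun y hy => ind_of_false fun hh => h ⟨y, hy, hh⟩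
      rw [this]; simpa using ind_nonneg _ T
  rw [ex_add, ex_const_mul, ex_const_mul, hEX] at hle
  refine le_trans ?_ hle
  have h5 : t ^ 2 * ex w U (fun T => X T * X T) ≤ t ^ 2 * (3 * μ ^ 2) :=
    mul_le_mul_of_nonneg_left hEX2 (sq_nonneg t)
  have h6 : 2 * t * μ = 2 / 3 := by rw [ht]; field_simp
  have h7 : t ^ 2 * (3 * μ ^ 2) = 1 / 3 := by rw [ht]; field_simp
  linarith

end Vale.Agent.P230
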