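import Mathlib
import Vale.Agent.P230.Defs
import Vale.Agent.P230.Prob

/-!
# P230: the random body
-/

namespace Vale.Agent.P230

open Finset MeasureTheory
open scoped RealInnerProductSpace ENNReal

/-- The unit ball cut by the half spaces `⟪v, u⟫ ≤ 1`, `v ∈ T`. -/
def body {n : ℕ} (T : Finset (Sp n)) : Set (Sp n) :=
  Metric.closedBall 0 1 ∩ {u | ∀ v ∈ T, ⟪v, u⟫ ≤ 1}

theorem isClosed_body {n : ℕ} (T : Finset (Sp n)) : IsClosed (body T) := by
  refine Metric.isClosed_closedBall.inter ?_
  simp only [Set.ofPred_forall]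
  exact isClosed_iInter fun v => isClosed_iInter fun _ =>
    isClosed_le (continuous_const.inner continuous_id) continuous_const

theorem convex_body {n : ℕ} (T : Finset (Sp n)) : Convex ℝ (body T) := by
  refine (convex_closedBall _ _).inter ?_
  simp only [Set.ofPred_forall]
  refine convex_iInter fun v => convex_iInter fun _ => ?_
  exact convex_halfSpace_le ⟨fun a b => inner_add_right v a b, fun c a => by
    rw [real_inner_smul_right, smul_eq_mul]⟩ 1

theorem body_shape {n : ℕ} (C : CapSys n) {T : Finset (Sp n)} (h : T ⊆ C.V) :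
    Convex ℝ (body T) ∧ IsCompact (body T) ∧ (interior (body T)).Nonempty := by
  refine ⟨convex_body T, (isCompact_closedBall _ _).of_isClosed_subset (isClosed_body T)
    Set.inter_subset_left, ⟨0, mem_interior.2 ⟨Metric.ball 0 (1 / 4), ?_, Metric.isOpen_ball,
      Metric.mem_ball_self (by norm_num)⟩⟩⟩
  intro u hu
  rw [Metric.mem_ball, dist_zero_right] at hu
  refine ⟨by rw [Metric.mem_closedBall, dist_zero_right]; linarith, fun v hv => ?_⟩
  calc ⟪v, u⟫ ≤ ‖v‖ * ‖u‖ := real_inner_le_norm v u
    _ ≤ 4 * (1 / 4) := by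
        gcongr
        exact C.norm_le v (h hv)
    _ = 1 := by norm_num

/-- A point of the unit ball survives with probability at least `exp (-8)`. -/
theorem exp_le_pr_mem {n : ℕ} (C : CapSys n) (u : Sp n) (hu : ‖u‖ ≤ 1) :
    Real.exp (-8) ≤ pr C.w C.V (fun T => u ∈ body T) := by
  have h1 : ∀ v, C.w v ≤ 1 := fun v => (C.w_le v).trans (by norm_num)
  have hsub : capSet C.V u 1 ⊆ C.V := by
    intro v hv
    simp only [capSet, mem_filter] at hv
    exact hv.1
  calc Real.exp (-8) ≤ ∏ v ∈ capSet C.V u 1, Real.exp (-(2 * C.w v)) := by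
        rw [← Real.exp_sum, Real.exp_le_exp, sum_neg_distrib, ← mul_sum]
        linarith [C.mass_unit u hu]
    _ ≤ ∏ v ∈ capSet C.V u 1, (1 - C.w v) := by
        refine prod_le_prod (fun v _ => (Real.exp_pos _).le) fun v _ => ?_
        have h2 := C.w_le v
        have h3 := C.w_nonneg v
        rw [Real.exp_neg, inv_le_iff_one_le_mul₀ (Real.exp_pos _)]
        calc (1 : ℝ) ≤ (1 - C.w v) * (2 * C.w v + 1) := by nlinarith
          _ ≤ _ := mul_le_mul_of_nonneg_left (Real.add_one_le_exp _) (by linarith)
    _ = pr C.w C.V (fun T => ∀ v ∈ capSet C.V u 1, v ∉ T) :=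
        (pr_none _ _ _ hsub).symm
    _ ≤ _ := by
        refine pr_mono _ _ C.w_nonneg h1 fun T hT hav => ⟨by simpa using hu, fun v hv => ?_⟩
        by_contra! hlt
        refine hav v ?_ hv
        simp only [capSet, mem_filter]
        exact ⟨hT hv, hlt.le⟩

theorem body_volume {n : ℕ} (_hn : 1 ≤ n) (C : CapSys n) :
    Real.exp (-9) ≤ pr C.w C.V (fun T =>
      ENNReal.ofReal (Real.exp (-9)) * volume (Metric.closedBall (0 : Sp n) 1)
        ≤ volume (body T)) := by
  classical
  have h1 : ∀ v, C.w v ≤ 1 := fun v => (C.w_le v).trans (by norm_num)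
  have hb : ∀ T, 0 ≤ bwt C.w C.V T := fun T => mul_nonneg (prod_nonneg fun v _ => C.w_nonneg v)
    (prod_nonneg fun v _ => sub_nonneg.2 (h1 v))
  set V := volume (Metric.closedBall (0 : Sp n) 1) with hV
  have hV0 : V ≠ 0 := (Metric.measure_closedBall_pos volume _ one_pos).ne'
  have hVt : V ≠ ⊤ := measure_closedBall_lt_top.ne
  have hBV : ∀ T, volume (body T) ≤ V := fun T => measure_mono Set.inter_subset_left
  -- the mean volume
  have hmeanE : ENNReal.ofReal (Real.exp (-8)) * V
      ≤ ∑ T ∈ C.V.powerset, ENNReal.ofReal (bwt C.w C.V T) * volume (body T) := by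
    calc ENNReal.ofReal (Real.exp (-8)) * V
        = ∫⁻ _u in Metric.closedBall (0 : Sp n) 1, ENNReal.ofReal (Real.exp (-8)) :=
          (setLIntegral_const _ _).symm
      _ ≤ ∫⁻ u in Metric.closedBall (0 : Sp n) 1, ∑ T ∈ C.V.powerset,
            (body T).indicator (fun _ => ENNReal.ofReal (bwt C.w C.V T)) u := by
          refine setLIntegral_mono' measurableSet_closedBall fun u hu => ?_
          rw [Metric.mem_closedBall, dist_zero_right] at hu
          calc ENNReal.ofReal (Real.exp (-8))
              ≤ ENNReal.ofReal (pr C.w C.V fun T => u ∈ body T) :=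
                ENNReal.ofReal_le_ofReal (exp_le_pr_mem C u hu)
            _ = _ := by
                unfold pr
                rw [ENNReal.ofReal_sum_of_nonneg fun T _ => by split_ifs <;> simp [hb]]
                refine sum_congr rfl fun T _ => ?_
                rw [Set.indicator_apply]
                split_ifs <;> simp
      _ ≤ ∫⁻ u, ∑ T ∈ C.V.powerset,
            (body T).indicator (fun _ => ENNReal.ofReal (bwt C.w C.V T)) u :=
          setLIntegral_le_lintegral _ _
      _ = ∑ T ∈ C.V.powerset, ENNReal.ofReal (bwt C.w C.V T) * volume (body T) := by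
          rw [lintegral_finsetSum _ fun T _ =>
            measurable_const.indicator (isClosed_body T).measurableSet]
          refine sum_congr rfl fun T _ => ?_
          rw [lintegral_indicator_const (isClosed_body T).measurableSet]
  have hmean : Real.exp (-8) * V.toReal
      ≤ ∑ T ∈ C.V.powerset, bwt C.w C.V T * (volume (body T)).toReal := by
    have := ENNReal.toReal_mono ?_ hmeanE
    · rw [ENNReal.toReal_mul, ENNReal.toReal_ofReal (Real.exp_pos _).le,
        ENNReal.toReal_sum fun T _ =>
          ENNReal.mul_ne_top ENNReal.ofReal_ne_top (ne_top_of_le_ne_top hVt (hBV T))] at this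
      refine this.trans (le_of_eq (sum_congr rfl fun T _ => ?_))
      rw [ENNReal.toReal_mul, ENNReal.toReal_ofReal (hb T)]
    · exact ENNReal.sum_ne_top.2 fun T _ =>
        ENNReal.mul_ne_top ENNReal.ofReal_ne_top (ne_top_of_le_ne_top hVt (hBV T))
  have hVpos : 0 < V.toReal := ENNReal.toReal_pos hV0 hVt
  have key := pr_ge_of_mean C.w C.V (fun T => (volume (body T)).toReal) V.toReal
    (Real.exp (-8) * V.toReal) C.w_nonneg h1
    (fun T _ => ⟨ENNReal.toReal_nonneg, ENNReal.toReal_mono hVt (hBV T)⟩) hVpos hmean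
  have he : 2 * Real.exp (-9) ≤ Real.exp (-8) := by
    rw [show (-8 : ℝ) = 1 + -9 by norm_num, Real.exp_add]
    gcongr
    linarith [Real.add_one_le_exp (1 : ℝ)]
  calc Real.exp (-9) ≤ Real.exp (-8) * V.toReal / (2 * V.toReal) := by
        rw [le_div_iff₀ (by positivity)]
        nlinarith
    _ ≤ _ := key
    _ ≤ _ := by
        refine pr_mono _ _ C.w_nonneg h1 fun T _ hT => ?_
        rw [← ENNReal.toReal_le_toReal (ENNReal.mul_ne_top ENNReal.ofReal_ne_top hVt)
          (ne_top_of_le_ne_top hVt (hBV T)), ENNReal.toReal_mul,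
          ENNReal.toReal_ofReal (Real.exp_pos _).le]
        nlinarith

end Vale.Agent.P230
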