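import Mathlib
import Vale.Agent.P230.Defs
import Vale.Agent.P262.GaussTail

/-!
# P230, M2: a finite grid system of weighted cap vectors imitating the Gaussian measure
-/

namespace Vale.Agent.P230

open Finset Filter MeasureTheory ProbabilityTheory Real
open scoped RealInnerProductSpace ENNReal NNReal

namespace CapX

/-- The standard normal density. -/
noncomputable def phi (x : ℝ) : ℝ := gaussianPDFReal 0 1 x

/-- The standard normal tail. -/
noncomputable def tl (s : ℝ) : ℝ := (gaussianReal 0 1).real (Set.Ioi s)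

lemma phi_eq (x : ℝ) : phi x = (√(2 * π))⁻¹ * exp (-x ^ 2 / 2) := by
  unfold phi
  rw [gaussianPDFReal_def]
  simp

lemma phi_nonneg (x : ℝ) : 0 ≤ phi x := gaussianPDFReal_nonneg _ _ _

lemma phi_le_one (x : ℝ) : phi x ≤ 1 := by
  rw [phi_eq]
  have h1 : 1 ≤ √(2 * π) := by
    rw [Real.one_le_sqrt]
    linarith [Real.two_le_pi]
  have h2 : (√(2 * π))⁻¹ ≤ 1 := inv_le_one_of_one_le₀ h1
  have h3 : exp (-x ^ 2 / 2) ≤ 1 := exp_le_one_iff.2 (by nlinarith [sq_nonneg x])
  calc (√(2 * π))⁻¹ * exp (-x ^ 2 / 2) ≤ 1 * 1 :=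
        mul_le_mul h2 h3 (exp_pos _).le zero_le_one
    _ = 1 := one_mul 1

lemma integrable_phi : Integrable phi := integrable_gaussianPDFReal _ _

lemma measureReal_eq (s : Set ℝ) : (gaussianReal 0 1).real s = ∫ x in s, phi x := by
  rw [measureReal_def, gaussianReal_apply_eq_integral 0 one_ne_zero s]
  exact ENNReal.toReal_ofReal (setIntegral_nonneg_of_ae (ae_of_all _ phi_nonneg))

lemma integrable_phi_add (d : ℝ) : Integrable (fun x => phi (x + d)) :=
  integrable_phi.comp_add_right d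

lemma tl_add (a d : ℝ) : tl (a + d) = ∫ x in Set.Ioi a, phi (x + d) := by
  rw [tl, measureReal_eq]
  have h := (measurePreserving_add_right volume d).setIntegral_preimage_emb
    (measurableEmbedding_addRight d) phi (Set.Ioi (a + d))
  rw [← h]
  congr 1
  have : (fun x => x + d) ⁻¹' Set.Ioi (a + d) = Set.Ioi a := by
    ext x; simp
  rw [this]

lemma tl_nonneg (s : ℝ) : 0 ≤ tl s := measureReal_nonneg

lemma tl_le_one (s : ℝ) : tl s ≤ 1 := measureReal_le_one

lemma tl_anti : Antitone tl := fun _ _ h => measureReal_mono (Set.Ioi_subset_Ioi h)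

lemma tl_split (a : ℝ) :
    tl a = (gaussianReal 0 1).real (Set.Ioc a (a + 1)) + tl (a + 1) := by
  unfold tl
  rw [← measureReal_union (Set.Ioc_disjoint_Ioi le_rfl) measurableSet_Ioi,
    Set.Ioc_union_Ioi_eq_Ioi (by linarith)]

lemma tl_chernoff {s : ℝ} (hs : 0 ≤ s) : tl s ≤ exp (-s ^ 2 / 2) := by
  have h := tl_add 0 s
  rw [zero_add] at h
  rw [h]
  calc ∫ x in Set.Ioi (0:ℝ), phi (x + s)
      ≤ ∫ x in Set.Ioi (0:ℝ), exp (-s ^ 2 / 2) * phi x := by
        refine setIntegral_mono_on (integrable_phi_add s).integrableOn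
          (integrable_phi.const_mul _).integrableOn measurableSet_Ioi fun x hx => ?_
        rw [Set.mem_Ioi] at hx
        rw [phi_eq, phi_eq, ← mul_assoc, mul_comm (exp _) ((√(2 * π))⁻¹), mul_assoc, ← exp_add]
        refine mul_le_mul_of_nonneg_left (exp_le_exp.2 ?_) (by positivity)
        nlinarith
    _ ≤ exp (-s ^ 2 / 2) * 1 := by
        rw [integral_const_mul]
        refine mul_le_mul_of_nonneg_left ?_ (exp_pos _).le
        rw [← measureReal_eq]
        exact measureReal_le_one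
    _ = _ := mul_one _

lemma tl_next {a : ℝ} : tl (a + 1) ≤ exp (-a) * tl a := by
  rw [tl_add a 1, tl, measureReal_eq, ← integral_const_mul]
  refine setIntegral_mono_on (integrable_phi_add 1).integrableOn
    (integrable_phi.const_mul _).integrableOn measurableSet_Ioi fun x hx => ?_
  rw [Set.mem_Ioi] at hx
  rw [phi_eq, phi_eq, ← mul_assoc, mul_comm (exp _) ((√(2 * π))⁻¹), mul_assoc, ← exp_add]
  refine mul_le_mul_of_nonneg_left (exp_le_exp.2 ?_) (by positivity)
  nlinarith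

/-- Shifting the threshold by `d` costs at most `exp (-(a + 1) d - d² / 2)`. -/
lemma tl_shift {a d : ℝ} (ha : 1 ≤ a) (hd : 0 ≤ d) :
    exp (-((a + 1) * d + d ^ 2 / 2)) * (tl a / 2) ≤ tl (a + d) := by
  have h1 : tl (a + 1) ≤ tl a / 2 := by
    have hn := tl_next (a := a)
    have he : exp (-a) ≤ 1 / 2 := by
      rw [exp_neg, one_div]
      exact inv_anti₀ two_pos (le_trans (by linarith) (add_one_le_exp a))
    nlinarith [tl_nonneg a]
  have h2 : tl a / 2 ≤ ∫ x in Set.Ioc a (a + 1), phi x := by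
    rw [← measureReal_eq]
    linarith [tl_split a]
  calc exp (-((a + 1) * d + d ^ 2 / 2)) * (tl a / 2)
      ≤ exp (-((a + 1) * d + d ^ 2 / 2)) * ∫ x in Set.Ioc a (a + 1), phi x :=
        mul_le_mul_of_nonneg_left h2 (exp_pos _).le
    _ ≤ ∫ x in Set.Ioc a (a + 1), phi (x + d) := by
        rw [← integral_const_mul]
        refine setIntegral_mono_on (integrable_phi.const_mul _).integrableOn
          (integrable_phi_add d).integrableOn measurableSet_Ioc fun x hx => ?_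
        obtain ⟨hx1, hx2⟩ := hx
        rw [phi_eq, phi_eq, ← mul_assoc, mul_comm (exp _) ((√(2 * π))⁻¹), mul_assoc, ← exp_add]
        refine mul_le_mul_of_nonneg_left (exp_le_exp.2 ?_) (by positivity)
        nlinarith [mul_le_mul_of_nonneg_right hx2 hd]
    _ ≤ ∫ x in Set.Ioi a, phi (x + d) :=
        setIntegral_mono_set (integrable_phi_add d).integrableOn
          (ae_of_all _ fun x => phi_nonneg _) Set.Ioc_subset_Ioi_self.eventuallyLE
    _ = tl (a + d) := (tl_add a d).symm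

lemma tl_lower {z : ℝ} (hz : 2 ≤ z) : exp (-z ^ 2 / 2) / (20 * z) ≤ tl z := by
  have hz0 : 0 < z := by linarith
  have hpi : √(2 * π) ≤ 13 / 5 := by
    rw [Real.sqrt_le_left (by norm_num)]
    linarith [Real.pi_lt_d2]
  have he : exp (9 / 8 : ℝ) ≤ 4 := by
    have h := Real.exp_one_lt_d9
    have h2 : exp (1 / 8 : ℝ) ≤ 1 / (1 - 1 / 8) := exp_bound_div_one_sub_of_interval (by norm_num) (by norm_num)
    rw [show (9 / 8 : ℝ) = 1 + 1 / 8 by norm_num, exp_add]
    nlinarith [exp_pos (1 / 8 : ℝ), exp_pos (1 : ℝ)]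
  have hc : exp (-z ^ 2 / 2) / 20 ≤ phi (z + z⁻¹) := by
    rw [phi_eq]
    have hi : z⁻¹ ≤ 1 / 2 := by
      rw [one_div]; exact inv_anti₀ two_pos hz
    have hii : 0 < z⁻¹ := inv_pos.2 hz0
    have hexp : exp (-z ^ 2 / 2) * exp (-(9 / 8)) ≤ exp (-(z + z⁻¹) ^ 2 / 2) := by
      rw [← exp_add]
      refine exp_le_exp.2 ?_
      have : z * z⁻¹ = 1 := mul_inv_cancel₀ hz0.ne'
      nlinarith
    have hq : (1 : ℝ) / 20 ≤ (√(2 * π))⁻¹ * exp (-(9 / 8)) := by
      rw [exp_neg, ← mul_inv, one_div]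
      refine inv_anti₀ (mul_pos (by positivity) (exp_pos _)) ?_
      nlinarith [Real.sqrt_nonneg (2 * π), exp_pos (9 / 8 : ℝ)]
    calc exp (-z ^ 2 / 2) / 20 ≤ exp (-z ^ 2 / 2) * ((√(2 * π))⁻¹ * exp (-(9 / 8))) := by
          rw [div_eq_mul_one_div]
          exact mul_le_mul_of_nonneg_left hq (exp_pos _).le
      _ = (√(2 * π))⁻¹ * (exp (-z ^ 2 / 2) * exp (-(9 / 8))) := by ring
      _ ≤ _ := mul_le_mul_of_nonneg_left hexp (by positivity)
  have hb : z⁻¹ * (exp (-z ^ 2 / 2) / 20) ≤ ∫ x in Set.Ioc z (z + z⁻¹), phi x := by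
    calc z⁻¹ * (exp (-z ^ 2 / 2) / 20) = ∫ _x in Set.Ioc z (z + z⁻¹), exp (-z ^ 2 / 2) / 20 := by
          simp [hz0.le]
      _ ≤ _ := by
          refine setIntegral_mono_on ?_ integrable_phi.integrableOn measurableSet_Ioc fun x hx => ?_
          · exact integrableOn_const (by simp)
          · refine le_trans hc ?_
            rw [phi_eq, phi_eq]
            refine mul_le_mul_of_nonneg_left (exp_le_exp.2 ?_) (by positivity)
            have hx0 : 0 ≤ x := by linarith [hx.1]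
            have := mul_self_le_mul_self hx0 hx.2
            nlinarith
  calc exp (-z ^ 2 / 2) / (20 * z) = z⁻¹ * (exp (-z ^ 2 / 2) / 20) := by field_simp
    _ ≤ (gaussianReal 0 1).real (Set.Ioc z (z + z⁻¹)) := by rw [measureReal_eq]; exact hb
    _ ≤ tl z := measureReal_mono Set.Ioc_subset_Ioi_self

lemma real_Ico_le (a : ℝ) {d : ℝ} (hd : 0 ≤ d) :
    gaussianReal 0 1 (Set.Ico a (a + d)) ≤ ENNReal.ofReal d := by
  rw [gaussianReal_apply_eq_integral 0 one_ne_zero]
  refine ENNReal.ofReal_le_ofReal ?_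
  calc ∫ x in Set.Ico a (a + d), gaussianPDFReal 0 1 x
      ≤ ∫ _x in Set.Ico a (a + d), (1 : ℝ) :=
        setIntegral_mono_on integrable_phi.integrableOn (integrableOn_const (by simp))
          measurableSet_Ico fun x _ => phi_le_one x
    _ = d := by simp [hd]

variable {n : ℕ}

/-- The standard Gaussian measure of a half space. -/
lemma half_space (u : Sp n) (hu : u ≠ 0) (s : ℝ) :
    (stdGaussian (Sp n)).real {g | s ≤ ⟪g, u⟫} = tl (s / ‖u‖) := by
  have hun : 0 < ‖u‖ := norm_pos_iff.2 hu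
  obtain ⟨L, hL⟩ : ∃ L : StrongDual ℝ (Sp n), L = innerSL ℝ (‖u‖⁻¹ • u) := ⟨_, rfl⟩
  have hLn : ‖L‖ = 1 := by
    rw [hL, innerSL_apply_norm, norm_smul, norm_inv, norm_norm, inv_mul_cancel₀ hun.ne']
  have hmap : (stdGaussian (Sp n)).map L = gaussianReal 0 1 := by
    rw [IsGaussian.map_eq_gaussianReal, integral_strongDual_stdGaussian,
      variance_dual_stdGaussian, hLn]
    simp
  have hset : {g : Sp n | s ≤ ⟪g, u⟫} = L ⁻¹' Set.Ici (s / ‖u‖) := by
    ext g
    simp only [Set.mem_ofPred_eq, Set.mem_preimage, Set.mem_Ici, hL, innerSL_apply_apply,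
      real_inner_smul_left, real_inner_comm g u]
    rw [div_le_iff₀ hun]
    field_simp
  rw [hset, ← map_measureReal_apply L.continuous.measurable measurableSet_Ici, hmap]
  have := nullSingletonClass_gaussianReal (μ := 0) (v := 1) one_ne_zero
  unfold tl
  rw [measureReal_def, measureReal_def, measure_congr (Ioi_ae_eq_Ici (μ := gaussianReal 0 1))]

lemma ball_compl (n : ℕ) (R : ℝ) (hR : 0 ≤ R) :
    (stdGaussian (Sp n)).real {g | R < ‖g‖} ≤ exp ((n : ℝ) / 2 - R ^ 2 / 4) := by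
  have h := Vale.Agent.P262.gauss_tail (κ := Fin n) Finset.univ (fun _ => 1) (by simp) (R ^ 2)
  have hs : {g : Sp n | R < ‖g‖} ⊆
      {x : EuclideanSpace ℝ (Fin n) | R ^ 2 < ∑ i, 1 * (x i) ^ 2} := by
    intro g hg
    simp only [Set.mem_ofPred_eq, one_mul] at hg ⊢
    rw [← EuclideanSpace.real_norm_sq_eq]
    exact pow_lt_pow_left₀ hg hR two_ne_zero
  refine le_trans (measureReal_mono hs) ?_
  rw [measureReal_def]
  refine ENNReal.toReal_le_of_le_ofReal (exp_pos _).le ?_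
  simpa using h

lemma box_le (a : Fin n → ℝ) {d : ℝ} (hd : 0 ≤ d) :
    (stdGaussian (Sp n)).real {g | ∀ i, a i ≤ g i ∧ g i < a i + d} ≤ d ^ n := by
  have hm : MeasurableSet {g : Sp n | ∀ i, a i ≤ g i ∧ g i < a i + d} := by
    simp only [Set.ofPred_forall]
    exact MeasurableSet.iInter fun i =>
      (measurableSet_le (f := fun _ : Sp n => a i) (g := fun g : Sp n => g i) measurable_const
          (by fun_prop)).inter
        (measurableSet_lt (f := fun g : Sp n => g i) (g := fun _ : Sp n => a i + d) (by fun_prop)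
          measurable_const)
  have h : stdGaussian (Sp n) {g | ∀ i, a i ≤ g i ∧ g i < a i + d} ≤ ENNReal.ofReal (d ^ n) := by
    rw [← map_pi_eq_stdGaussian, Measure.map_apply (by fun_prop) hm]
    have : WithLp.toLp 2 ⁻¹' {g : Sp n | ∀ i, a i ≤ g i ∧ g i < a i + d}
        = Set.pi Set.univ fun i => Set.Ico (a i) (a i + d) := by
      ext g; simp [Set.mem_pi]
    rw [this, Measure.pi_pi]
    calc ∏ i, gaussianReal 0 1 (Set.Ico (a i) (a i + d))
        ≤ ∏ _i : Fin n, ENNReal.ofReal d := Finset.prod_le_prod' fun i _ => real_Ico_le _ hd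
      _ = ENNReal.ofReal (d ^ n) := by
          rw [Finset.prod_const, Finset.card_univ, Fintype.card_fin, ENNReal.ofReal_pow hd]
  rw [measureReal_def]
  exact ENNReal.toReal_le_of_le_ofReal (by positivity) h

/-- Grid step. -/
noncomputable def hh (n : ℕ) : ℝ := exp (-AA) / (n : ℝ) ^ 5

/-- Grid cell of a standard Gaussian point. -/
noncomputable def cellIdx (n : ℕ) (g : Sp n) : Fin n → ℤ := fun i => ⌊g i / (zz n * hh n)⌋

/-- Grid point of an index. -/
noncomputable def gpt (n : ℕ) (k : Fin n → ℤ) : Sp n := WithLp.toLp 2 fun i => hh n * k i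

/-- The rounded vector of a standard Gaussian point. -/
noncomputable def rnd (n : ℕ) (g : Sp n) : Sp n := gpt n (cellIdx n g)

/-- The weight of a vector. -/
noncomputable def wgt (n : ℕ) (v : Sp n) : ℝ :=
  (stdGaussian (Sp n)).real (rnd n ⁻¹' {v}) / tl (zz n)

/-- The finite set of vectors. -/
noncomputable def vset (n : ℕ) : Finset (Sp n) :=
  ((Fintype.piFinset fun _ : Fin n => Finset.Icc (-⌈4 / hh n⌉) ⌈4 / hh n⌉).image (gpt n)).filter
    fun v => ‖v‖ ≤ 4

lemma measurable_rnd : Measurable (rnd n) := by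
  unfold rnd gpt cellIdx
  fun_prop

lemma sum_wgt (S : Finset (Sp n)) :
    ∑ v ∈ S, wgt n v = (stdGaussian (Sp n)).real (rnd n ⁻¹' ↑S) / tl (zz n) := by
  unfold wgt
  rw [← Finset.sum_div, sum_measureReal_preimage_singleton S
    (fun v _ => measurable_rnd (measurableSet_singleton v)) (fun v _ => measure_ne_top _ _)]

section Params

variable (hn : 2 ^ 12 ≤ n)
include hn

lemma n_large : (4096 : ℝ) ≤ n := by exact_mod_cast hn

lemma eta_bounds : 0 < eta n ∧ eta n ≤ 1 / 100 ∧ 2 * (AA * n) * eta n ≤ 1 / 4 := by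
  have h := n_large hn
  have h0 : (0 : ℝ) < n := by linarith
  refine ⟨by unfold eta; positivity, ?_, ?_⟩
  · unfold eta
    rw [div_le_div_iff₀ (by positivity) (by norm_num)]
    nlinarith [sq_nonneg ((n : ℝ) - 1)]
  · unfold eta AA
    rw [mul_one_div, div_le_iff₀ (by positivity)]
    nlinarith [mul_le_mul h h (by norm_num) h0.le]

lemma zz_bounds : 1024 ≤ zz n ∧ zz n ≤ 1024 * n ∧ zz n ^ 2 = AA * n := by
  have h := n_large hn
  have h0 : (0 : ℝ) ≤ n := by linarith
  have hsq : zz n ^ 2 = AA * n := by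
    unfold zz AA
    exact Real.sq_sqrt (by positivity)
  have hnn : 0 ≤ zz n := Real.sqrt_nonneg _
  refine ⟨?_, ?_, hsq⟩
  · unfold AA at hsq
    nlinarith
  · unfold zz AA
    rw [Real.sqrt_le_left (by positivity)]
    nlinarith

lemma hh_bounds : 0 < hh n ∧ 6 * (√(n : ℝ) * hh n) ≤ eta n ∧ zz n * hh n ≤ exp (-AA) := by
  have h := n_large hn
  have h0 : (0 : ℝ) < n := by linarith
  have he : exp (-AA) ≤ 1 := exp_le_one_iff.2 (by unfold AA; norm_num)
  have hs : √(n : ℝ) ≤ n := by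
    rw [Real.sqrt_le_left h0.le]; nlinarith
  have hpos : 0 < hh n := by unfold hh; positivity
  refine ⟨hpos, ?_, ?_⟩
  · calc 6 * (√(n : ℝ) * hh n) ≤ 6 * ((n : ℝ) * (1 / (n : ℝ) ^ 5)) := by
          unfold hh
          gcongr
      _ = 6 / (n : ℝ) ^ 4 := by field_simp
      _ ≤ eta n := by
          unfold eta
          rw [div_le_div_iff₀ (by positivity) (by positivity)]
          nlinarith [pow_pos h0 3]
  · calc zz n * hh n ≤ 1024 * n * hh n := mul_le_mul_of_nonneg_right (zz_bounds hn).2.1 hpos.le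
      _ = exp (-AA) * (1024 / (n : ℝ) ^ 4) := by unfold hh; field_simp
      _ ≤ exp (-AA) * 1 := by
          refine mul_le_mul_of_nonneg_left ?_ (exp_pos _).le
          rw [div_le_one (by positivity)]
          have : (1 : ℝ) ≤ (n : ℝ) ^ 3 := one_le_pow₀ (by linarith)
          nlinarith
      _ = _ := mul_one _

lemma tl_zz_pos : 0 < tl (zz n) :=
  lt_of_lt_of_le (div_pos (exp_pos _) (by linarith [(zz_bounds hn).1]))
    (tl_lower (by linarith [(zz_bounds hn).1]))

lemma inv_tl_le : 1 / tl (zz n) ≤ 20 * zz n * exp (zz n ^ 2 / 2) := by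
  have hz := (zz_bounds hn).1
  have h := tl_lower (z := zz n) (by linarith)
  rw [div_le_iff₀ (tl_zz_pos hn)]
  calc (1 : ℝ) = 20 * zz n * exp (zz n ^ 2 / 2) * (exp (-zz n ^ 2 / 2) / (20 * zz n)) := by
        rw [mul_comm (20 * zz n) (exp _), mul_assoc, mul_div_cancel₀ _ (by positivity), ← exp_add]
        simp [neg_div]
    _ ≤ _ := mul_le_mul_of_nonneg_left h (by positivity)

/-- rounding moves a scaled point by less than `eta / 6` -/
lemma rnd_close (g : Sp n) : 6 * ‖rnd n g - (zz n)⁻¹ • g‖ ≤ eta n := by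
  obtain ⟨hh0, h6, -⟩ := hh_bounds hn
  have hz : 0 < zz n := by linarith [(zz_bounds hn).1]
  have hd : 0 < zz n * hh n := mul_pos hz hh0
  refine le_trans ?_ h6
  refine mul_le_mul_of_nonneg_left ?_ (by norm_num)
  rw [EuclideanSpace.norm_eq]
  calc √(∑ i, ‖(rnd n g - (zz n)⁻¹ • g) i‖ ^ 2) ≤ √(∑ _i : Fin n, hh n ^ 2) := by
        refine Real.sqrt_le_sqrt (Finset.sum_le_sum fun i _ => ?_)
        simp only [rnd, gpt, cellIdx, PiLp.sub_apply, PiLp.smul_apply, smul_eq_mul,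
          Real.norm_eq_abs, sq_abs]
        have h1 := Int.floor_le (g i / (zz n * hh n))
        have h2 := Int.lt_floor_add_one (g i / (zz n * hh n))
        have e : (zz n)⁻¹ * g i = hh n * (g i / (zz n * hh n)) := by field_simp
        rw [e, ← mul_sub, mul_pow]
        refine mul_le_of_le_one_right (sq_nonneg _) ?_
        rw [sq_le_one_iff_abs_le_one, abs_le]
        constructor <;> linarith
    _ = √(n : ℝ) * hh n := by
        rw [Finset.sum_const, Finset.card_univ, Fintype.card_fin, nsmul_eq_mul,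
          Real.sqrt_mul (Nat.cast_nonneg n), Real.sqrt_sq hh0.le]

lemma inner_rnd (g u : Sp n) (hu : ‖u‖ ≤ 6) :
    |⟪rnd n g, u⟫ - ⟪g, u⟫ / zz n| ≤ eta n := by
  have h := abs_real_inner_le_norm (rnd n g - (zz n)⁻¹ • g) u
  rw [inner_sub_left, real_inner_smul_left] at h
  rw [div_eq_inv_mul]
  nlinarith [rnd_close hn g, norm_nonneg (rnd n g - (zz n)⁻¹ • g)]

lemma wgt_le (v : Sp n) : wgt n v ≤ 1 / 2 := by
  obtain ⟨hh0, -, hzh⟩ := hh_bounds hn
  obtain ⟨hz, -, hzsq⟩ := zz_bounds hn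
  have hd : 0 < zz n * hh n := mul_pos (by linarith) hh0
  have hsub : rnd n ⁻¹' {v} ⊆
      {g | ∀ i, zz n * v i ≤ g i ∧ g i < zz n * v i + zz n * hh n} := by
    intro g hg i
    rw [Set.mem_preimage, Set.mem_singleton_iff] at hg
    rw [← hg]
    simp only [rnd, gpt, cellIdx]
    have h1 := Int.floor_le (g i / (zz n * hh n))
    have h2 := Int.lt_floor_add_one (g i / (zz n * hh n))
    rw [le_div_iff₀ hd] at h1
    rw [div_lt_iff₀ hd] at h2
    constructor <;> nlinarith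
  have h1 := le_trans (measureReal_mono hsub) (box_le (fun i => zz n * v i) hd.le)
  have h2 : (zz n * hh n) ^ n ≤ exp (-zz n ^ 2) := by
    calc (zz n * hh n) ^ n ≤ exp (-AA) ^ n := pow_le_pow_left₀ hd.le hzh n
      _ = exp (-zz n ^ 2) := by rw [← exp_nat_mul, hzsq]; ring_nf
  unfold wgt
  rw [div_eq_mul_one_div]
  calc (stdGaussian (Sp n)).real (rnd n ⁻¹' {v}) * (1 / tl (zz n))
      ≤ exp (-zz n ^ 2) * (20 * zz n * exp (zz n ^ 2 / 2)) :=
        mul_le_mul (le_trans h1 h2) (inv_tl_le hn) (one_div_nonneg.2 (tl_nonneg _)) (exp_pos _).le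
    _ = 20 * zz n / exp (zz n ^ 2 / 2) := by
        rw [exp_neg, show zz n ^ 2 = zz n ^ 2 / 2 + zz n ^ 2 / 2 by ring, exp_add]
        field_simp
        ring_nf
    _ ≤ 1 / 2 := by
        rw [div_le_iff₀ (exp_pos _)]
        nlinarith [add_one_le_exp (zz n ^ 2 / 2)]

/-- upper bound for the mass of a cap -/
lemma cap_upper (u : Sp n) (t : ℝ) (hu : u ≠ 0) (hu6 : ‖u‖ ≤ 6) :
    ∑ v ∈ capSet (vset n) u t, wgt n v
      ≤ tl (zz n * (t - eta n) / ‖u‖) / tl (zz n) := by
  have hz : 0 < zz n := by linarith [(zz_bounds hn).1]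
  rw [sum_wgt, ← half_space u hu]
  refine div_le_div_of_nonneg_right (measureReal_mono ?_) (tl_nonneg _)
  intro g hg
  simp only [Set.mem_preimage, Finset.mem_coe, capSet, Finset.mem_filter] at hg
  have h := (abs_le.1 (inner_rnd hn g u hu6)).2
  have h2 : t - eta n ≤ ⟪g, u⟫ / zz n := by linarith [hg.2]
  rw [le_div_iff₀ hz] at h2
  simp only [Set.mem_ofPred_eq]
  linarith

lemma cap_lower (u : Sp n) (t : ℝ) (hu : u ≠ 0) (hu6 : ‖u‖ ≤ 6) :
    (tl (zz n * (t + eta n) / ‖u‖) - exp ((n : ℝ) / 2 - (39 / 10 * zz n) ^ 2 / 4)) / tl (zz n)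
      ≤ ∑ v ∈ capSet (vset n) u t, wgt n v := by
  have hz : 0 < zz n := by linarith [(zz_bounds hn).1]
  obtain ⟨hh0, -, -⟩ := hh_bounds hn
  rw [sum_wgt, ← half_space u hu]
  refine div_le_div_of_nonneg_right ?_ (tl_nonneg _)
  have hsub : {g : Sp n | zz n * (t + eta n) ≤ ⟪g, u⟫} ⊆
      rnd n ⁻¹' ↑(capSet (vset n) u t) ∪ {g | 39 / 10 * zz n < ‖g‖} := by
    intro g hg
    simp only [Set.mem_ofPred_eq] at hg
    by_cases hb : 39 / 10 * zz n < ‖g‖
    · exact Or.inr hb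
    refine Or.inl ?_
    rw [not_lt] at hb
    have hin := (abs_le.1 (inner_rnd hn g u hu6)).1
    have h2 : t + eta n ≤ ⟪g, u⟫ / zz n := by rw [le_div_iff₀ hz]; linarith
    have hnorm : ‖rnd n g‖ ≤ 4 := by
      have h1 := norm_le_norm_add_norm_sub' (rnd n g) ((zz n)⁻¹ • g)
      have h3 := rnd_close hn g
      have h4 : ‖(zz n)⁻¹ • g‖ ≤ 39 / 10 := by
        rw [norm_smul, norm_inv, Real.norm_eq_abs, abs_of_pos hz, inv_mul_le_iff₀ hz]
        linarith
      linarith [(eta_bounds hn).2.1]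
    simp only [Set.mem_preimage, Finset.mem_coe, capSet, Finset.mem_filter, vset,
      Finset.mem_image, Fintype.mem_piFinset, Finset.mem_Icc]
    refine ⟨⟨⟨cellIdx n g, fun i => ?_, rfl⟩, hnorm⟩, by linarith⟩
    have h5 : |hh n * (cellIdx n g i : ℝ)| ≤ 4 := by
      refine le_trans ?_ hnorm
      have h6 := PiLp.norm_apply_le (rnd n g) i
      simpa [rnd, gpt] using h6
    rw [abs_mul, abs_of_pos hh0, mul_comm, ← le_div_iff₀ hh0, abs_le] at h5
    constructor
    · rw [neg_le]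
      have : ((-cellIdx n g i : ℤ) : ℝ) ≤ (⌈4 / hh n⌉ : ℤ) := by
        push_cast
        linarith [Int.le_ceil (4 / hh n), h5.1]
      exact_mod_cast this
    · have : ((cellIdx n g i : ℤ) : ℝ) ≤ (⌈4 / hh n⌉ : ℤ) := by
        linarith [Int.le_ceil (4 / hh n), h5.2]
      exact_mod_cast this
  have h7 := le_trans
    (measureReal_mono (μ := stdGaussian (Sp n)) hsub (measure_ne_top _ _))
    (measureReal_union_le _ _)
  linarith [ball_compl n (39 / 10 * zz n) (by linarith)]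

lemma mass_upper (u : Sp n) (t : ℝ) (hu : u ≠ 0) (hu6 : ‖u‖ ≤ 6) (ht : eta n ≤ t) :
    ∑ v ∈ capSet (vset n) u t, wgt n v
      ≤ 20 * zz n * exp (zz n ^ 2 / 2 * (1 - (t - eta n) ^ 2 / ‖u‖ ^ 2)) := by
  have hz : 0 < zz n := by linarith [(zz_bounds hn).1]
  refine le_trans (cap_upper hn u t hu hu6) ?_
  rw [div_eq_mul_one_div]
  refine le_trans (mul_le_mul (tl_chernoff (div_nonneg (mul_nonneg hz.le (by linarith))
    (norm_nonneg u))) (inv_tl_le hn) (one_div_nonneg.2 (tl_nonneg _)) (exp_pos _).le) ?_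
  rw [mul_comm, mul_assoc, ← exp_add]
  refine le_of_eq ?_
  congr 2
  field_simp
  ring

lemma mass_lower (u : Sp n) (t : ℝ) (h1 : 1 ≤ t) (_h2 : t ≤ 2) (hu2 : ‖u‖ ≤ 2)
    (hgap : t - ‖u‖ ≤ 1 / 8) :
    exp (-(4 + 10 * zz n ^ 2 * (max 0 (t - ‖u‖) + eta n)))
      ≤ ∑ v ∈ capSet (vset n) u t, wgt n v := by
  obtain ⟨hz, -, hzsq⟩ := zz_bounds hn
  obtain ⟨he0, he1, -⟩ := eta_bounds hn
  have hz0 : 0 < zz n := by linarith
  have hun : 7 / 8 ≤ ‖u‖ := by linarith
  have hu : u ≠ 0 := by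
    intro h; rw [h, norm_zero] at hun; linarith
  refine le_trans ?_ (cap_lower hn u t hu (by linarith))
  obtain ⟨δ, hδ⟩ : ∃ δ : ℝ, δ = max 0 (t - ‖u‖) := ⟨_, rfl⟩
  have hδ0 : 0 ≤ δ := hδ ▸ le_max_left _ _
  have hδ1 : δ ≤ 1 / 8 := hδ ▸ max_le (by norm_num) hgap
  have hδ2 : t - ‖u‖ ≤ δ := hδ ▸ le_max_right _ _
  rw [← hδ]
  obtain ⟨e, he⟩ : ∃ e : ℝ, e = δ + eta n := ⟨_, rfl⟩
  rw [← he]
  obtain ⟨d, hd⟩ : ∃ d : ℝ, d = 8 / 7 * zz n * e := ⟨_, rfl⟩
  have he2 : e ≤ 1 / 4 := by linarith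
  have he3 : 0 ≤ e := by linarith
  have hd0 : 0 ≤ d := hd ▸ by positivity
  have hs : zz n * (t + eta n) / ‖u‖ ≤ zz n + d := by
    rw [div_le_iff₀ (by linarith), hd]
    nlinarith [mul_le_mul_of_nonneg_left hun (mul_nonneg hz0.le he3)]
  have hb := le_trans (tl_shift (a := zz n) (by linarith) hd0) (tl_anti hs)
  have hexp : (zz n + 1) * d + d ^ 2 / 2 ≤ 4 * zz n ^ 2 * e := by
    rw [hd]
    nlinarith [mul_le_mul_of_nonneg_left he2 (mul_nonneg (sq_nonneg (zz n)) he3),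
      mul_nonneg (sq_nonneg (zz n)) he3,
      mul_le_mul_of_nonneg_right hz (mul_nonneg hz0.le he3)]
  have hT := tl_zz_pos hn
  have hN : (n : ℝ) ≤ zz n ^ 2 := by
    rw [hzsq]; unfold AA; linarith [n_large hn]
  have htail : exp ((n : ℝ) / 2 - (39 / 10 * zz n) ^ 2 / 4) / tl (zz n)
      ≤ exp (-(4 * zz n ^ 2 * e)) / 4 := by
    rw [div_eq_mul_one_div]
    refine le_trans (mul_le_mul_of_nonneg_left (inv_tl_le hn) (exp_pos _).le) ?_
    have hz20 : 80 * zz n ≤ exp (zz n ^ 2) := by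
      nlinarith [add_one_le_exp (zz n ^ 2)]
    rw [le_div_iff₀ (by norm_num : (0 : ℝ) < 4)]
    calc exp ((n : ℝ) / 2 - (39 / 10 * zz n) ^ 2 / 4) * (20 * zz n * exp (zz n ^ 2 / 2)) * 4
        = 80 * zz n * exp ((n : ℝ) / 2 - (39 / 10 * zz n) ^ 2 / 4 + zz n ^ 2 / 2) := by
          rw [exp_add]; ring
      _ ≤ exp (zz n ^ 2) * exp ((n : ℝ) / 2 - (39 / 10 * zz n) ^ 2 / 4 + zz n ^ 2 / 2) :=
          mul_le_mul_of_nonneg_right hz20 (exp_pos _).le
      _ ≤ _ := by
          rw [← exp_add]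
          refine exp_le_exp.2 ?_
          nlinarith [mul_le_mul_of_nonneg_left he2 (sq_nonneg (zz n))]
  have hmain : exp (-(4 * zz n ^ 2 * e)) / 2 ≤ tl (zz n * (t + eta n) / ‖u‖) / tl (zz n) := by
    rw [le_div_iff₀ hT]
    calc exp (-(4 * zz n ^ 2 * e)) / 2 * tl (zz n)
        = exp (-(4 * zz n ^ 2 * e)) * (tl (zz n) / 2) := by ring
      _ ≤ exp (-((zz n + 1) * d + d ^ 2 / 2)) * (tl (zz n) / 2) :=
          mul_le_mul_of_nonneg_right (exp_le_exp.2 (neg_le_neg hexp)) (by linarith)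
      _ ≤ _ := hb
  rw [sub_div]
  have hfour : exp (-(4 + 10 * zz n ^ 2 * e)) ≤ exp (-(4 * zz n ^ 2 * e)) / 4 := by
    have h4 : exp (-4 : ℝ) ≤ 1 / 4 := by
      rw [exp_neg, one_div]
      exact inv_anti₀ (by norm_num) (by linarith [add_one_le_exp (4 : ℝ)])
    rw [neg_add, exp_add, mul_comm, div_eq_mul_one_div]
    exact mul_le_mul (exp_le_exp.2 (by nlinarith [mul_nonneg (sq_nonneg (zz n)) he3])) h4
      (exp_pos _).le (exp_pos _).le
  linarith

lemma unit_upper (u : Sp n) (hu : ‖u‖ ≤ 1) : ∑ v ∈ capSet (vset n) u 1, wgt n v ≤ 4 := by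
  obtain ⟨hz, -, hzsq⟩ := zz_bounds hn
  obtain ⟨he0, he1, he2⟩ := eta_bounds hn
  by_cases h0 : u = 0
  · have : capSet (vset n) u 1 = ∅ := by
      simp [capSet, h0]
    rw [this, Finset.sum_empty]
    norm_num
  refine le_trans (cap_upper hn u 1 h0 (by linarith)) ?_
  rw [div_le_iff₀ (tl_zz_pos hn)]
  have hun : 0 < ‖u‖ := norm_pos_iff.2 h0
  obtain ⟨a, ha⟩ : ∃ a : ℝ, a = zz n * eta n := ⟨_, rfl⟩
  have ha0 : 0 ≤ a := ha ▸ mul_nonneg (by linarith) he0.le
  have ha1 : a ≤ zz n / 100 := by rw [ha]; nlinarith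
  have hsh := tl_shift (a := zz n - a) (d := a) (by linarith) ha0
  rw [sub_add_cancel] at hsh
  have hle : tl (zz n * (1 - eta n) / ‖u‖) ≤ tl (zz n - a) := by
    refine tl_anti ?_
    rw [le_div_iff₀ hun, ha]
    nlinarith [mul_nonneg (by linarith : 0 ≤ zz n * (1 - eta n)) (by linarith : 0 ≤ 1 - ‖u‖)]
  have hE : 1 / 2 ≤ exp (-((zz n - a + 1) * a + a ^ 2 / 2)) := by
    have h1 : (zz n - a + 1) * a + a ^ 2 / 2 ≤ 1 / 2 := by
      rw [hzsq.symm] at he2
      rw [ha]
      nlinarith [mul_le_mul_of_nonneg_right hz (mul_nonneg (by linarith : 0 ≤ zz n) he0.le)]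
    calc (1 : ℝ) / 2 = -(1 / 2) + 1 := by norm_num
      _ ≤ exp (-(1 / 2)) := add_one_le_exp _
      _ ≤ _ := exp_le_exp.2 (neg_le_neg h1)
  nlinarith [mul_le_mul_of_nonneg_right hE (by linarith [tl_nonneg (zz n - a)] : 0 ≤ tl (zz n - a) / 2)]

end Params

end CapX

open CapX in
theorem nonempty_capSys : ∀ᶠ n : ℕ in atTop, Nonempty (CapSys n) := by
  rw [Filter.eventually_atTop]
  refine ⟨2 ^ 12, fun n hn => ⟨{
    V := vset n
    w := wgt n
    w_nonneg := fun v => div_nonneg measureReal_nonneg (tl_nonneg _)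
    w_le := wgt_le hn
    norm_le := fun v hv => (Finset.mem_filter.1 hv).2
    mass_le := mass_upper hn
    mass_ge := mass_lower hn
    mass_unit := unit_upper hn }⟩⟩

end Vale.Agent.P230
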