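import Mathlib
import Vale.Agent.P230.Defs

/-!
# P230: counting the configurations
-/

namespace Vale.Agent.P230

open Finset Filter

theorem configs_le {α : Type*} (Nt : Finset α) (k : ℕ) :
    ((Nt.powerset.filter fun S => S.card ≤ k).card : ℝ) ≤ ((Nt.card : ℝ) + 1) ^ k := by
  classical
  have hsub : (Nt.powerset.filter fun S => S.card ≤ k)
      ⊆ (range (k + 1)).biUnion fun j => Nt.powersetCard j := by
    intro S hS
    obtain ⟨h1, h2⟩ := mem_filter.1 hS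
    exact mem_biUnion.2 ⟨S.card, mem_range.2 (by omega), mem_powersetCard.2 ⟨mem_powerset.1 h1, rfl⟩⟩
  have h : (Nt.powerset.filter fun S => S.card ≤ k).card ≤ (Nt.card + 1) ^ k := by
    refine ((card_le_card hsub).trans card_biUnion_le).trans ?_
    rw [add_pow]
    refine sum_le_sum fun j hj => ?_
    rw [card_powersetCard, one_pow, mul_one, Nat.cast_id]
    exact (Nat.choose_le_pow _ _).trans
      (Nat.le_mul_of_pos_right _ (Nat.choose_pos (by have := mem_range.1 hj; omega)))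
  exact_mod_cast h

theorem config_count : ∀ᶠ n : ℕ in atTop, ∀ m : ℕ,
    (m : ℝ) ≤ (1 + 6 / eta n) ^ n →
    ((m : ℝ) + 1) ^ (3 ^ n) * (3 / 4 : ℝ) ^ (4 ^ n) < Real.exp (-9) := by
  have hev : ∀ᶠ n : ℕ in atTop, (n : ℝ) ^ 4 * (3 / 4 : ℝ) ^ n ≤ 1 / 200 :=
    (tendsto_pow_const_mul_const_pow_of_lt_one 4 (by norm_num) (by norm_num)).eventually
      (eventually_le_nhds (by norm_num))
  filter_upwards [hev, eventually_ge_atTop 3] with n hn hn3
  intro m hm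
  have hn1 : (1 : ℝ) ≤ n := by exact_mod_cast (show 1 ≤ n by omega)
  have hp : (1 : ℝ) ≤ (n : ℝ) ^ 3 := one_le_pow₀ hn1
  have he : (6 : ℝ) / eta n = 6 * (n : ℝ) ^ 3 := by
    unfold eta
    field_simp
  -- a bound for the size of the net
  have h1 : (m : ℝ) + 1 ≤ Real.exp (14 * (n : ℝ) ^ 4) := by
    have h2 : (m : ℝ) + 1 ≤ (14 * (n : ℝ) ^ 3) ^ n := by
      have h3 : (1 + 6 / eta n) ^ n ≤ (7 * (n : ℝ) ^ 3) ^ n := by
        rw [he]
        gcongr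
        linarith
      have h4 : (1 : ℝ) ≤ (7 * (n : ℝ) ^ 3) ^ n := one_le_pow₀ (by linarith)
      have h5 : (2 : ℝ) ≤ 2 ^ n := le_self_pow₀ (by norm_num) (by omega)
      calc (m : ℝ) + 1 ≤ 2 * (7 * (n : ℝ) ^ 3) ^ n := by linarith
        _ ≤ 2 ^ n * (7 * (n : ℝ) ^ 3) ^ n := by gcongr
        _ = (14 * (n : ℝ) ^ 3) ^ n := by rw [← mul_pow]; ring_nf
    refine h2.trans ?_
    rw [show (14 : ℝ) * (n : ℝ) ^ 4 = n * (14 * (n : ℝ) ^ 3) by ring, Real.exp_nat_mul]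
    gcongr
    linarith [Real.add_one_le_exp (14 * (n : ℝ) ^ 3)]
  have h34 : (3 / 4 : ℝ) ≤ Real.exp (-(1 / 4)) := by
    linarith [Real.add_one_le_exp (-(1 / 4) : ℝ)]
  calc ((m : ℝ) + 1) ^ (3 ^ n) * (3 / 4 : ℝ) ^ (4 ^ n)
      ≤ Real.exp (14 * (n : ℝ) ^ 4) ^ (3 ^ n) * Real.exp (-(1 / 4)) ^ (4 ^ n) := by
        gcongr
    _ = Real.exp ((3 : ℝ) ^ n * (14 * (n : ℝ) ^ 4) + (4 : ℝ) ^ n * -(1 / 4)) := by
        rw [← Real.exp_nat_mul, ← Real.exp_nat_mul, ← Real.exp_add]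
        push_cast
        ring_nf
    _ < Real.exp (-9) := by
        refine Real.exp_lt_exp.2 ?_
        have h6 : (3 : ℝ) ^ n * (n : ℝ) ^ 4 ≤ (4 : ℝ) ^ n * (1 / 200) := by
          have : (3 : ℝ) ^ n = 4 ^ n * (3 / 4) ^ n := by rw [← mul_pow]; norm_num
          rw [this, mul_assoc, mul_comm ((3 / 4 : ℝ) ^ n)]
          gcongr
        have h7 : (64 : ℝ) ≤ 4 ^ n :=
          le_trans (by norm_num) (pow_le_pow_right₀ (by norm_num : (1 : ℝ) ≤ 4) hn3)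
        linarith

end Vale.Agent.P230
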