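import Mathlib
import Vale.Agent.P230.Defs

/-!
# P230: volume packing

A bounded subset of Euclidean space has a small net.
-/

namespace Vale.Agent.P230

open Finset MeasureTheory Metric
open scoped ENNReal

variable {n : ℕ}

/-- The volume of a ball in terms of that of the unit ball. -/
lemma volume_ball_eq (hn : 1 ≤ n) (x : Sp n) {r : ℝ} (hr : 0 ≤ r) :
    volume (closedBall x r)
      = ENNReal.ofReal (r ^ n) * volume (closedBall (0 : Sp n) 1) := by
  have : Nonempty (Fin n) := ⟨⟨0, hn⟩⟩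
  rw [Measure.addHaar_closedBall' volume x hr, finrank_euclideanSpace_fin]

/-- Separated points in a ball are few. -/
lemma card_separated_le (hn : 1 ≤ n) {R r : ℝ} (hR : 0 < R) (hr : 0 < r) {N : Finset (Sp n)}
    (hN : ∀ p ∈ N, ‖p‖ ≤ R) (hsep : ∀ p ∈ N, ∀ q ∈ N, p ≠ q → r < ‖p - q‖) :
    (N.card : ℝ) ≤ (1 + 2 * R / r) ^ n := by
  have hd : (N : Set (Sp n)).PairwiseDisjoint fun p => closedBall p (r / 2) := fun p hp q hq hpq =>
    closedBall_disjoint_closedBall (by rw [dist_eq_norm]; linarith [hsep p hp q hq hpq])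
  have h1 : ∑ p ∈ N, volume (closedBall p (r / 2)) ≤ volume (closedBall (0 : Sp n) (R + r / 2)) := by
    rw [← measure_biUnion_finset hd fun p _ => measurableSet_closedBall]
    refine measure_mono (Set.iUnion₂_subset fun p hp => closedBall_subset_closedBall' ?_)
    rw [dist_zero_right]
    linarith [hN p hp]
  simp only [volume_ball_eq hn _ (by linarith : 0 ≤ r / 2),
    volume_ball_eq hn _ (by linarith : 0 ≤ R + r / 2), sum_const, nsmul_eq_mul, ← mul_assoc] at h1
  rw [ENNReal.mul_le_mul_iff_left (measure_closedBall_pos volume 0 one_pos).ne'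
    measure_closedBall_lt_top.ne, ← ENNReal.ofReal_natCast N.card,
    ← ENNReal.ofReal_mul (Nat.cast_nonneg _), ENNReal.ofReal_le_ofReal_iff (by positivity)] at h1
  rw [show 1 + 2 * R / r = (R + r / 2) / (r / 2) by field_simp; ring, div_pow,
    le_div_iff₀ (by positivity)]
  exact h1

/-- Volume packing: a bounded set has a small net. -/
theorem exists_net {n : ℕ} (hn : 1 ≤ n) (R r : ℝ) (hR : 0 < R) (hr : 0 < r) :
    ∃ N : Finset (Sp n), (N.card : ℝ) ≤ (1 + 2 * R / r) ^ n ∧
      ∀ x : Sp n, ‖x‖ ≤ R → ∃ p ∈ N, ‖x - p‖ ≤ r := by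
  classical
  set S := {j : ℕ | ∃ N : Finset (Sp n), (∀ p ∈ N, ‖p‖ ≤ R) ∧
    (∀ p ∈ N, ∀ q ∈ N, p ≠ q → r < ‖p - q‖) ∧ N.card = j} with hS
  have hne : S.Nonempty := ⟨0, ∅, by simp⟩
  have hbdd : BddAbove S := by
    refine ⟨⌈(1 + 2 * R / r) ^ n⌉₊, ?_⟩
    rintro j ⟨N, hN, hsep, rfl⟩
    exact_mod_cast (card_separated_le hn hR hr hN hsep).trans (Nat.le_ceil _)
  obtain ⟨N, hN, hsep, hcard⟩ := Nat.sSup_mem hne hbdd
  refine ⟨N, card_separated_le hn hR hr hN hsep, fun x hx => ?_⟩
  by_contra hcon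
  simp only [not_exists, not_and, not_le] at hcon
  have hxN : x ∉ N := fun h => by simpa using (hcon x h).trans' hr
  have hmem : (insert x N).card ∈ S := by
    refine ⟨insert x N, ?_, ?_, rfl⟩
    · intro p hp
      rcases Finset.mem_insert.1 hp with rfl | hp
      exacts [hx, hN p hp]
    · intro p hp q hq hpq
      rcases Finset.mem_insert.1 hp with h | h <;> rcases Finset.mem_insert.1 hq with h' | h'
      · exact absurd (h.trans h'.symm) hpq
      · subst h; exact hcon q h'
      · subst h'; rw [norm_sub_rev]; exact hcon p h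
      · exact hsep p h q h' hpq
  have hle := le_csSup hbdd hmem
  rw [← hcard, card_insert_of_notMem hxN] at hle
  omega

end Vale.Agent.P230
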