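import Mathlib
import Vale.Agent.P230.Defs
import Vale.Agent.P230.Packing

/-!
# P230: greedy choice of patch centres and test points

Both choices pick points one by one outside the exclusion sets of those already picked. The good
set need not be measurable: only monotonicity and subadditivity of the outer measure are used.
-/

namespace Vale.Agent.P230

open Finset Filter MeasureTheory Metric
open scoped ENNReal Topology

variable {n : ℕ}

/-- Greedy selection of pairwise compatible points from a large set. -/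
lemma exists_pick {H : Set (Sp n)} (bad : Sp n → Set (Sp n)) (e : ℝ≥0∞) (k : ℕ)
    (hb : ∀ z ∈ H, volume (bad z) ≤ e) (hk : (k : ℝ≥0∞) * e < volume H)
    (hrefl : ∀ z ∈ H, z ∈ bad z) (hsymm : ∀ z ∈ H, ∀ z' ∈ H, z' ∈ bad z → z ∈ bad z') :
    ∃ P : Finset (Sp n), P.card = k ∧ ↑P ⊆ H ∧ ∀ z ∈ P, ∀ z' ∈ P, z ≠ z' → z' ∉ bad z := by
  classical
  induction k with
  | zero => exact ⟨∅, by simp⟩
  | succ k ih =>
    have hke : (k : ℝ≥0∞) * e ≤ ((k + 1 : ℕ) : ℝ≥0∞) * e :=
      mul_le_mul' (Nat.cast_le.2 k.le_succ) le_rfl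
    obtain ⟨P, hcard, hPH, hP⟩ := ih (hke.trans_lt hk)
    obtain ⟨z, hzH, hz⟩ : ∃ z ∈ H, z ∉ ⋃ p ∈ P, bad p := by
      refine Set.not_subset.1 fun hsub => hk.not_ge ?_
      refine ((measure_mono hsub).trans (measure_biUnion_finset_le P bad)).trans ?_
      refine (sum_le_card_nsmul P _ e fun p hp => hb p (hPH hp)).trans ?_
      rw [hcard, nsmul_eq_mul]
      exact hke
    simp only [Set.mem_iUnion, not_exists] at hz
    have hzP : z ∉ P := fun h => hz z h (hrefl z hzH)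
    refine ⟨insert z P, by rw [card_insert_of_notMem hzP, hcard], ?_, ?_⟩
    · rw [coe_insert]
      exact Set.insert_subset hzH hPH
    · intro a ha b hb' hab
      rcases Finset.mem_insert.1 ha with h | h <;> rcases Finset.mem_insert.1 hb' with h' | h'
      · exact absurd (h.trans h'.symm) hab
      · subst h; exact fun hh => hz b h' (hsymm a hzH b (hPH h') hh)
      · subst h'; exact hz a h
      · exact hP a h b h' hab

/-- An exclusion set made of translated balls has small volume. -/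
lemma volume_translates_le (hn : 1 ≤ n) (T : Finset (Sp n)) (z : Sp n) {r m : ℝ} (hr : 0 ≤ r)
    (hT : (T.card : ℝ) ≤ m) :
    volume (⋃ t ∈ T, closedBall (z + t) r)
      ≤ ENNReal.ofReal (m * r ^ n) * volume (closedBall (0 : Sp n) 1) := by
  refine (measure_biUnion_finset_le T _).trans ?_
  simp only [volume_ball_eq hn _ hr, sum_const, nsmul_eq_mul, ← mul_assoc]
  refine mul_le_mul' ?_ le_rfl
  rw [← ENNReal.ofReal_natCast T.card, ← ENNReal.ofReal_mul (Nat.cast_nonneg _)]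
  exact ENNReal.ofReal_le_ofReal (mul_le_mul_of_nonneg_right hT (pow_nonneg hr n))

/-- The numeric facts used by the two greedy choices. -/
lemma eventually_numeric : ∀ᶠ n : ℕ in atTop, 1 ≤ n ∧ 0 < rho n ∧ rho n ≤ 1 ∧ 0 ≤ DD n ∧
    (4 : ℝ) ^ n * ((9 ^ n + 1) * (1 / 64) ^ n) < 1 / 4 ∧
    (⌈Real.exp (C2 * DD n)⌉₊ : ℝ) * ((200 * DD n * 3 ^ n + 1) * r1 n ^ n)
      < rho n ^ n / (8 * 4 ^ n) := by
  have hlim : Tendsto (fun n : ℕ => (n : ℝ) ^ (-(1 / 50 : ℝ))) atTop (𝓝 0) :=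
    (tendsto_rpow_neg_atTop (by norm_num)).comp tendsto_natCast_atTop_atTop
  filter_upwards [hlim.eventually (eventually_lt_nhds (by norm_num : (0 : ℝ) < 1 / 96)),
    eventually_ge_atTop 6] with n hsmall hn6
  have hn : (1 : ℝ) ≤ n := by exact_mod_cast (show 1 ≤ n by omega)
  have hn0 : (0 : ℝ) < n := by linarith
  have hlog : 0 ≤ Real.log n := Real.log_nonneg hn
  have hC2 : (0 : ℝ) < C2 := by unfold C2 AA; norm_num
  have hC2cc : C2 * cc = 1 / 200 := by rw [cc]; field_simp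
  have hcc : 200 * cc ≤ 1 ∧ 0 ≤ cc := by unfold cc C2 AA; norm_num
  have hD0 : 0 ≤ DD n := by unfold DD; have := hcc.2; positivity
  have hrho : 0 < rho n := Real.rpow_pos_of_pos hn0 _
  have hrho1 : rho n ≤ 1 := Real.rpow_le_one_of_one_le_of_nonpos hn (by norm_num)
  refine ⟨by omega, hrho, hrho1, hD0, ?_, ?_⟩
  · have h1 : (9 : ℝ) ^ n + 1 ≤ 2 * 9 ^ n := by
      linarith [one_le_pow₀ (by norm_num : (1 : ℝ) ≤ 9) (n := n)]
    calc (4 : ℝ) ^ n * ((9 ^ n + 1) * (1 / 64) ^ n)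
        ≤ 4 ^ n * (2 * 9 ^ n * (1 / 64) ^ n) := by gcongr
      _ = 2 * (9 / 16 : ℝ) ^ n := by
          rw [show (9 / 16 : ℝ) = 4 * 9 * (1 / 64) by norm_num, mul_pow, mul_pow]; ring
      _ ≤ 2 * (9 / 16 : ℝ) ^ 4 := by
          gcongr 2 * ?_
          exact pow_le_pow_of_le_one (by norm_num) (by norm_num) (by omega)
      _ < 1 / 4 := by norm_num
  · have hexp : Real.exp (C2 * DD n) = ((n : ℝ) ^ (1 / 200 : ℝ)) ^ n := by
      rw [Real.rpow_def_of_pos hn0, ← Real.exp_nat_mul, DD]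
      congr 1
      linear_combination (n : ℝ) * Real.log n * hC2cc
    have hexp1 : 1 ≤ Real.exp (C2 * DD n) := Real.one_le_exp (mul_nonneg hC2.le hD0)
    have hceil : (⌈Real.exp (C2 * DD n)⌉₊ : ℝ) ≤ 2 * Real.exp (C2 * DD n) := by
      linarith [Nat.ceil_lt_add_one (Real.exp_pos (C2 * DD n)).le]
    have hDn : 200 * DD n ≤ (4 : ℝ) ^ n := by
      have h2 : (n : ℝ) ≤ 2 ^ n := by exact_mod_cast Nat.lt_two_pow_self.le
      have h3 : Real.log n ≤ n := (Real.log_le_sub_one_of_pos hn0).trans (by linarith)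
      calc 200 * DD n = 200 * cc * ((n : ℝ) * Real.log n) := by rw [DD]; ring
        _ ≤ 1 * ((n : ℝ) * n) := mul_le_mul hcc.1 (mul_le_mul_of_nonneg_left h3 hn0.le)
            (mul_nonneg hn0.le hlog) zero_le_one
        _ ≤ 2 ^ n * 2 ^ n := by rw [one_mul]; exact mul_le_mul h2 h2 hn0.le (by positivity)
        _ = 4 ^ n := by rw [← mul_pow]; norm_num
    have hM : 200 * DD n * 3 ^ n + 1 ≤ 2 * (12 : ℝ) ^ n := by
      have h4 : 200 * DD n * 3 ^ n ≤ (4 : ℝ) ^ n * 3 ^ n := by gcongr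
      rw [← mul_pow, show (4 : ℝ) * 3 = 12 by norm_num] at h4
      linarith [one_le_pow₀ (by norm_num : (1 : ℝ) ≤ 12) (n := n)]
    have hsplit : Real.exp (C2 * DD n) * r1 n ^ n
        = rho n ^ n * ((n : ℝ) ^ (-(1 / 50 : ℝ))) ^ n := by
      rw [hexp, ← mul_pow, ← mul_pow, r1, rho, ← Real.rpow_add hn0, ← Real.rpow_add hn0]
      norm_num
    have hr10 : 0 ≤ r1 n ^ n := pow_nonneg (Real.rpow_nonneg hn0.le _) n
    have hkey : 32 * (48 * (n : ℝ) ^ (-(1 / 50 : ℝ))) ^ n < 1 := by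
      have h5 : (48 * (n : ℝ) ^ (-(1 / 50 : ℝ))) ^ n ≤ (1 / 2 : ℝ) ^ n :=
        pow_le_pow_left₀ (mul_nonneg (by norm_num) (Real.rpow_nonneg hn0.le _)) (by linarith) n
      have h6 : (1 / 2 : ℝ) ^ n ≤ (1 / 2 : ℝ) ^ 6 :=
        pow_le_pow_of_le_one (by norm_num) (by norm_num) hn6
      norm_num at h6
      linarith
    rw [lt_div_iff₀ (by positivity)]
    calc (⌈Real.exp (C2 * DD n)⌉₊ : ℝ) * ((200 * DD n * 3 ^ n + 1) * r1 n ^ n) * (8 * 4 ^ n)
        ≤ 2 * Real.exp (C2 * DD n) * (2 * 12 ^ n * r1 n ^ n) * (8 * 4 ^ n) := by gcongr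
      _ = 32 * (12 ^ n * 4 ^ n) * (Real.exp (C2 * DD n) * r1 n ^ n) := by ring
      _ = rho n ^ n * (32 * (48 * (n : ℝ) ^ (-(1 / 50 : ℝ))) ^ n) := by
          rw [hsplit, ← mul_pow, mul_pow (48 : ℝ)]
          norm_num
          ring
      _ < rho n ^ n * 1 := mul_lt_mul_of_pos_left hkey (pow_pos hrho n)
      _ = _ := mul_one _

/-- Far apart patch centres, each with many well separated test points. -/
theorem exists_tests : ∀ᶠ n : ℕ in atTop, ∀ (X' : Finset (Sp n)) (G : Set (Sp n)),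
    (X'.card : ℝ) ≤ 3 ^ n → G ⊆ Metric.closedBall 0 1 →
    volume (Metric.closedBall (0 : Sp n) 1) / 2 ≤ volume G →
    (∀ y ∈ G, ((coverers X' y).card : ℝ) ≤ 200 * DD n) →
    ∃ (P : Finset (Sp n)) (Y : Sp n → Finset (Sp n)), P.card = 4 ^ n ∧
      (∀ z ∈ P, ↑(Y z) ⊆ G ∩ Metric.closedBall z (2 * rho n) ∧
        Real.exp (C2 * DD n) ≤ ((Y z).card : ℝ) ∧
        ∀ y ∈ Y z, ∀ y' ∈ Y z, y ≠ y' → ∀ x ∈ coverers X' y, ∀ x' ∈ coverers X' y',
          r1 n ≤ ‖(y - x) - (y' - x')‖) ∧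
      ∀ z ∈ P, ∀ z' ∈ P, z ≠ z' → ∀ x ∈ X', ∀ x' ∈ X', 1 / 64 ≤ ‖(z - x) - (z' - x')‖ := by
  classical
  filter_upwards [eventually_numeric] with n ⟨hn, hρ, hρ1, hD, hcentre, htest⟩
  intro X' G hX hG hvol hcov
  set V₀ := volume (closedBall (0 : Sp n) 1) with hV₀
  have hV0 : V₀ ≠ 0 := (measure_closedBall_pos volume 0 one_pos).ne'
  have hVt : V₀ ≠ ∞ := measure_closedBall_lt_top.ne
  set ρ := rho n with hρdef
  set d : ℝ := ρ ^ n / (8 * 4 ^ n) with hd
  have hd0 : 0 < d := by positivity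
  set S₀ := {y | y ∈ G ∧ volume (G ∩ closedBall y (2 * ρ)) < ENNReal.ofReal d * V₀} with hS₀
  have hsparse : volume S₀ ≤ ENNReal.ofReal (1 / 8) * V₀ := by
    obtain ⟨N, hN, hnet⟩ := exists_net hn 1 ρ one_pos hρ
    have hsub : S₀ ⊆ ⋃ p ∈ N, S₀ ∩ closedBall p ρ := fun y hy => by
      obtain ⟨p, hp, hyp⟩ := hnet y (by simpa using hG hy.1)
      exact Set.mem_biUnion hp ⟨hy, by rwa [mem_closedBall, dist_eq_norm]⟩
    refine ((measure_mono hsub).trans (measure_biUnion_finset_le N _)).trans ?_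
    refine (sum_le_card_nsmul N _ (ENNReal.ofReal d * V₀) fun p _ => ?_).trans ?_
    · by_cases h : (S₀ ∩ closedBall p ρ).Nonempty
      · obtain ⟨y, hy, hyp⟩ := h
        refine (measure_mono fun x hx => ?_).trans hy.2.le
        refine ⟨hx.1.1, ?_⟩
        rw [mem_closedBall] at hyp ⊢
        linarith [mem_closedBall.1 hx.2, dist_triangle_right x y p]
      · rw [Set.not_nonempty_iff_eq_empty.1 h, measure_empty]
        exact bot_le
    · rw [nsmul_eq_mul, ← mul_assoc, ← ENNReal.ofReal_natCast N.card,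
        ← ENNReal.ofReal_mul (Nat.cast_nonneg _)]
      refine mul_le_mul' (ENNReal.ofReal_le_ofReal ?_) le_rfl
      calc (N.card : ℝ) * d ≤ (4 / ρ) ^ n * d := by
            refine mul_le_mul_of_nonneg_right (hN.trans ?_) hd0.le
            refine pow_le_pow_left₀ (by positivity) ?_ n
            rw [le_div_iff₀ hρ, add_mul, div_mul_cancel₀ _ hρ.ne']
            linarith
        _ = 1 / 8 := by rw [hd, div_pow]; field_simp
  set H := G \ S₀ with hH
  have hHvol : ENNReal.ofReal (1 / 4) * V₀ ≤ volume H := by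
    have h1 : ENNReal.ofReal (1 / 4 + 1 / 8) * V₀ ≤ volume H + ENNReal.ofReal (1 / 8) * V₀ := by
      calc ENNReal.ofReal (1 / 4 + 1 / 8) * V₀ ≤ ENNReal.ofReal (1 / 2) * V₀ :=
            mul_le_mul' (ENNReal.ofReal_le_ofReal (by norm_num)) le_rfl
        _ = V₀ / 2 := by
            rw [one_div, ENNReal.ofReal_inv_of_pos two_pos, ENNReal.div_eq_inv_mul]; simp
        _ ≤ volume G := hvol
        _ ≤ volume (H ∪ S₀) := measure_mono fun y hy => by
            by_cases h : y ∈ S₀ <;> simp [hH, hy, h]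
        _ ≤ volume H + volume S₀ := measure_union_le _ _
        _ ≤ _ := add_le_add le_rfl hsparse
    rw [ENNReal.ofReal_add (by norm_num) (by norm_num), add_mul] at h1
    exact ENNReal.le_of_add_le_add_right (ENNReal.mul_ne_top ENNReal.ofReal_ne_top hVt) h1
  set T₁ := insert (0 : Sp n) ((X' ×ˢ X').image fun p => p.2 - p.1) with hT₁
  have hT₁card : (T₁.card : ℝ) ≤ 9 ^ n + 1 := by
    have h : T₁.card ≤ X'.card * X'.card + 1 :=
      (card_insert_le _ _).trans (Nat.succ_le_succ (card_image_le.trans (card_product _ _).le))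
    refine (Nat.cast_le.2 h).trans ?_
    push_cast
    have h9 : (9 : ℝ) ^ n = 3 ^ n * 3 ^ n := by rw [← mul_pow]; norm_num
    rw [h9]
    gcongr
  obtain ⟨P, hPcard, hPH, hP⟩ := exists_pick (H := H)
    (fun z => ⋃ t ∈ T₁, closedBall (z + t) (1 / 64))
    (ENNReal.ofReal ((9 ^ n + 1) * (1 / 64) ^ n) * V₀) (4 ^ n)
    (fun z _ => volume_translates_le hn T₁ z (by norm_num) hT₁card)
    (by
      refine lt_of_lt_of_le ?_ hHvol
      rw [← mul_assoc, ← ENNReal.ofReal_natCast, ← ENNReal.ofReal_mul (Nat.cast_nonneg _),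
        ENNReal.mul_lt_mul_iff_left hV0 hVt, ENNReal.ofReal_lt_ofReal_iff (by norm_num)]
      push_cast
      exact hcentre)
    (fun z _ => Set.mem_biUnion (Finset.mem_insert_self _ _) (by simp))
    (fun z _ z' _ h => by
      simp only [Set.mem_iUnion, mem_closedBall, dist_eq_norm] at h ⊢
      obtain ⟨t, ht, htz⟩ := h
      refine ⟨-t, ?_, by rwa [norm_sub_rev, show z' + -t - z = z' - (z + t) by abel]⟩
      rw [hT₁, Finset.mem_insert, Finset.mem_image] at ht ⊢
      rcases ht with rfl | ⟨p, hp, rfl⟩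
      · exact Or.inl neg_zero
      · rw [Finset.mem_product] at hp
        exact Or.inr ⟨(p.2, p.1), Finset.mem_product.2 ⟨hp.2, hp.1⟩, by simp⟩)
  have hY : ∀ z ∈ P, ∃ Yz : Finset (Sp n), Yz.card = ⌈Real.exp (C2 * DD n)⌉₊ ∧
      ↑Yz ⊆ G ∩ closedBall z (2 * ρ) ∧ ∀ y ∈ Yz, ∀ y' ∈ Yz, y ≠ y' →
        y' ∉ {w | ∃ x ∈ coverers X' y, ∃ x' ∈ coverers X' w, ‖(y - x) - (w - x')‖ ≤ r1 n}
          ∪ closedBall y (r1 n) := by
    intro z hz
    have hzH : z ∈ G ∧ z ∉ S₀ := hPH hz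
    refine exists_pick _ (ENNReal.ofReal ((200 * DD n * 3 ^ n + 1) * r1 n ^ n) * V₀) _ ?_ ?_ ?_ ?_
    · intro y hy
      have hr : 0 ≤ r1 n := Real.rpow_nonneg (Nat.cast_nonneg n) _
      refine le_trans (measure_mono ?_) (volume_translates_le hn
        (insert 0 ((coverers X' y ×ˢ X').image fun p => p.2 - p.1)) y hr ?_)
      · intro w hw
        simp only [Set.mem_iUnion]
        rcases hw with ⟨x, hx, x', hx', h⟩ | h
        · refine ⟨x' - x, Finset.mem_insert_of_mem (Finset.mem_image.2 ⟨(x, x'),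
            Finset.mem_product.2 ⟨hx, ?_⟩, rfl⟩), ?_⟩
          · simp only [coverers, Finset.mem_filter] at hx'
            exact hx'.1
          · rwa [mem_closedBall, dist_eq_norm, norm_sub_rev,
              show y + (x' - x) - w = (y - x) - (w - x') by abel]
        · exact ⟨0, Finset.mem_insert_self _ _, by simpa using h⟩
      · have h : (insert 0 ((coverers X' y ×ˢ X').image fun p => p.2 - p.1)).card
            ≤ (coverers X' y).card * X'.card + 1 :=
          (card_insert_le _ _).trans (Nat.succ_le_succ (card_image_le.trans (card_product _ _).le))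
        refine (Nat.cast_le.2 h).trans ?_
        push_cast
        gcongr
        exact hcov y hy.1
    · refine lt_of_lt_of_le ?_ (le_of_not_gt fun h => hzH.2 ⟨hzH.1, h⟩)
      rw [← mul_assoc, ← ENNReal.ofReal_natCast, ← ENNReal.ofReal_mul (Nat.cast_nonneg _),
        ENNReal.mul_lt_mul_iff_left hV0 hVt, ENNReal.ofReal_lt_ofReal_iff hd0]
      exact htest
    · exact fun y _ => Or.inr (mem_closedBall_self (Real.rpow_nonneg (Nat.cast_nonneg n) _))
    · rintro y _ y' _ (⟨x, hx, x', hx', h⟩ | h)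
      · exact Or.inl ⟨x', hx', x, hx, by rwa [norm_sub_rev]⟩
      · exact Or.inr (mem_closedBall_comm.1 h)
  choose! Y hYcard hYsub hYsep using hY
  refine ⟨P, Y, hPcard, fun z hz => ⟨hYsub z hz, ?_, ?_⟩, ?_⟩
  · rw [hYcard z hz]; exact Nat.le_ceil _
  · intro y hy y' hy' hne x hx x' hx'
    by_contra hlt
    exact hYsep z hz y hy y' hy' hne (Or.inl ⟨x, hx, x', hx', (not_le.1 hlt).le⟩)
  · intro z hz z' hz' hne x hx x' hx'
    by_contra hlt
    refine hP z hz z' hz' hne (Set.mem_biUnion (Finset.mem_insert_of_mem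
      (Finset.mem_image.2 ⟨(x, x'), Finset.mem_product.2 ⟨hx, hx'⟩, rfl⟩)) ?_)
    rw [mem_closedBall, dist_eq_norm, norm_sub_rev,
      show z + ((x, x').2 - (x, x').1) - z' = (z - x) - (z' - x') by simp only; abel]
    exact (not_le.1 hlt).le

end Vale.Agent.P230
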