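import Mathlib
import Vale.Agent.P230.Defs
import Vale.Agent.P230.Averaging

/-!
# P230: the counting bound turning translative density bounds into lattice bounds
-/

namespace Vale.Agent.P230

open Finset Filter MeasureTheory Metric
open scoped ENNReal Topology

variable {n : ℕ}

lemma bounded_cube (n : ℕ) (R : ℝ) : Bornology.IsBounded (cube n R) := by
  refine (isBounded_iff_forall_norm_le).2 ⟨Real.sqrt (n * R ^ 2), fun x hx => ?_⟩
  rw [EuclideanSpace.norm_eq]
  refine Real.sqrt_le_sqrt ?_
  calc ∑ i, ‖x i‖ ^ 2 ≤ ∑ _i : Fin n, R ^ 2 := sum_le_sum fun i _ => by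
        rw [Real.norm_eq_abs]
        exact pow_le_pow_left₀ (abs_nonneg _) (hx i) 2
    _ = _ := by simp

/-- A lattice cannot have more points in large cubes than its covolume allows. -/
theorem lattice_limsup_le (b : Module.Basis (Fin n) ℝ (Sp n)) (m : ℝ≥0∞)
    :
    limsup (fun R : ℝ => m *
        (((Submodule.span ℤ (Set.range b) : Set (Sp n)) ∩ cube n R).encard : ℝ≥0∞) /
          ENNReal.ofReal ((2 * R) ^ n)) atTop
      ≤ m / volume (ZSpan.fundamentalDomain b) := by
  classical
  set L := Submodule.span ℤ (Set.range b)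
  set F := ZSpan.fundamentalDomain b
  obtain ⟨d, hd⟩ := (isBounded_iff_forall_norm_le).1 (ZSpan.fundamentalDomain_isBounded b)
  have hF0 : volume F ≠ 0 := ZSpan.measure_fundamentalDomain_ne_zero b
  have hFt : volume F ≠ ⊤ := (ZSpan.fundamentalDomain_isBounded b).measure_lt_top.ne
  set d' := max d 0
  have key : ∀ R : ℝ, 0 < R → ((((L : Set (Sp n)) ∩ cube n R).encard : ℝ≥0∞))
      * volume F ≤ ENNReal.ofReal ((2 * (R + d')) ^ n) := by
    intro R hR
    have hfin : ((L : Set (Sp n)) ∩ cube n R).Finite := by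
      have := ZSpan.setFinite_inter b (bounded_cube n R)
      rwa [Set.inter_comm] at this
    rw [hfin.encard_eq_coe_toFinset_card]
    push_cast
    set P := hfin.toFinset
    have hdisj : (P : Set (Sp n)).PairwiseDisjoint (fun x => (x + ·) '' F) := by
      intro x hx y hy hxy
      rw [Function.onFun, Set.disjoint_left]
      rintro _ ⟨f, hf, rfl⟩ ⟨g, hg, e⟩
      have hxL : x ∈ L := ((hfin.mem_toFinset).1 hx).1
      have hyL : y ∈ L := ((hfin.mem_toFinset).1 hy).1
      obtain ⟨v, -, huniq⟩ := ZSpan.exist_unique_vadd_mem_fundamentalDomain b (x + f)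
      have h1 := huniq ⟨-x, L.neg_mem hxL⟩ (by simp only [Submodule.vadd_def, vadd_eq_add, neg_add_cancel_left]; exact hf)
      have h2 := huniq ⟨-y, L.neg_mem hyL⟩ (by
        simp only [Submodule.vadd_def, vadd_eq_add, ← e, neg_add_cancel_left]; exact hg)
      exact hxy (neg_injective (congrArg Subtype.val (h1.trans h2.symm)))
    have hmeas : ∀ x ∈ P, MeasurableSet ((x + ·) '' F) := fun x _ =>
      (Homeomorph.addLeft x).measurableEmbedding.measurableSet_image.2
        (ZSpan.fundamentalDomain_measurableSet b)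
    calc (P.card : ℝ≥0∞) * volume F = ∑ x ∈ P, volume ((x + ·) '' F) := by
          rw [sum_eq_card_nsmul fun x _ => ?_, nsmul_eq_mul]
          rw [Set.image_add_left, measure_preimage_add]
      _ = volume (⋃ x ∈ P, (x + ·) '' F) := (measure_biUnion_finset hdisj hmeas).symm
      _ ≤ volume (cube n (R + d')) := by
          refine measure_mono (Set.iUnion₂_subset fun x hx => ?_)
          rintro _ ⟨f, hf, rfl⟩ i
          have h1 := ((hfin.mem_toFinset).1 hx).2 i
          have h2 := (abs_coord_le f i).trans (hd f hf)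
          simp only [PiLp.add_apply]
          linarith [abs_add_le (x i) (f i), le_max_left d 0]
      _ = _ := volume_cube n (by linarith [le_max_right d 0])
  have hlim : Tendsto (fun R : ℝ => m / volume F * ENNReal.ofReal ((1 + d' / R) ^ n)) atTop
      (𝓝 (m / volume F)) := by
    have h1 : Tendsto (fun R : ℝ => (1 + d' / R) ^ n) atTop (𝓝 1) := by
      have := ((tendsto_const_nhds (x := d')).div_atTop tendsto_id).const_add 1
      simpa using this.pow n
    have h2 := ENNReal.Tendsto.const_mul (a := m / volume F)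
      ((ENNReal.continuous_ofReal.tendsto 1).comp h1) (Or.inl (by simp))
    simpa using h2
  refine le_trans (limsup_le_limsup ?_) hlim.limsup_eq.le
  filter_upwards [eventually_gt_atTop 0] with R hR
  have hP : ENNReal.ofReal ((2 * R) ^ n) ≠ 0 := by
    rw [ne_eq, ENNReal.ofReal_eq_zero, not_le]; positivity
  rw [ENNReal.div_le_iff hP ENNReal.ofReal_ne_top, mul_assoc,
    ← ENNReal.ofReal_mul (by positivity : (0 : ℝ) ≤ (1 + d' / R) ^ n), ← mul_pow,
    show (1 + d' / R) * (2 * R) = 2 * (R + d') by field_simp, div_eq_mul_inv m, mul_assoc]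
  gcongr
  rw [mul_comm (volume F)⁻¹, ← div_eq_mul_inv, ENNReal.le_div_iff_mul_le (Or.inl hF0) (Or.inl hFt)]
  exact key R hR

end Vale.Agent.P230
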