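import Mathlib
import Vale.Agent.P230.Defs

/-!
# P230: the numerical facts about the parameters used by the units
-/

namespace Vale.Agent.P230

open Filter

lemma AA_pos : 0 < AA := by unfold AA; positivity

lemma zz_sq (n : ℕ) : zz n ^ 2 = AA * n := by
  unfold zz
  exact Real.sq_sqrt (mul_nonneg AA_pos.le (Nat.cast_nonneg n))

namespace Units

/-- A power beats a smaller power. -/
lemma ev_rpow_le {a b : ℝ} (hab : a < b) (C : ℝ) {c : ℝ} (hc : 0 < c) :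
    ∀ᶠ n : ℕ in atTop, C * (n : ℝ) ^ a ≤ c * (n : ℝ) ^ b := by
  filter_upwards [((tendsto_rpow_atTop (sub_pos.2 hab)).comp
    tendsto_natCast_atTop_atTop).eventually_ge_atTop (C / c), eventually_gt_atTop 0] with n hn h0
  have hn0 : (0 : ℝ) < n := Nat.cast_pos.2 h0
  have h := (div_le_iff₀ hc).1 hn
  simp only [Function.comp_apply] at h
  calc C * (n : ℝ) ^ a ≤ (n : ℝ) ^ (b - a) * c * (n : ℝ) ^ a :=
        mul_le_mul_of_nonneg_right h (Real.rpow_nonneg hn0.le _)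
    _ = c * ((n : ℝ) ^ (b - a) * (n : ℝ) ^ a) := by ring
    _ = c * (n : ℝ) ^ b := by rw [← Real.rpow_add hn0, sub_add_cancel]

/-- A power beats a logarithm. -/
lemma ev_log_le (a b : ℝ) {c δ : ℝ} (hc : 0 < c) (hδ : 0 < δ) :
    ∀ᶠ n : ℕ in atTop, a + b * Real.log n ≤ c * (n : ℝ) ^ δ := by
  have h := ((isLittleO_log_rpow_atTop hδ).const_mul_left b).comp_tendsto
    (tendsto_natCast_atTop_atTop (R := ℝ))
  filter_upwards [h.bound (half_pos hc), ev_rpow_le hδ a (half_pos hc)] with n hn ha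
  simp only [Function.comp_apply, Real.norm_eq_abs] at hn
  rw [abs_of_nonneg (Real.rpow_nonneg (Nat.cast_nonneg n) δ)] at hn
  rw [Real.rpow_zero, mul_one] at ha
  linarith [le_abs_self (b * Real.log n)]

/-- The facts about `n` used in the construction of the units. -/
structure Facts (n : ℕ) : Prop where
  hn : 1 ≤ n
  eta0 : 0 < eta n
  m0 : 0 < mm n
  r0 : 0 < r2 n
  K1 : 1 ≤ KK n
  D0 : 0 ≤ DD n
  small : gapMax n ≤ 1 / 16 ∧ eta n ≤ 1 / 100 ∧ mm n ≤ 1 / 16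
  gap_m : gapMax n ≤ mm n / 16
  eta_m : eta n ≤ mm n / 48
  s1 : 1 ≤ mm n / (64 * r2 n ^ 2)
  ms1 : mm n * (mm n / (64 * r2 n ^ 2)) ≤ 1
  z_eta : zz n ^ 2 * eta n ≤ 1
  F_small : Real.exp (-(10 * n)) ≤
    Real.exp (-(4 + 10 * zz n ^ 2 * (gapMax n + eta n))) / 8
  F_small' : Real.exp (-(10 * n)) ≤ Real.exp (-(4 + 30 * zz n ^ 2 * mm n)) / 8
  far_small : 200 * DD n * (20 * zz n * Real.exp (-(zz n ^ 2 * r2 n ^ 2 / 10))) ≤
    Real.exp (-(4 + 10 * zz n ^ 2 * (gapMax n + eta n))) / 8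
  fail_small : 200 * DD n *
      (20 * zz n * Real.exp (-(zz n ^ 2 * mm n * (mm n / (64 * r2 n ^ 2)) / 2))) ≤
    Real.exp (-(4 + 30 * zz n ^ 2 * mm n)) / 8
  rep_K : 10 + 30 * zz n ^ 2 * mm n ≤ KK n
  load_sparse : 8 * KK n * (10 + 10 * zz n ^ 2 * (gapMax n + eta n)) ≤ QQ n / 2
  load_rep : 200 * DD n * (10 + 30 * zz n ^ 2 * mm n) ≤ KK n * (QQ n / 2)

lemma exp_div_eight (x : ℝ) : Real.exp (-(x + 3)) ≤ Real.exp (-x) / 8 := by
  rw [neg_add, Real.exp_add, div_eq_mul_inv]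
  refine mul_le_mul_of_nonneg_left ?_ (Real.exp_pos _).le
  rw [Real.exp_neg]
  refine inv_anti₀ (by norm_num) ?_
  have h := Real.add_one_le_exp (1 : ℝ)
  calc (8 : ℝ) = 2 ^ 3 := by norm_num
    _ ≤ Real.exp 1 ^ 3 := pow_le_pow_left₀ (by norm_num) (by linarith) 3
    _ = Real.exp 3 := by rw [← Real.exp_nat_mul]; norm_num

lemma cc_pos : 0 < cc := by unfold cc C2 AA; positivity

section

variable {n : ℕ} (hn : 1 ≤ n)
include hn

lemma n_pos : (0 : ℝ) < n := by exact_mod_cast hn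

lemma n_one : (1 : ℝ) ≤ n := by exact_mod_cast hn

omit hn in
lemma zz_mm : zz n ^ 2 * mm n = AA * (n : ℝ) ^ (1 / 5 : ℝ) := by
  rw [zz_sq, mm, mul_assoc, ← Real.rpow_one_add' (Nat.cast_nonneg n) (by norm_num)]
  norm_num

lemma r2_sq : r2 n ^ 2 = (n : ℝ) ^ (-(9 / 10) : ℝ) := by
  rw [sq, r2, ← Real.rpow_add (n_pos hn)]; norm_num

lemma zz_r2 : zz n ^ 2 * r2 n ^ 2 = AA * (n : ℝ) ^ (1 / 10 : ℝ) := by
  rw [zz_sq, r2_sq hn, mul_assoc, ← Real.rpow_one_add' (Nat.cast_nonneg n) (by norm_num)]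
  norm_num

lemma zz_gap : zz n ^ 2 * gapMax n = 4 * AA * Real.log n := by
  have := n_pos hn
  rw [zz_sq, gapMax]; field_simp

lemma s_eq : mm n / (64 * r2 n ^ 2) = (n : ℝ) ^ (1 / 10 : ℝ) / 64 := by
  rw [r2_sq hn, mm, mul_comm (64 : ℝ), ← div_div, ← Real.rpow_sub (n_pos hn)]
  norm_num

lemma gap_nonneg : 0 ≤ gapMax n := by
  have := Real.log_nonneg (n_one hn)
  have := n_pos hn
  unfold gapMax; positivity

lemma sparse_cost (hz : zz n ^ 2 * eta n ≤ 1) :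
    10 * zz n ^ 2 * (gapMax n + eta n) ≤ 10 + 40 * AA * Real.log n := by
  have h := zz_gap hn
  calc 10 * zz n ^ 2 * (gapMax n + eta n)
      = 10 * (zz n ^ 2 * gapMax n) + 10 * (zz n ^ 2 * eta n) := by ring
    _ ≤ _ := by rw [h]; linarith

lemma z_eta_le (h : 1024 ≤ n) : zz n ^ 2 * eta n ≤ 1 := by
  have h0 := n_pos hn
  have hcast : (1024 : ℝ) ≤ n := by exact_mod_cast h
  rw [zz_sq, eta, mul_one_div, div_le_one (by positivity)]
  calc AA * n = 1024 ^ 2 * n := by unfold AA; norm_num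
    _ ≤ (n : ℝ) ^ 2 * n := mul_le_mul_of_nonneg_right (pow_le_pow_left₀ (by norm_num) hcast 2) h0.le
    _ = (n : ℝ) ^ 3 := by ring

lemma DD_le : 200 * DD n ≤ (n : ℝ) * Real.log n := by
  have h1 : 200 * cc ≤ 1 := by unfold cc C2 AA; norm_num
  calc 200 * DD n = (200 * cc) * ((n : ℝ) * Real.log n) := by unfold DD; ring
    _ ≤ 1 * ((n : ℝ) * Real.log n) := mul_le_mul_of_nonneg_right h1
        (mul_nonneg (n_pos hn).le (Real.log_nonneg (n_one hn)))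
    _ = _ := one_mul _

lemma pre_le (h : 20480 ≤ n) : 200 * DD n * (20 * zz n) ≤ Real.exp (4 * Real.log n) := by
  have h0 := n_pos hn
  have hcast : (20480 : ℝ) ≤ n := by exact_mod_cast h
  have hlog : Real.log n ≤ n := (Real.log_le_sub_one_of_pos h0).trans (by linarith)
  have hk : 200 * DD n ≤ (n : ℝ) ^ 2 := by
    rw [sq]
    exact (DD_le hn).trans (mul_le_mul_of_nonneg_left hlog h0.le)
  have hz : 20 * zz n ≤ (n : ℝ) ^ 2 := by
    have h1 : zz n ≤ 1024 * (n : ℝ) := by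
      unfold zz
      refine (Real.sqrt_le_left (by positivity)).2 ?_
      calc AA * n = 1024 ^ 2 * n := by unfold AA; norm_num
        _ ≤ 1024 ^ 2 * (n : ℝ) ^ 2 :=
            mul_le_mul_of_nonneg_left (le_self_pow₀ (n_one hn) (by norm_num)) (by norm_num)
        _ = _ := by ring
    calc 20 * zz n ≤ 20 * (1024 * (n : ℝ)) := mul_le_mul_of_nonneg_left h1 (by norm_num)
      _ = 20480 * (n : ℝ) := by ring
      _ ≤ n * n := mul_le_mul_of_nonneg_right hcast h0.le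
      _ = _ := (sq _).symm
  calc 200 * DD n * (20 * zz n) ≤ (n : ℝ) ^ 2 * (n : ℝ) ^ 2 :=
        mul_le_mul hk hz (mul_nonneg (by norm_num) (Real.sqrt_nonneg _)) (by positivity)
    _ = (n : ℝ) ^ 4 := by ring
    _ = _ := by
      rw [show (4 : ℝ) = ((4 : ℕ) : ℝ) by norm_num, Real.exp_nat_mul, Real.exp_log h0]

lemma small_of (h : 1024 ≤ n) (hg : 0 + 64 * Real.log n ≤ 1 * (n : ℝ) ^ (1 : ℝ))
    (hm : 1 * (n : ℝ) ^ (-(4 / 5) : ℝ) ≤ 1 / 16 * (n : ℝ) ^ (0 : ℝ)) :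
    gapMax n ≤ 1 / 16 ∧ eta n ≤ 1 / 100 ∧ mm n ≤ 1 / 16 := by
  have h0 := n_pos hn
  have hcast : (1024 : ℝ) ≤ n := by exact_mod_cast h
  refine ⟨?_, ?_, ?_⟩
  · rw [Real.rpow_one] at hg
    rw [gapMax, div_le_iff₀ h0]; linarith
  · refine one_div_le_one_div_of_le (by norm_num) ?_
    have := le_self_pow₀ (n_one hn) (show 3 ≠ 0 by norm_num)
    linarith
  · rw [Real.rpow_zero, one_mul, mul_one] at hm
    exact hm

lemma gap_m_of (hg : 0 + 64 * Real.log n ≤ 1 * (n : ℝ) ^ (1 / 5 : ℝ)) :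
    gapMax n ≤ mm n / 16 := by
  have h1 : mm n * n = (n : ℝ) ^ (1 / 5 : ℝ) := by
    rw [mm, mul_comm, ← Real.rpow_one_add' (Nat.cast_nonneg n) (by norm_num)]; norm_num
  rw [gapMax, div_le_iff₀ (n_pos hn), div_mul_eq_mul_div, h1]
  linarith

lemma eta_m_of (h : 1024 ≤ n) : eta n ≤ mm n / 48 := by
  have h0 := n_pos hn
  have hcast : (1024 : ℝ) ≤ n := by exact_mod_cast h
  have h1 : 1 / (n : ℝ) ≤ mm n := by
    rw [one_div, ← Real.rpow_neg_one, mm]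
    exact Real.rpow_le_rpow_of_exponent_le (n_one hn) (by norm_num)
  refine le_trans ?_ (div_le_div_of_nonneg_right h1 (by norm_num))
  rw [eta, div_div]
  refine one_div_le_one_div_of_le (by positivity) ?_
  calc (n : ℝ) * 48 ≤ n * (n * n) := by
        refine mul_le_mul_of_nonneg_left ?_ h0.le
        have := mul_le_mul hcast (n_one hn) zero_le_one h0.le
        linarith
    _ = _ := by ring

lemma s1_of (hs : 64 * (n : ℝ) ^ (0 : ℝ) ≤ 1 * (n : ℝ) ^ (1 / 10 : ℝ)) :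
    1 ≤ mm n / (64 * r2 n ^ 2) := by
  rw [Real.rpow_zero, mul_one, one_mul] at hs
  rw [s_eq hn, le_div_iff₀ (by norm_num)]
  linarith

lemma ms1_of : mm n * (mm n / (64 * r2 n ^ 2)) ≤ 1 := by
  rw [s_eq hn, mm, ← mul_div_assoc, ← Real.rpow_add (n_pos hn), div_le_one (by norm_num)]
  exact (Real.rpow_le_one_of_one_le_of_nonpos (n_one hn) (by norm_num)).trans (by norm_num)

lemma F_small_of (hz : zz n ^ 2 * eta n ≤ 1)
    (h : 17 + 40 * AA * Real.log n ≤ 10 * (n : ℝ) ^ (1 : ℝ)) :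
    Real.exp (-(10 * n)) ≤ Real.exp (-(4 + 10 * zz n ^ 2 * (gapMax n + eta n))) / 8 := by
  refine le_trans (Real.exp_le_exp.2 ?_) (exp_div_eight _)
  rw [Real.rpow_one] at h
  have := sparse_cost hn hz
  linarith

omit hn in
lemma rep_cost : 30 * zz n ^ 2 * mm n = 30 * AA * (n : ℝ) ^ (1 / 5 : ℝ) := by
  rw [mul_assoc, zz_mm, mul_assoc]

lemma rep_le (a : ℝ) (ha : 0 ≤ a) :
    a + 30 * zz n ^ 2 * mm n ≤ (a + 30 * AA) * (n : ℝ) ^ (1 / 5 : ℝ) := by
  rw [rep_cost, add_mul]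
  have := mul_le_mul_of_nonneg_left
    (Real.one_le_rpow (n_one hn) (show (0 : ℝ) ≤ 1 / 5 by norm_num)) ha
  linarith

lemma F_small'_of (h : (7 + 30 * AA) * (n : ℝ) ^ (1 / 5 : ℝ) ≤ 10 * (n : ℝ) ^ (1 : ℝ)) :
    Real.exp (-(10 * n)) ≤ Real.exp (-(4 + 30 * zz n ^ 2 * mm n)) / 8 := by
  refine le_trans (Real.exp_le_exp.2 ?_) (exp_div_eight _)
  rw [Real.rpow_one] at h
  have := rep_le hn 7 (by norm_num)
  linarith

lemma far_small_of (hN : 20480 ≤ n) (hz : zz n ^ 2 * eta n ≤ 1)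
    (h : 17 + (4 + 40 * AA) * Real.log n ≤ AA / 10 * (n : ℝ) ^ (1 / 10 : ℝ)) :
    200 * DD n * (20 * zz n * Real.exp (-(zz n ^ 2 * r2 n ^ 2 / 10))) ≤
      Real.exp (-(4 + 10 * zz n ^ 2 * (gapMax n + eta n))) / 8 := by
  refine le_trans ?_ (exp_div_eight _)
  rw [← mul_assoc]
  refine (mul_le_mul_of_nonneg_right (pre_le hn hN) (Real.exp_pos _).le).trans ?_
  rw [← Real.exp_add, zz_r2 hn]
  refine Real.exp_le_exp.2 ?_
  have := sparse_cost hn hz
  linarith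

lemma fail_small_of (hN : 20480 ≤ n)
    (h1 : 7 + 4 * Real.log n ≤ AA / 256 * (n : ℝ) ^ (3 / 10 : ℝ))
    (h2 : 30 * AA * (n : ℝ) ^ (1 / 5 : ℝ) ≤ AA / 256 * (n : ℝ) ^ (3 / 10 : ℝ)) :
    200 * DD n * (20 * zz n * Real.exp (-(zz n ^ 2 * mm n * (mm n / (64 * r2 n ^ 2)) / 2))) ≤
      Real.exp (-(4 + 30 * zz n ^ 2 * mm n)) / 8 := by
  refine le_trans ?_ (exp_div_eight _)
  rw [← mul_assoc]
  refine (mul_le_mul_of_nonneg_right (pre_le hn hN) (Real.exp_pos _).le).trans ?_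
  have e : zz n ^ 2 * mm n * (mm n / (64 * r2 n ^ 2)) / 2 =
      AA / 128 * (n : ℝ) ^ (3 / 10 : ℝ) := by
    rw [zz_mm, s_eq hn, show (3 / 10 : ℝ) = 1 / 5 + 1 / 10 by norm_num,
      Real.rpow_add (n_pos hn)]
    ring
  rw [← Real.exp_add, e, rep_cost]
  refine Real.exp_le_exp.2 ?_
  linarith

lemma rep_K_of (h : (10 + 30 * AA) * (n : ℝ) ^ (1 / 5 : ℝ) ≤ 1 * (n : ℝ) ^ (3 / 4 : ℝ)) :
    10 + 30 * zz n ^ 2 * mm n ≤ KK n := by
  rw [one_mul] at h
  exact (rep_le hn 10 (by norm_num)).trans h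

lemma load_sparse_of (hz : zz n ^ 2 * eta n ≤ 1)
    (h : 8 * 20 + 8 * (40 * AA) * Real.log n ≤ 1 / 2 * (n : ℝ) ^ (1 / 20 : ℝ)) :
    8 * KK n * (10 + 10 * zz n ^ 2 * (gapMax n + eta n)) ≤ QQ n / 2 := by
  have e : QQ n = KK n * (n : ℝ) ^ (1 / 20 : ℝ) := by
    rw [QQ, KK, ← Real.rpow_add (n_pos hn)]; norm_num
  have := sparse_cost hn hz
  calc 8 * KK n * (10 + 10 * zz n ^ 2 * (gapMax n + eta n))
      = KK n * (8 * (10 + 10 * zz n ^ 2 * (gapMax n + eta n))) := by ring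
    _ ≤ KK n * (1 / 2 * (n : ℝ) ^ (1 / 20 : ℝ)) :=
        mul_le_mul_of_nonneg_left (by linarith) (Real.rpow_nonneg (Nat.cast_nonneg n) _)
    _ = _ := by rw [e]; ring

lemma load_rep_of
    (h : 0 + (10 + 30 * AA) * Real.log n ≤ 1 / 2 * (n : ℝ) ^ (7 / 20 : ℝ)) :
    200 * DD n * (10 + 30 * zz n ^ 2 * mm n) ≤ KK n * (QQ n / 2) := by
  have h0 := n_pos hn
  have e : KK n * QQ n = (n : ℝ) * (n : ℝ) ^ (1 / 5 : ℝ) * (n : ℝ) ^ (7 / 20 : ℝ) := by
    rw [QQ, KK, ← Real.rpow_add h0, ← Real.rpow_one_add' h0.le (by norm_num),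
      ← Real.rpow_add h0]
    norm_num
  have hlog := Real.log_nonneg (n_one hn)
  have hnn : 0 ≤ 10 + 30 * zz n ^ 2 * mm n := by
    rw [rep_cost]; have := AA_pos; positivity
  calc 200 * DD n * (10 + 30 * zz n ^ 2 * mm n)
      ≤ (n : ℝ) * Real.log n * ((10 + 30 * AA) * (n : ℝ) ^ (1 / 5 : ℝ)) :=
        mul_le_mul (DD_le hn) (rep_le hn 10 (by norm_num)) hnn (mul_nonneg h0.le hlog)
    _ = (n : ℝ) * (n : ℝ) ^ (1 / 5 : ℝ) * ((10 + 30 * AA) * Real.log n) := by ring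
    _ ≤ (n : ℝ) * (n : ℝ) ^ (1 / 5 : ℝ) * (1 / 2 * (n : ℝ) ^ (7 / 20 : ℝ)) :=
        mul_le_mul_of_nonneg_left (by linarith) (by positivity)
    _ = (n : ℝ) * (n : ℝ) ^ (1 / 5 : ℝ) * (n : ℝ) ^ (7 / 20 : ℝ) / 2 := by ring
    _ = _ := by rw [← e]; ring

end

theorem eventually_facts : ∀ᶠ n : ℕ in atTop, Facts n := by
  have hA := AA_pos
  filter_upwards [eventually_ge_atTop 20480,
    ev_log_le 0 64 (c := 1) (δ := 1) one_pos one_pos,
    ev_rpow_le (a := -(4 / 5)) (b := 0) (by norm_num) 1 (c := 1 / 16) (by norm_num),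
    ev_log_le 0 64 (c := 1) (δ := 1 / 5) one_pos (by norm_num),
    ev_rpow_le (a := 0) (b := 1 / 10) (by norm_num) 64 one_pos,
    ev_log_le 17 (40 * AA) (c := 10) (δ := 1) (by norm_num) one_pos,
    ev_rpow_le (a := 1 / 5) (b := 1) (by norm_num) (7 + 30 * AA) (c := 10) (by norm_num),
    ev_log_le 17 (4 + 40 * AA) (c := AA / 10) (δ := 1 / 10) (by positivity) (by norm_num),
    ev_log_le 7 4 (c := AA / 256) (δ := 3 / 10) (by positivity) (by norm_num),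
    ev_rpow_le (a := 1 / 5) (b := 3 / 10) (by norm_num) (30 * AA) (c := AA / 256) (by positivity),
    ev_rpow_le (a := 1 / 5) (b := 3 / 4) (by norm_num) (10 + 30 * AA) one_pos,
    ev_log_le (8 * 20) (8 * (40 * AA)) (c := 1 / 2) (δ := 1 / 20) (by norm_num) (by norm_num),
    ev_log_le 0 (10 + 30 * AA) (c := 1 / 2) (δ := 7 / 20) (by norm_num) (by norm_num)]
    with n hN hsm hm hgm hs hF hF' hfar hfail hfail' hrK hls hlr
  have hn : 1 ≤ n := le_trans (by norm_num) hN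
  have h10 : 1024 ≤ n := le_trans (by norm_num) hN
  have hz := z_eta_le hn h10
  have h0 := n_pos hn
  exact
    { hn := hn
      eta0 := one_div_pos.2 (pow_pos h0 3)
      m0 := Real.rpow_pos_of_pos h0 _
      r0 := Real.rpow_pos_of_pos h0 _
      K1 := Real.one_le_rpow (n_one hn) (by norm_num)
      D0 := mul_nonneg (mul_nonneg cc_pos.le h0.le) (Real.log_nonneg (n_one hn))
      small := small_of hn h10 hsm hm
      gap_m := gap_m_of hn hgm
      eta_m := eta_m_of hn h10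
      s1 := s1_of hn hs
      ms1 := ms1_of hn
      z_eta := hz
      F_small := F_small_of hn hz hF
      F_small' := F_small'_of hn hF'
      far_small := far_small_of hn hN hz hfar
      fail_small := fail_small_of hn hN hfail hfail'
      rep_K := rep_K_of hn hrK
      load_sparse := load_sparse_of hn hz hls
      load_rep := load_rep_of hn hlr }

end Units
end Vale.Agent.P230
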