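import Mathlib
import Vale.Agent.P230.Defs
import Vale.Agent.P230.UnitsAsymp

/-!
# P230: units for one test point
-/

namespace Vale.Agent.P230

open Finset Filter
open scoped RealInnerProductSpace

lemma mem_capSet {n : ℕ} {V : Finset (Sp n)} {u v : Sp n} {t : ℝ} :
    v ∈ capSet V u t ↔ v ∈ V ∧ t ≤ ⟪v, u⟫ := by
  classical
  simp [capSet]

/-- The mass of the common part of two caps. -/
theorem pair_mass {n : ℕ} (C : CapSys n) (hn : 1 ≤ n) (u u' : Sp n) (t : ℝ)
    (hne : u + u' ≠ 0) (hu : ‖u + u'‖ ≤ 6) (ht : eta n ≤ 2 * t) :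
    ∑ v ∈ capSet C.V u t ∩ capSet C.V u' t, C.w v
      ≤ 20 * zz n * Real.exp (zz n ^ 2 / 2 * (1 - (2 * t - eta n) ^ 2 / ‖u + u'‖ ^ 2)) := by
  have : 1 ≤ n := hn
  refine le_trans (Finset.sum_le_sum_of_subset_of_nonneg ?_ fun v _ _ => C.w_nonneg v)
    (C.mass_le (u + u') (2 * t) hne hu ht)
  intro v hv
  rw [Finset.mem_inter, mem_capSet, mem_capSet] at hv
  rw [mem_capSet, inner_add_right]
  exact ⟨hv.1.1, by linarith [hv.1.2, hv.2.2]⟩

namespace Units

variable {n : ℕ}

lemma sum_capSet_nonneg (C : CapSys n) (s : Finset (Sp n)) : 0 ≤ ∑ v ∈ s, C.w v :=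
  Finset.sum_nonneg fun v _ => C.w_nonneg v

lemma sum_biUnion_le (C : CapSys n) (I : Finset (Sp n)) (f : Sp n → Finset (Sp n)) :
    ∑ v ∈ I.biUnion f, C.w v ≤ ∑ j ∈ I, ∑ v ∈ f j, C.w v := by
  classical
  induction I using Finset.induction with
  | empty => simp
  | @insert a s ha ih =>
    rw [Finset.biUnion_insert, Finset.sum_insert ha]
    have := Finset.sum_union_inter (s₁ := f a) (s₂ := s.biUnion f) (f := C.w)
    linarith [sum_capSet_nonneg C (f a ∩ s.biUnion f)]

lemma shifted_norm {s m e g A B d r : ℝ} (hs1 : 1 ≤ s) (he : 0 ≤ e) (hd : 0 ≤ d)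
    (hrs : r * s = m / 64) (hg : g ≤ m / 16) (hem : e ≤ m / 48)
    (hA : A ≤ 1 + 3 * e) (hB : 1 - 2 * g ≤ B) (hdr : d ≤ 4 * r) :
    (1 + s) * A - s * B + (s + s ^ 2) * d ≤ 1 + m * s / 2 := by
  have e4 : (1 + s) * A ≤ (1 + s) * (1 + 3 * e) := mul_le_mul_of_nonneg_left hA (by linarith)
  have e5 : s * (1 - 2 * g) ≤ s * B := mul_le_mul_of_nonneg_left hB (by linarith)
  have hss : s + s ^ 2 ≤ 2 * s ^ 2 := by
    have := le_self_pow₀ hs1 (show 2 ≠ 0 by norm_num)
    linarith
  have e6 : (s + s ^ 2) * d ≤ (2 * s ^ 2) * (4 * r) := mul_le_mul hss hdr hd (by positivity)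
  have e7 : (2 * s ^ 2) * (4 * r) = m * s / 8 := by
    calc (2 * s ^ 2) * (4 * r) = 8 * s * (r * s) := by ring
      _ = _ := by rw [hrs]; ring
  have e8 : s * g ≤ s * (m / 16) := mul_le_mul_of_nonneg_left hg (by linarith)
  have e9 : s * e ≤ s * (m / 48) := mul_le_mul_of_nonneg_left hem (by linarith)
  have e10 : e ≤ s * e := le_mul_of_one_le_left he hs1
  linarith

lemma shifted_exp {z p T D : ℝ} (hz : 0 ≤ z) (hp : 0 ≤ p) (hT : 1 + p ≤ T)
    (hD0 : 0 < D) (hD : D ≤ 1 + p / 2) : z / 2 * (1 - T ^ 2 / D) ≤ -(z * p / 2) := by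
  have hnum : (1 + p) ^ 2 ≤ T ^ 2 := pow_le_pow_left₀ (by linarith) hT 2
  have hpp : 0 ≤ p * p := mul_nonneg hp hp
  have hkey : 1 + p ≤ T ^ 2 / D := by
    rw [le_div_iff₀ hD0]
    calc (1 + p) * D ≤ (1 + p) * (1 + p / 2) := mul_le_mul_of_nonneg_left hD (by linarith)
      _ ≤ (1 + p) ^ 2 := by linarith
      _ ≤ _ := hnum
  have := mul_le_mul_of_nonneg_left hkey hz
  linarith

/-- The common part of two caps far apart is negligible. -/
lemma far_mass (C : CapSys n) (hf : Facts n) {a b : Sp n} (ha : ‖a‖ ≤ 1 + eta n)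
    (hb : ‖b‖ ≤ 1 + eta n) (hfar : r2 n < ‖a - b‖) :
    ∑ v ∈ capSet C.V a (tau n) ∩ capSet C.V b (tau n), C.w v ≤
      20 * zz n * Real.exp (-(zz n ^ 2 * r2 n ^ 2 / 10)) := by
  classical
  have he := hf.eta0
  have hes := hf.small.2.1
  have hr := hf.r0
  by_cases h0 : a + b = 0
  · have : capSet C.V a (tau n) ∩ capSet C.V b (tau n) = ∅ := by
      rw [Finset.eq_empty_iff_forall_notMem]
      intro v hv
      rw [Finset.mem_inter, mem_capSet, mem_capSet] at hv
      have hsum : ⟪v, a⟫ + ⟪v, b⟫ = (0 : ℝ) := by rw [← inner_add_right, h0, inner_zero_right]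
      have : (1 : ℝ) ≤ tau n := by unfold tau; linarith
      linarith [hv.1.2, hv.2.2]
    rw [this, Finset.sum_empty]
    exact mul_nonneg (mul_nonneg (by norm_num) (Real.sqrt_nonneg _)) (Real.exp_pos _).le
  have hle : ‖a + b‖ ≤ 6 := (norm_add_le a b).trans (by linarith)
  refine (pair_mass C hf.hn a b _ h0 hle (by unfold tau; linarith)).trans ?_
  refine mul_le_mul_of_nonneg_left (Real.exp_le_exp.2 ?_)
    (mul_nonneg (by norm_num) (Real.sqrt_nonneg _))
  have hpar := parallelogram_law_with_norm ℝ a b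
  have h1 : ‖a‖ ^ 2 ≤ (1 + eta n) ^ 2 := pow_le_pow_left₀ (norm_nonneg a) ha 2
  have h2 : ‖b‖ ^ 2 ≤ (1 + eta n) ^ 2 := pow_le_pow_left₀ (norm_nonneg b) hb 2
  have h3 : r2 n ^ 2 ≤ ‖a - b‖ ^ 2 := pow_le_pow_left₀ hr.le hfar.le 2
  have hd : ‖a + b‖ ^ 2 ≤ 4 * (1 + eta n) ^ 2 - r2 n ^ 2 := by nlinarith
  have hd0 : 0 < ‖a + b‖ ^ 2 := pow_pos (norm_pos_iff.2 h0) 2
  have hnum : 4 * (1 + eta n) ^ 2 ≤ (2 * tau n - eta n) ^ 2 := by unfold tau; nlinarith
  have hkey : 1 + r2 n ^ 2 / 5 ≤ (2 * tau n - eta n) ^ 2 / ‖a + b‖ ^ 2 := by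
    rw [le_div_iff₀ hd0]
    have hsq : (1 + eta n) ^ 2 ≤ 5 / 4 := by nlinarith
    nlinarith [mul_le_mul_of_nonneg_left hd (by positivity : (0 : ℝ) ≤ 1 + r2 n ^ 2 / 5),
      mul_le_mul_of_nonneg_left hsq (by positivity : (0 : ℝ) ≤ r2 n ^ 2)]
  nlinarith [mul_le_mul_of_nonneg_left hkey (sq_nonneg (zz n))]

/-- A representative seldom fails a point of its cluster. -/
lemma fail_mass (C : CapSys n) (hf : Facts n) {a b : Sp n} (ha : ‖a‖ ≤ 1 + eta n)
    (hb : tau n - ‖b‖ ≤ gapMax n) (hnear : ‖b - a‖ ≤ 2 * r2 n) :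
    ∑ v ∈ (capSet C.V a (tau n + mm n)).filter (fun v => ⟪v, b⟫ < tau n), C.w v ≤
      20 * zz n * Real.exp (-(zz n ^ 2 * mm n * (mm n / (64 * r2 n ^ 2)) / 2)) := by
  classical
  set m := mm n with hm
  set s := m / (64 * r2 n ^ 2) with hs
  have he := hf.eta0
  have hm0 := hf.m0
  have hs1 : 1 ≤ s := hf.s1
  have hms : m * s ≤ 1 := hf.ms1
  have hg := hf.gap_m
  have hem := hf.eta_m
  have hm16 := hf.small.2.2
  have hes := hf.small.2.1
  have hr := hf.r0
  have hrs : r2 n ^ 2 * s = m / 64 := by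
    rw [hs]; field_simp
  set t := tau n + (1 + s) * m with ht
  set u' := a - s • (b - a) with hu'
  have hsub : (capSet C.V a (tau n + m)).filter (fun v => ⟪v, b⟫ < tau n) ⊆ capSet C.V u' t := by
    intro v hv
    rw [Finset.mem_filter, mem_capSet] at hv
    rw [mem_capSet, hu', inner_sub_right, inner_smul_right, inner_sub_right]
    refine ⟨hv.1.1, ?_⟩
    have h1 := hv.1.2
    nlinarith [mul_le_mul_of_nonneg_left hv.2.le (by linarith : (0 : ℝ) ≤ s),
      mul_le_mul_of_nonneg_left h1 (by linarith : (0 : ℝ) ≤ s)]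
  have ht1 : 1 + m ≤ t - eta n := by
    rw [ht, tau]
    nlinarith [mul_nonneg (le_of_lt hm0) (by linarith : (0 : ℝ) ≤ s)]
  by_cases h0 : u' = 0
  · have : (capSet C.V a (tau n + m)).filter (fun v => ⟪v, b⟫ < tau n) = ∅ := by
      rw [Finset.eq_empty_iff_forall_notMem]
      intro v hv
      have := (mem_capSet.1 (hsub hv)).2
      rw [h0, inner_zero_right] at this
      linarith
    rw [this, Finset.sum_empty]
    exact mul_nonneg (mul_nonneg (by norm_num) (Real.sqrt_nonneg _)) (Real.exp_pos _).le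
  have hgl : gapMax n ≤ 1 / 16 := hf.small.1
  have hb1 : 1 - gapMax n ≤ ‖b‖ := by unfold tau at hb; linarith
  have hnorm : ‖u'‖ ^ 2 = (1 + s) * ‖a‖ ^ 2 - s * ‖b‖ ^ 2 + (s + s ^ 2) * ‖b - a‖ ^ 2 := by
    rw [hu', norm_sub_sq_real, norm_sub_sq_real, norm_smul, inner_smul_right, inner_sub_right,
      real_inner_self_eq_norm_sq, mul_pow, Real.norm_eq_abs, sq_abs, norm_sub_sq_real,
      real_inner_comm a b]
    ring
  have hu2 : ‖u'‖ ^ 2 ≤ 1 + m * s / 2 := by
    rw [hnorm]
    refine shifted_norm (g := gapMax n) (e := eta n) hs1 he.le (sq_nonneg _) hrs hg hem ?_ ?_ ?_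
    · have := pow_le_pow_left₀ (norm_nonneg a) ha 2
      have := mul_le_mul_of_nonneg_left (show eta n ≤ 1 by linarith) he.le
      linarith
    · have := pow_le_pow_left₀ (by linarith) hb1 2
      linarith [sq_nonneg (gapMax n)]
    · have := pow_le_pow_left₀ (norm_nonneg _) hnear 2
      linarith
  have hu6 : ‖u'‖ ≤ 6 :=
    (pow_le_pow_iff_left₀ (norm_nonneg _) (by norm_num) two_ne_zero).1
      (by linarith [show (6 : ℝ) ^ 2 = 36 by norm_num])
  refine le_trans (Finset.sum_le_sum_of_subset_of_nonneg hsub fun v _ _ => C.w_nonneg v) ?_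
  refine (C.mass_le u' t h0 hu6 (by linarith)).trans ?_
  refine mul_le_mul_of_nonneg_left (Real.exp_le_exp.2 ?_)
    (mul_nonneg (by norm_num) (Real.sqrt_nonneg _))
  rw [mul_assoc (zz n ^ 2) m s]
  have hT : 1 + m * s ≤ t - eta n := by
    rw [ht, tau]
    linarith
  exact shifted_exp (sq_nonneg _) (mul_nonneg hm0.le (by linarith)) hT
    (pow_pos (norm_pos_iff.2 h0) 2) hu2

/-- The choice of representatives and units, for parameters satisfying `Facts`. -/
theorem exists_units_aux (hf : Facts n) (C : CapSys n) (I : Finset (Sp n)) (u : Sp n → Sp n)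
    (F : Finset (Sp n)) (hF : ∑ v ∈ F, C.w v ≤ Real.exp (-(10 * n)))
    (hI : (I.card : ℝ) ≤ 200 * DD n)
    (hcost : ∑ i ∈ I, (n : ℝ) * (tau n - ‖u i‖) ≤ 200 * DD n)
    (hu : ∀ i ∈ I, ‖u i‖ ≤ 1 + eta n ∧ tau n - ‖u i‖ ≤ gapMax n) :
    ∃ (A : Finset (Sp n)) (W : Sp n → Finset (Sp n)) (κ : Sp n → ℝ),
      (∀ a ∈ A, 1 ≤ κ a ∧ 2 * Real.exp (-κ a) ≤ ∑ v ∈ W a, C.w v ∧
        W a ⊆ (I.biUnion fun i => capSet C.V (u i) (tau n)) \ F) ∧
      (∀ i ∈ I, ∃ a ∈ A, W a ⊆ capSet C.V (u i) (tau n)) ∧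
      ∑ a ∈ A, κ a ≤ C2 * DD n ∧
      ∀ v, ∑ a ∈ A.filter (fun a => v ∈ W a), κ a ≤ QQ n := by
  classical
  have he := hf.eta0
  have hm0 := hf.m0
  have hr := hf.r0
  have hK := hf.K1
  have hD := hf.D0
  obtain ⟨hg16, he100, hm16⟩ := hf.small
  have hz2 := sq_nonneg (zz n)
  set g : Sp n → ℝ := fun i => tau n - ‖u i‖ with hg
  have hg0 : ∀ i ∈ I, 0 ≤ g i := fun i hi => by
    have := (hu i hi).1
    simp only [hg, tau]; linarith
  set dense : Sp n → Prop := fun i =>
    KK n ≤ ((I.filter fun j => ‖u i - u j‖ ≤ r2 n).card : ℝ) with hdense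
  set fam := (I.filter dense).powerset.filter fun R : Finset (Sp n) =>
    (R : Set (Sp n)).Pairwise fun a b => 2 * r2 n < ‖u a - u b‖ with hfam
  obtain ⟨R, hRfam, hRmax⟩ := fam.exists_max_image Finset.card ⟨∅, by simp [hfam]⟩
  rw [hfam, Finset.mem_filter, Finset.mem_powerset] at hRfam
  obtain ⟨hRsub, hRsep⟩ := hRfam
  have hRI : ∀ a ∈ R, a ∈ I := fun a ha => (Finset.mem_filter.1 (hRsub ha)).1
  have hcov : ∀ i ∈ I, dense i → ∃ a ∈ R, ‖u i - u a‖ ≤ 2 * r2 n := by
    intro i hi hd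
    by_contra hno
    push Not at hno
    have hiR : i ∉ R := fun hm => by
      have := hno i hm
      rw [sub_self, norm_zero] at this
      linarith
    have hins : insert i R ∈ fam := by
      rw [hfam, Finset.mem_filter, Finset.mem_powerset]
      refine ⟨Finset.insert_subset (Finset.mem_filter.2 ⟨hi, hd⟩) hRsub, ?_⟩
      rw [Finset.coe_insert]
      refine Set.Pairwise.insert hRsep fun b hb _ => ⟨hno b hb, ?_⟩
      rw [norm_sub_rev]
      exact hno b hb
    have := hRmax _ hins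
    rw [Finset.card_insert_of_notMem hiR] at this
    omega
  set S := I.filter fun i => ∀ a ∈ R, 2 * r2 n < ‖u i - u a‖ with hS
  have hSI : ∀ a ∈ S, a ∈ I := fun a ha => (Finset.mem_filter.1 ha).1
  have hdisj : Disjoint R S := Finset.disjoint_left.2 fun a ha haS => by
    have := (Finset.mem_filter.1 haS).2 a ha
    rw [sub_self, norm_zero] at this
    linarith
  have hsparse : ∀ a ∈ S, ((I.filter fun j => ‖u a - u j‖ ≤ r2 n).card : ℝ) < KK n := by
    intro a ha
    by_contra hlt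
    push Not at hlt
    obtain ⟨b, hb, hab⟩ := hcov a (hSI a ha) hlt
    exact absurd ((Finset.mem_filter.1 ha).2 b hb) (not_lt.2 hab)
  have hRcard : (R.card : ℝ) * KK n ≤ I.card := by
    have hd : (R : Set (Sp n)).PairwiseDisjoint fun a => I.filter fun j => ‖u a - u j‖ ≤ r2 n := by
      intro a ha b hb hab
      simp only [Function.onFun, Finset.disjoint_left, Finset.mem_filter]
      rintro j ⟨-, h1⟩ ⟨-, h2⟩
      have := hRsep ha hb hab
      have h3 := norm_sub_le_norm_sub_add_norm_sub (u a) (u j) (u b)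
      rw [norm_sub_rev (u b)] at h2
      linarith
    calc (R.card : ℝ) * KK n = ∑ _a ∈ R, KK n := by rw [Finset.sum_const, nsmul_eq_mul]
      _ ≤ ∑ a ∈ R, ((I.filter fun j => ‖u a - u j‖ ≤ r2 n).card : ℝ) :=
          Finset.sum_le_sum fun a ha => (Finset.mem_filter.1 (hRsub ha)).2
      _ = ((R.biUnion fun a => I.filter fun j => ‖u a - u j‖ ≤ r2 n).card : ℝ) := by
          rw [Finset.card_biUnion hd]; push_cast; rfl
      _ ≤ I.card := by
          exact_mod_cast Finset.card_le_card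
            (Finset.biUnion_subset.2 fun a _ => Finset.filter_subset _ _)
  -- the units
  set cap : Sp n → Finset (Sp n) := fun i => capSet C.V (u i) (tau n) with hcap
  set mult : Sp n → ℝ := fun v => ((S.filter fun b => v ∈ cap b).card : ℝ) with hmult
  set WS : Sp n → Finset (Sp n) := fun a => (cap a).filter fun v => v ∉ F ∧ mult v ≤ 8 * KK n
    with hWS
  set WR : Sp n → Finset (Sp n) := fun a => (capSet C.V (u a) (tau n + mm n)).filter fun v =>
    v ∉ F ∧ ∀ j ∈ I, ‖u j - u a‖ ≤ 2 * r2 n → tau n ≤ ⟪v, u j⟫ with hWR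
  set κR := 10 + 30 * zz n ^ 2 * mm n with hκR
  have hκR1 : 1 ≤ κR := by
    rw [hκR]
    have : 0 ≤ zz n ^ 2 * mm n := mul_nonneg hz2 hm0.le
    linarith
  set κS : Sp n → ℝ := fun a => 10 + 10 * zz n ^ 2 * (g a + eta n) with hκS
  have hκS1 : ∀ a ∈ S, 1 ≤ κS a := fun a ha => by
    simp only [hκS]
    have : 0 ≤ zz n ^ 2 * (g a + eta n) := mul_nonneg hz2 (by linarith [hg0 a (hSI a ha)])
    linarith
  have hκSle : ∀ a ∈ S, κS a ≤ 10 + 10 * zz n ^ 2 * (gapMax n + eta n) := fun a ha => by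
    simp only [hκS]
    have : zz n ^ 2 * (g a + eta n) ≤ zz n ^ 2 * (gapMax n + eta n) :=
      mul_le_mul_of_nonneg_left (by linarith [(hu a (hSI a ha)).2]) hz2
    linarith
  have hmassR : ∀ a ∈ R, 2 * Real.exp (-κR) ≤ ∑ v ∈ WR a, C.w v := by
    intro a ha
    have haI := hRI a ha
    set M := ∑ v ∈ capSet C.V (u a) (tau n + mm n), C.w v with hM
    set M1 := Real.exp (-(4 + 30 * zz n ^ 2 * mm n)) with hM1
    have hMge : M1 ≤ M := by
      have h1 : (1 : ℝ) ≤ tau n + mm n := by simp only [tau]; linarith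
      have h2 : tau n + mm n ≤ 2 := by simp only [tau]; linarith
      refine le_trans (Real.exp_le_exp.2 ?_) (C.mass_ge (u a) (tau n + mm n) h1 h2
        (by linarith [(hu a haI).1]) (by linarith [(hu a haI).2]))
      have hmax : max 0 (tau n + mm n - ‖u a‖) ≤ gapMax n + mm n :=
        max_le (by linarith [hg0 a haI, (hu a haI).2]) (by linarith [(hu a haI).2])
      have := mul_le_mul_of_nonneg_left
        (show max 0 (tau n + mm n - ‖u a‖) + eta n ≤ 3 * mm n by linarith [hf.gap_m, hf.eta_m]) hz2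
      linarith
    have hsub : capSet C.V (u a) (tau n + mm n) ⊆ WR a ∪ (F ∪
        I.biUnion fun j => if ‖u j - u a‖ ≤ 2 * r2 n then
          (capSet C.V (u a) (tau n + mm n)).filter (fun v => ⟪v, u j⟫ < tau n) else ∅) := by
      intro v hv
      by_cases hvF : v ∈ F
      · exact Finset.mem_union_right _ (Finset.mem_union_left _ hvF)
      by_cases hall : ∀ j ∈ I, ‖u j - u a‖ ≤ 2 * r2 n → tau n ≤ ⟪v, u j⟫
      · exact Finset.mem_union_left _ (Finset.mem_filter.2 ⟨hv, hvF, hall⟩)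
      · push Not at hall
        obtain ⟨j, hj, hnear, hlt⟩ := hall
        refine Finset.mem_union_right _ (Finset.mem_union_right _
          (Finset.mem_biUnion.2 ⟨j, hj, ?_⟩))
        rw [if_pos hnear]
        exact Finset.mem_filter.2 ⟨hv, hlt⟩
    have hun : ∀ s t : Finset (Sp n),
        ∑ v ∈ s ∪ t, C.w v ≤ ∑ v ∈ s, C.w v + ∑ v ∈ t, C.w v := fun s t => by
      rw [← Finset.sum_union_inter]
      linarith [sum_capSet_nonneg C (s ∩ t)]
    have hbi : ∑ v ∈ (I.biUnion fun j => if ‖u j - u a‖ ≤ 2 * r2 n then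
          (capSet C.V (u a) (tau n + mm n)).filter (fun v => ⟪v, u j⟫ < tau n) else ∅), C.w v ≤
        (I.card : ℝ) *
          (20 * zz n * Real.exp (-(zz n ^ 2 * mm n * (mm n / (64 * r2 n ^ 2)) / 2))) := by
      rw [← nsmul_eq_mul, ← Finset.sum_const]
      refine (sum_biUnion_le C _ _).trans (Finset.sum_le_sum fun j hj => ?_)
      split_ifs with hnear
      · exact fail_mass C hf (hu a haI).1 (hu j hj).2 hnear
      · rw [Finset.sum_empty]
        exact mul_nonneg (mul_nonneg (by norm_num) (Real.sqrt_nonneg _)) (Real.exp_pos _).le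
    have hfail : (I.card : ℝ) *
        (20 * zz n * Real.exp (-(zz n ^ 2 * mm n * (mm n / (64 * r2 n ^ 2)) / 2))) ≤ M1 / 8 :=
      le_trans (mul_le_mul_of_nonneg_right hI
        (mul_nonneg (mul_nonneg (by norm_num) (Real.sqrt_nonneg _)) (Real.exp_pos _).le))
        hf.fail_small
    have hlow : M ≤ ∑ v ∈ WR a, C.w v + M1 / 4 := by
      refine le_trans (Finset.sum_le_sum_of_subset_of_nonneg hsub fun v _ _ => C.w_nonneg v) ?_
      refine (hun _ _).trans (add_le_add le_rfl ((hun _ _).trans ?_))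
      linarith [hf.F_small']
    have e : Real.exp (-κR) = Real.exp (-6) * M1 := by
      rw [hM1, ← Real.exp_add, hκR]; congr 1; ring
    have e6 : Real.exp (-6 : ℝ) ≤ 1 / 4 := by
      rw [Real.exp_neg, one_div]
      exact inv_anti₀ (by norm_num) (by linarith [Real.add_one_le_exp (6 : ℝ)])
    rw [e]
    nlinarith [Real.exp_pos (-(4 + 30 * zz n ^ 2 * mm n))]
  have hmassS : ∀ a ∈ S, 2 * Real.exp (-κS a) ≤ ∑ v ∈ WS a, C.w v := by
    intro a ha
    have haI := hSI a ha
    set M := ∑ v ∈ cap a, C.w v with hM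
    set M0 := Real.exp (-(4 + 10 * zz n ^ 2 * (g a + eta n))) with hM0
    set Mmin := Real.exp (-(4 + 10 * zz n ^ 2 * (gapMax n + eta n))) with hMmin
    have hMminle : Mmin ≤ M0 := Real.exp_le_exp.2 (by
      have := mul_le_mul_of_nonneg_left
        (show g a + eta n ≤ gapMax n + eta n by linarith [(hu a haI).2]) hz2
      linarith)
    have hMge : M0 ≤ M := by
      have h := C.mass_ge (u a) (tau n) (by unfold tau; linarith) (by unfold tau; linarith)
        (by linarith [(hu a haI).1]) (by linarith [(hu a haI).2])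
      rw [max_eq_right (by simpa only [hg] using hg0 a haI)] at h
      exact h
    set P := 20 * zz n * Real.exp (-(zz n ^ 2 * r2 n ^ 2 / 10)) with hP
    have hP0 : 0 ≤ P := mul_nonneg (mul_nonneg (by norm_num) (Real.sqrt_nonneg _)) (Real.exp_pos _).le
    set bad := (cap a).filter fun v => 8 * KK n < mult v with hbad
    have hmark : 8 * KK n * ∑ v ∈ bad, C.w v ≤ KK n * M + (I.card : ℝ) * P := by
      calc 8 * KK n * ∑ v ∈ bad, C.w v ≤ ∑ v ∈ bad, mult v * C.w v := by
            rw [Finset.mul_sum]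
            exact Finset.sum_le_sum fun v hv =>
              mul_le_mul_of_nonneg_right (Finset.mem_filter.1 hv).2.le (C.w_nonneg v)
        _ ≤ ∑ v ∈ cap a, mult v * C.w v :=
            Finset.sum_le_sum_of_subset_of_nonneg (Finset.filter_subset _ _)
              fun v _ _ => mul_nonneg (Nat.cast_nonneg _) (C.w_nonneg v)
        _ = ∑ b ∈ S, ∑ v ∈ cap a ∩ cap b, C.w v := by
            simp only [hmult, ← nsmul_eq_mul, ← Finset.sum_const]
            rw [Finset.sum_comm' (t' := S) (s' := fun b => cap a ∩ cap b)]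
            intro v b
            simp only [Finset.mem_filter, Finset.mem_inter]
            tauto
        _ ≤ ∑ b ∈ S, ((if ‖u a - u b‖ ≤ r2 n then M else 0) + P) := by
            refine Finset.sum_le_sum fun b hb => ?_
            split_ifs with hnear
            · exact le_add_of_le_of_nonneg (Finset.sum_le_sum_of_subset_of_nonneg
                Finset.inter_subset_left fun v _ _ => C.w_nonneg v) hP0
            · rw [zero_add]
              exact far_mass C hf (hu a haI).1 (hu b (hSI b hb)).1 (not_le.1 hnear)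
        _ ≤ ∑ b ∈ I, ((if ‖u a - u b‖ ≤ r2 n then M else 0) + P) :=
            Finset.sum_le_sum_of_subset_of_nonneg (Finset.filter_subset _ _) fun b _ _ => by
              have := sum_capSet_nonneg C (cap a)
              split_ifs <;> linarith
        _ ≤ _ := by
            rw [Finset.sum_add_distrib, ← Finset.sum_filter, Finset.sum_const, Finset.sum_const,
              nsmul_eq_mul, nsmul_eq_mul]
            exact add_le_add (mul_le_mul_of_nonneg_right (hsparse a ha).le
              (sum_capSet_nonneg C _)) le_rfl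
    have hkP : (I.card : ℝ) * P ≤ Mmin / 8 :=
      le_trans (mul_le_mul_of_nonneg_right hI hP0) hf.far_small
    have hsub : cap a ⊆ WS a ∪ (F ∪ bad) := by
      intro v hv
      by_cases hvF : v ∈ F
      · exact Finset.mem_union_right _ (Finset.mem_union_left _ hvF)
      by_cases hv8 : mult v ≤ 8 * KK n
      · exact Finset.mem_union_left _ (Finset.mem_filter.2 ⟨hv, hvF, hv8⟩)
      · exact Finset.mem_union_right _ (Finset.mem_union_right _
          (Finset.mem_filter.2 ⟨hv, not_le.1 hv8⟩))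
    have hun : ∀ s t : Finset (Sp n),
        ∑ v ∈ s ∪ t, C.w v ≤ ∑ v ∈ s, C.w v + ∑ v ∈ t, C.w v := fun s t => by
      rw [← Finset.sum_union_inter]
      linarith [sum_capSet_nonneg C (s ∩ t)]
    have hlow : M ≤ ∑ v ∈ WS a, C.w v + (Mmin / 8 + ∑ v ∈ bad, C.w v) := by
      refine le_trans (Finset.sum_le_sum_of_subset_of_nonneg hsub fun v _ _ => C.w_nonneg v) ?_
      refine (hun _ _).trans (add_le_add le_rfl ((hun _ _).trans ?_))
      linarith [hf.F_small]
    have hbadle : ∑ v ∈ bad, C.w v ≤ M / 8 + Mmin / 64 := by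
      have hMmin0 := Real.exp_pos (-(4 + 10 * zz n ^ 2 * (gapMax n + eta n)))
      have : Mmin / 8 ≤ KK n * (Mmin / 8) := le_mul_of_one_le_left (by linarith) hK
      refine le_of_mul_le_mul_left ?_ (by linarith : (0 : ℝ) < 8 * KK n)
      calc 8 * KK n * ∑ v ∈ bad, C.w v ≤ KK n * M + (I.card : ℝ) * P := hmark
        _ ≤ KK n * M + KK n * (Mmin / 8) := by linarith
        _ = _ := by ring
    have e : Real.exp (-κS a) = Real.exp (-6) * M0 := by
      rw [hM0, ← Real.exp_add]; simp only [hκS]; congr 1; ring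
    have e6 : Real.exp (-6 : ℝ) ≤ 1 / 4 := by
      rw [Real.exp_neg, one_div]
      exact inv_anti₀ (by norm_num) (by linarith [Real.add_one_le_exp (6 : ℝ)])
    rw [e]
    nlinarith [Real.exp_pos (-(4 + 10 * zz n ^ 2 * (g a + eta n)))]
  refine ⟨R ∪ S, fun a => if a ∈ R then WR a else WS a, fun a => if a ∈ R then κR else κS a,
    fun a ha => ?_, fun i hi => ?_, ?_, fun v => ?_⟩
  · by_cases haR : a ∈ R
    · simp only [if_pos haR]
      refine ⟨hκR1, hmassR a haR, fun v hv => ?_⟩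
      obtain ⟨hv1, hv2, hv3⟩ := Finset.mem_filter.1 hv
      refine Finset.mem_sdiff.2 ⟨Finset.mem_biUnion.2 ⟨a, hRI a haR, ?_⟩, hv2⟩
      exact mem_capSet.2 ⟨(mem_capSet.1 hv1).1, hv3 a (hRI a haR) (by simp [hr.le])⟩
    · have haS : a ∈ S := (Finset.mem_union.1 ha).resolve_left haR
      simp only [if_neg haR]
      refine ⟨hκS1 a haS, hmassS a haS, fun v hv => ?_⟩
      obtain ⟨hv1, hv2, -⟩ := Finset.mem_filter.1 hv
      exact Finset.mem_sdiff.2 ⟨Finset.mem_biUnion.2 ⟨a, hSI a haS, hv1⟩, hv2⟩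
  · by_cases hiS : i ∈ S
    · refine ⟨i, Finset.mem_union_right _ hiS, ?_⟩
      dsimp only
      rw [if_neg (Finset.disjoint_right.1 hdisj hiS)]
      exact Finset.filter_subset _ _
    · simp only [hS, Finset.mem_filter, hi, true_and, not_forall, not_lt] at hiS
      obtain ⟨a, haR, hnear⟩ := hiS
      refine ⟨a, Finset.mem_union_left _ haR, ?_⟩
      dsimp only
      rw [if_pos haR]
      intro v hv
      obtain ⟨hv1, -, hv3⟩ := Finset.mem_filter.1 hv
      exact mem_capSet.2 ⟨(mem_capSet.1 hv1).1, hv3 i hi hnear⟩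
  · rw [Finset.sum_union hdisj, Finset.sum_congr rfl fun a (ha : a ∈ R) => if_pos ha,
      Finset.sum_congr rfl fun a (ha : a ∈ S) => if_neg (Finset.disjoint_right.1 hdisj ha),
      Finset.sum_const, nsmul_eq_mul]
    have hR1 : (R.card : ℝ) * κR ≤ I.card :=
      le_trans (mul_le_mul_of_nonneg_left hf.rep_K (Nat.cast_nonneg _)) hRcard
    have hS1 : ∑ a ∈ S, κS a ≤ ∑ a ∈ I, κS a :=
      Finset.sum_le_sum_of_subset_of_nonneg (Finset.filter_subset _ _) fun b hb _ => by
        simp only [hκS]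
        have : 0 ≤ zz n ^ 2 * (g b + eta n) := mul_nonneg hz2 (by linarith [hg0 b hb])
        linarith
    have hS2 : ∑ a ∈ I, κS a = 10 * I.card + 10 * (AA * ∑ i ∈ I, (n : ℝ) * g i) +
        10 * ((I.card : ℝ) * (zz n ^ 2 * eta n)) := by
      simp only [hκS, Finset.sum_add_distrib, mul_add, Finset.sum_const, nsmul_eq_mul,
        ← Finset.mul_sum, zz_sq]
      ring
    have h1 : AA * ∑ i ∈ I, (n : ℝ) * g i ≤ AA * (200 * DD n) :=
      mul_le_mul_of_nonneg_left hcost AA_pos.le
    have h2 : (I.card : ℝ) * (zz n ^ 2 * eta n) ≤ I.card :=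
      mul_le_of_le_one_right (Nat.cast_nonneg _) hf.z_eta
    have h3 : 4200 * DD n ≤ 2000 * AA * DD n :=
      mul_le_mul_of_nonneg_right (by unfold AA; norm_num) hD
    have : C2 * DD n = 4000 * AA * DD n := by unfold C2; ring
    linarith
  · rw [Finset.filter_union, Finset.sum_union (Finset.disjoint_filter_filter hdisj)]
    have hR1 : ∑ a ∈ R.filter (fun a => v ∈ if a ∈ R then WR a else WS a),
        (if a ∈ R then κR else κS a) ≤ QQ n / 2 := by
      calc _ ≤ ∑ a ∈ R, (if a ∈ R then κR else κS a) :=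
            Finset.sum_le_sum_of_subset_of_nonneg (Finset.filter_subset _ _) fun b hb _ => by
              rw [if_pos hb]; linarith
        _ = (R.card : ℝ) * κR := by
            rw [Finset.sum_congr rfl fun a (ha : a ∈ R) => if_pos ha, Finset.sum_const,
              nsmul_eq_mul]
        _ ≤ _ := by
            refine le_of_mul_le_mul_left ?_ (by linarith : (0 : ℝ) < KK n)
            calc KK n * ((R.card : ℝ) * κR) = (R.card : ℝ) * KK n * κR := by ring
              _ ≤ 200 * DD n * κR := mul_le_mul_of_nonneg_right (hRcard.trans hI) (by linarith)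
              _ ≤ _ := hf.load_rep
    have hS1 : ∑ a ∈ S.filter (fun a => v ∈ if a ∈ R then WR a else WS a),
        (if a ∈ R then κR else κS a) ≤ QQ n / 2 := by
      have hTsub : S.filter (fun a => v ∈ if a ∈ R then WR a else WS a) ⊆
          S.filter (fun a => v ∈ cap a ∧ mult v ≤ 8 * KK n) := by
        intro a ha
        obtain ⟨haS, hva⟩ := Finset.mem_filter.1 ha
        rw [if_neg (Finset.disjoint_right.1 hdisj haS)] at hva
        obtain ⟨h1, -, h2⟩ := Finset.mem_filter.1 hva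
        exact Finset.mem_filter.2 ⟨haS, h1, h2⟩
      set T := S.filter fun a => v ∈ cap a ∧ mult v ≤ 8 * KK n with hT
      have hTc : (T.card : ℝ) ≤ 8 * KK n := by
        by_cases h : mult v ≤ 8 * KK n
        · refine le_trans ?_ h
          simp only [hmult, hT]
          refine Nat.cast_le.2 (Finset.card_le_card fun a ha => ?_)
          obtain ⟨haS, h1, -⟩ := Finset.mem_filter.1 ha
          exact Finset.mem_filter.2 ⟨haS, h1⟩
        · have : T = ∅ := Finset.filter_eq_empty_iff.2 fun a _ ha => h ha.2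
          rw [this, Finset.card_empty, Nat.cast_zero]
          linarith
      calc _ ≤ ∑ a ∈ T, (if a ∈ R then κR else κS a) :=
            Finset.sum_le_sum_of_subset_of_nonneg hTsub fun b hb _ => by
              have hbS := (Finset.mem_filter.1 hb).1
              rw [if_neg (Finset.disjoint_right.1 hdisj hbS)]
              linarith [hκS1 b hbS]
        _ ≤ ∑ _a ∈ T, (10 + 10 * zz n ^ 2 * (gapMax n + eta n)) :=
            Finset.sum_le_sum fun b hb => by
              have hbS := (Finset.mem_filter.1 hb).1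
              rw [if_neg (Finset.disjoint_right.1 hdisj hbS)]
              exact hκSle b hbS
        _ ≤ _ := by
            rw [Finset.sum_const, nsmul_eq_mul]
            refine le_trans (mul_le_mul_of_nonneg_right hTc ?_) hf.load_sparse
            have : 0 ≤ zz n ^ 2 * (gapMax n + eta n) := mul_nonneg hz2
              (add_nonneg (by unfold gapMax; have := Real.log_natCast_nonneg n; positivity) he.le)
            linarith
    linarith

end Units

/-- Units for one test point. -/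
theorem exists_units : ∀ᶠ n : ℕ in atTop, ∀ (C : CapSys n) (I : Finset (Sp n)) (u : Sp n → Sp n)
    (F : Finset (Sp n)),
    ∑ v ∈ F, C.w v ≤ Real.exp (-(10 * n)) →
    (I.card : ℝ) ≤ 200 * DD n →
    ∑ i ∈ I, (n : ℝ) * (tau n - ‖u i‖) ≤ 200 * DD n →
    (∀ i ∈ I, ‖u i‖ ≤ 1 + eta n ∧ tau n - ‖u i‖ ≤ gapMax n) →
    ∃ (A : Finset (Sp n)) (W : Sp n → Finset (Sp n)) (κ : Sp n → ℝ),
      (∀ a ∈ A, 1 ≤ κ a ∧ 2 * Real.exp (-κ a) ≤ ∑ v ∈ W a, C.w v ∧
        W a ⊆ (I.biUnion fun i => capSet C.V (u i) (tau n)) \ F) ∧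
      (∀ i ∈ I, ∃ a ∈ A, W a ⊆ capSet C.V (u i) (tau n)) ∧
      ∑ a ∈ A, κ a ≤ C2 * DD n ∧
      ∀ v, ∑ a ∈ A.filter (fun a => v ∈ W a), κ a ≤ QQ n := by
  filter_upwards [Units.eventually_facts] with n hf C I u F hF hI hc hu
  exact Units.exists_units_aux hf C I u F hF hI hc hu

end Vale.Agent.P230
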