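import Vale.Agent.P230.Prob
import Vale.Agent.P230.Units
import Vale.Agent.P230.Greedy

/-!
# P230: one configuration fails to be uncovered only rarely

In each of `4 ^ n` patches the test points give an event of probability at least `1 / 4`, and the
events of different patches look at disjoint sets of vectors.
-/

namespace Vale.Agent.P230

open Finset Filter MeasureTheory
open scoped RealInnerProductSpace ENNReal Topology

/-- Every point near the origin has a coverer whose cap no chosen vector cuts. -/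
def Covered {n : ℕ} (X' : Finset (Sp n)) (T : Finset (Sp n)) : Prop :=
  ∀ y : Sp n, ‖y‖ ≤ 3 / 2 → ∃ x ∈ coverers X' y, ∀ v ∈ T, ⟪v, y - x⟫ < tau n

lemma patch_mem_coverers {n : ℕ} {X : Finset (Sp n)} {x y : Sp n} :
    x ∈ coverers X y ↔ x ∈ X ∧ ‖y - x‖ ≤ 1 + eta n := by
  simp [coverers]

lemma patch_tendsto_eta : Tendsto eta atTop (𝓝 0) := by
  have h : Tendsto (fun n : ℕ => (n : ℝ) ^ 3) atTop atTop :=
    (tendsto_pow_atTop (by norm_num : 3 ≠ 0)).comp tendsto_natCast_atTop_atTop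
  exact h.inv_tendsto_atTop.congr fun n => by simp [eta, one_div]

lemma patch_tendsto_rho : Tendsto rho atTop (𝓝 0) :=
  (tendsto_rpow_neg_atTop (by norm_num : (0 : ℝ) < 1 / 40)).comp tendsto_natCast_atTop_atTop

lemma patch_zz_le (n : ℕ) : zz n ≤ 1024 * (n + 1 : ℝ) := by
  rw [zz, Real.sqrt_le_left (by positivity), AA]
  nlinarith [Nat.cast_nonneg (α := ℝ) n]

/-- The mass of two caps whose centres are short and far apart. -/
lemma pair_mass_le {n : ℕ} (C : CapSys n) (hn : 1 ≤ n) {u u' : Sp n} {t R d g : ℝ}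
    (hu : ‖u‖ ≤ R) (hu' : ‖u'‖ ≤ R) (hd : d ≤ ‖u - u'‖ ^ 2) (hR : R ≤ 3)
    (ht : eta n ≤ 2 * t) (hg : (1 + g) * (4 * R ^ 2 - d) ≤ (2 * t - eta n) ^ 2) :
    ∑ v ∈ capSet C.V u t ∩ capSet C.V u' t, C.w v
      ≤ 20 * zz n * Real.exp (-(AA * n / 2 * g)) := by
  have hz : 0 ≤ zz n := Real.sqrt_nonneg _
  by_cases hne : u + u' = 0
  · have : capSet C.V u t ∩ capSet C.V u' t = ∅ := by
      rw [Finset.eq_empty_iff_forall_notMem]
      intro v hv
      rw [mem_inter, mem_capSet, mem_capSet] at hv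
      have h0 : ⟪v, u⟫ + ⟪v, u'⟫ = 0 := by rw [← inner_add_right, hne, inner_zero_right]
      have : (0 : ℝ) < eta n := by unfold eta; positivity
      linarith [hv.1.2, hv.2.2]
    rw [this, Finset.sum_empty]
    positivity
  have hpar : ‖u + u'‖ ^ 2 + ‖u - u'‖ ^ 2 ≤ 4 * R ^ 2 := by
    nlinarith [parallelogram_law_with_norm ℝ u u', pow_le_pow_left₀ (norm_nonneg u) hu 2,
      pow_le_pow_left₀ (norm_nonneg u') hu' 2]
  have h6 : ‖u + u'‖ ≤ 6 := (norm_add_le _ _).trans (by linarith)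
  refine (pair_mass C hn u u' t hne h6 ht).trans ?_
  refine mul_le_mul_of_nonneg_left (Real.exp_le_exp.2 ?_) (by positivity)
  have hpos : 0 < ‖u + u'‖ ^ 2 := pow_pos (norm_pos_iff.2 hne) 2
  have hq : 1 + g ≤ (2 * t - eta n) ^ 2 / ‖u + u'‖ ^ 2 := by
    rw [le_div_iff₀ hpos]
    rcases le_or_gt 0 (1 + g) with h | h
    · exact le_trans (mul_le_mul_of_nonneg_left (by linarith) h) hg
    · nlinarith [mul_nonpos_of_nonpos_of_nonneg h.le hpos.le, sq_nonneg (2 * t - eta n)]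
  rw [zz_sq]
  have hA : 0 ≤ AA * n / 2 := by unfold AA; positivity
  calc AA * ↑n / 2 * (1 - (2 * t - eta n) ^ 2 / ‖u + u'‖ ^ 2) ≤ AA * n / 2 * (-g) :=
        mul_le_mul_of_nonneg_left (by linarith) hA
    _ = _ := by ring

lemma patch_sum_biUnion_le {α β : Type*} [DecidableEq α] (s : Finset β) (f : β → Finset α) (w : α → ℝ)
    (hw : ∀ v, 0 ≤ w v) : ∑ v ∈ s.biUnion f, w v ≤ ∑ b ∈ s, ∑ v ∈ f b, w v := by
  classical
  induction s using Finset.induction with
  | empty => simp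
  | @insert b s hb ih =>
    rw [Finset.biUnion_insert, Finset.sum_insert hb]
    have := Finset.sum_union_inter (s₁ := f b) (s₂ := s.biUnion f) (f := w)
    linarith [Finset.sum_nonneg (s := f b ∩ s.biUnion f) fun v _ => hw v]

/-- What is needed of the parameters for large `n`. -/
lemma patch_large : ∀ᶠ n : ℕ in atTop, 1 ≤ n ∧ eta n ≤ 1 / 10 ∧ rho n ≤ 1 / 64 ∧
    (1 + 1 / 20480) * (4 * (1 + 2 * rho n + eta n) ^ 2 - 1 / 4096)
      ≤ (2 * (tau n - 8 * rho n) - eta n) ^ 2 ∧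
    36 ^ n * (20 * zz n * Real.exp (-(AA * n / 2 * (1 / 20480)))) ≤ Real.exp (-(10 * n)) ∧
    (200 * DD n) ^ 2 * (20 * zz n * Real.exp (-(AA * n / 2 * (r1 n ^ 2 / 5))))
      ≤ Real.exp (-2 * QQ n) / 2 := by
  have e2 : ∀ᶠ n : ℕ in atTop, eta n ≤ 1 / 10 :=
    patch_tendsto_eta.eventually_le_const (by norm_num)
  have e3 : ∀ᶠ n : ℕ in atTop, rho n ≤ 1 / 64 :=
    patch_tendsto_rho.eventually_le_const (by norm_num)
  have e4 : ∀ᶠ n : ℕ in atTop, (1 + 1 / 20480) * (4 * (1 + 2 * rho n + eta n) ^ 2 - 1 / 4096)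
      ≤ (2 * (tau n - 8 * rho n) - eta n) ^ 2 := by
    have hl : Tendsto (fun n : ℕ => (1 + 1 / 20480 : ℝ) *
        (4 * (1 + 2 * rho n + eta n) ^ 2 - 1 / 4096)) atTop
        (𝓝 ((1 + 1 / 20480) * (4 * (1 + 2 * 0 + 0) ^ 2 - 1 / 4096))) :=
      ((((tendsto_const_nhds.add (patch_tendsto_rho.const_mul 2)).add patch_tendsto_eta).pow 2
        |>.const_mul 4).sub tendsto_const_nhds).const_mul _
    have hr : Tendsto (fun n : ℕ => (2 * (tau n - 8 * rho n) - eta n) ^ 2) atTop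
        (𝓝 ((2 * (1 + 5 * 0 - 8 * 0) - 0) ^ 2)) :=
      ((((tendsto_const_nhds.add (patch_tendsto_eta.const_mul 5)).sub
        (patch_tendsto_rho.const_mul 8)).const_mul 2).sub patch_tendsto_eta).pow 2
    exact (hl.eventually_lt hr (by norm_num)).mono fun n h => h.le
  filter_upwards [eventually_ge_atTop 100000, eventually_ge_atTop (2 ^ 20 * Nat.factorial 12),
    e2, e3, e4] with n hn hn' h2 h3 h4
  have hnR : (100000 : ℝ) ≤ n := by exact_mod_cast hn
  have hn0 : (0 : ℝ) < n := by linarith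
  have hz : 0 ≤ zz n := Real.sqrt_nonneg _
  refine ⟨by omega, h2, h3, h4, ?_, ?_⟩
  · have hpow : (36 : ℝ) ^ n ≤ Real.exp (4 * n) := by
      rw [mul_comm, Real.exp_nat_mul]
      refine pow_le_pow_left₀ (by norm_num) ?_ n
      have h := Real.exp_one_gt_d9
      calc (36 : ℝ) ≤ (2.7 : ℝ) ^ 4 := by norm_num
        _ ≤ Real.exp 1 ^ 4 := pow_le_pow_left₀ (by norm_num) (by linarith) 4
        _ = Real.exp 4 := by rw [← Real.exp_nat_mul]; norm_num
    have hzb : 20 * zz n ≤ Real.exp (11 * n) := by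
      have h1 := patch_zz_le n
      have h5 : (11 * n : ℝ) ^ 2 / (Nat.factorial 2 : ℕ) ≤ Real.exp (11 * n) :=
        Real.pow_div_factorial_le_exp _ (by positivity) 2
      norm_num at h5
      nlinarith [mul_le_mul_of_nonneg_right hnR hn0.le]
    calc (36 : ℝ) ^ n * (20 * zz n * Real.exp (-(AA * n / 2 * (1 / 20480))))
        ≤ Real.exp (4 * n) * (Real.exp (11 * n) * Real.exp (-(AA * n / 2 * (1 / 20480)))) :=
          mul_le_mul hpow (mul_le_mul_of_nonneg_right hzb (Real.exp_pos _).le) (by positivity)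
            (Real.exp_pos _).le
      _ ≤ _ := by
          rw [← Real.exp_add, ← Real.exp_add, Real.exp_le_exp, AA]
          nlinarith
  · have h9 : r1 n ^ 2 * n = (n : ℝ) ^ (9 / 10 : ℝ) := by
      rw [r1, ← Real.rpow_natCast ((n : ℝ) ^ (-(1 / 20) : ℝ)) 2, ← Real.rpow_mul hn0.le,
        ← Real.rpow_add_one hn0.ne']
      norm_num
    have hQ : QQ n ≤ (n : ℝ) ^ (9 / 10 : ℝ) :=
      Real.rpow_le_rpow_of_exponent_le (by linarith) (by norm_num)
    have hsq : Real.sqrt n ≤ (n : ℝ) ^ (9 / 10 : ℝ) := by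
      rw [Real.sqrt_eq_rpow]
      exact Real.rpow_le_rpow_of_exponent_le (by linarith) (by norm_num)
    have hDD : 200 * DD n ≤ (n : ℝ) ^ 2 := by
      have hl : Real.log n ≤ n := (Real.log_le_sub_one_of_pos hn0).trans (by linarith)
      have hc : 200 * cc ≤ 1 := by rw [cc, C2, AA]; norm_num
      have hl0 : 0 ≤ Real.log n := Real.log_nonneg (by linarith)
      calc 200 * DD n = 200 * cc * (n * Real.log n) := by rw [DD]; ring
        _ ≤ 1 * (n * n) := mul_le_mul hc (mul_le_mul_of_nonneg_left hl hn0.le)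
            (by positivity) zero_le_one
        _ = _ := by ring
    have hDD0 : 0 ≤ 200 * DD n := by
      have hl0 : 0 ≤ Real.log n := Real.log_nonneg (by linarith)
      have : 0 ≤ cc := by rw [cc, C2, AA]; norm_num
      rw [DD]; positivity
    have hexp : 40 * 1024 * 2 * (n : ℝ) ^ 5 ≤ Real.exp (Real.sqrt n) := by
      have h := Real.pow_div_factorial_le_exp (Real.sqrt n) (Real.sqrt_nonneg _) 12
      rw [show Real.sqrt n ^ 12 = (n : ℝ) ^ 6 by
        rw [show 12 = 2 * 6 from rfl, pow_mul, Real.sq_sqrt hn0.le]] at h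
      refine le_trans ?_ h
      rw [le_div_iff₀ (by positivity)]
      have hn'' : (2 : ℝ) ^ 20 * (Nat.factorial 12 : ℕ) ≤ n := by exact_mod_cast hn'
      have hf : (0 : ℝ) ≤ (Nat.factorial 12 : ℕ) := Nat.cast_nonneg _
      calc 40 * 1024 * 2 * (n : ℝ) ^ 5 * (Nat.factorial 12 : ℕ)
          ≤ 2 ^ 20 * (Nat.factorial 12 : ℕ) * (n : ℝ) ^ 5 := by
            nlinarith [mul_nonneg hf (pow_nonneg hn0.le 5)]
        _ ≤ n * (n : ℝ) ^ 5 := mul_le_mul_of_nonneg_right hn'' (by positivity)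
        _ = _ := by ring
    calc (200 * DD n) ^ 2 * (20 * zz n * Real.exp (-(AA * n / 2 * (r1 n ^ 2 / 5))))
        ≤ ((n : ℝ) ^ 2) ^ 2 * (20 * (1024 * (2 * n)) * Real.exp (-(AA * n / 2 * (r1 n ^ 2 / 5)))) := by
          refine mul_le_mul (pow_le_pow_left₀ hDD0 hDD 2)
            (mul_le_mul_of_nonneg_right ?_ (Real.exp_pos _).le) (by positivity) (by positivity)
          linarith [patch_zz_le n]
      _ = 40 * 1024 * 2 * (n : ℝ) ^ 5 * Real.exp (-(AA / 10 * (n : ℝ) ^ (9 / 10 : ℝ))) / 2 := by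
          rw [← h9]; ring_nf
      _ ≤ Real.exp (Real.sqrt n) * Real.exp (-(AA / 10 * (n : ℝ) ^ (9 / 10 : ℝ))) / 2 := by
          gcongr
      _ ≤ _ := by
          gcongr
          rw [← Real.exp_add, Real.exp_le_exp, AA]
          nlinarith [Real.sqrt_nonneg (n : ℝ)]

/-- One configuration is covered only with tiny probability. -/
theorem config_fails : ∀ᶠ n : ℕ in atTop, ∀ (C : CapSys n) (X' : Finset (Sp n)),
    (X'.card : ℝ) ≤ 3 ^ n →
    volume (Metric.closedBall (0 : Sp n) 1) / 2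
      ≤ volume {y ∈ Metric.closedBall (0 : Sp n) 1 | IsGood X' y} →
    pr C.w C.V (Covered X') ≤ (3 / 4 : ℝ) ^ (4 ^ n) := by
  classical
  filter_upwards [exists_tests, exists_units, patch_large] with n hT hU
    ⟨hn, heta1, hrho, hgeo, hFn, hpairn⟩ C X' hcard hvol
  set G := {y ∈ Metric.closedBall (0 : Sp n) 1 | IsGood X' y} with hG
  have hGball : G ⊆ Metric.closedBall 0 1 := fun y hy => hy.1
  obtain ⟨P, Y, hPc, hY, hsep⟩ := hT X' G hcard hGball hvol fun y hy => hy.2.1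
  have hnR : (1 : ℝ) ≤ n := by exact_mod_cast hn
  have heta : 0 < eta n := by unfold eta; positivity
  have hrho0 : 0 ≤ rho n := Real.rpow_nonneg (Nat.cast_nonneg n) _
  have hw0 := C.w_nonneg
  have hw1 : ∀ v, C.w v ≤ 1 := fun v => (C.w_le v).trans (by norm_num)
  let E : Sp n → Finset (Sp n) := fun z =>
    (X'.filter fun x => ‖z - x‖ ≤ 1 + 2 * rho n + eta n).biUnion
      fun x => capSet C.V (z - x) (tau n - 8 * rho n)
  let F : Sp n → Finset (Sp n) := fun z => E z ∩ (P.erase z).biUnion E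
  let S : Sp n → Finset (Sp n) := fun z => E z \ F z
  have hEV : ∀ z, E z ⊆ C.V := fun z v hv => by
    obtain ⟨x, -, hx⟩ := mem_biUnion.1 hv
    exact (mem_capSet.1 hx).1
  have hSd : (P : Set (Sp n)).PairwiseDisjoint S := by
    intro z hz z' hz' hne
    refine Finset.disjoint_left.2 fun v hv hv' => ?_
    exact (mem_sdiff.1 hv).2 (mem_inter.2 ⟨(mem_sdiff.1 hv).1,
      mem_biUnion.2 ⟨z', mem_erase.2 ⟨hne.symm, hz'⟩, (mem_sdiff.1 hv').1⟩⟩)
  have hF : ∀ z ∈ P, ∑ v ∈ F z, C.w v ≤ Real.exp (-(10 * n)) := by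
    intro z hz
    set B := 20 * zz n * Real.exp (-(AA * n / 2 * (1 / 20480))) with hB
    have hB0 : 0 ≤ B := by have := Real.sqrt_nonneg (AA * n); rw [hB, zz]; positivity
    set Xf : Sp n → Finset (Sp n) := fun z =>
      X'.filter fun x => ‖z - x‖ ≤ 1 + 2 * rho n + eta n with hXf
    have hsub : F z ⊆ (P.erase z).biUnion fun z' => (Xf z ×ˢ Xf z').biUnion fun q =>
        capSet C.V (z - q.1) (tau n - 8 * rho n) ∩ capSet C.V (z' - q.2) (tau n - 8 * rho n) := by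
      intro v hv
      obtain ⟨hvz, hvo⟩ := mem_inter.1 hv
      obtain ⟨z', hz', hv'⟩ := mem_biUnion.1 hvo
      obtain ⟨x, hx, hvx⟩ := mem_biUnion.1 hvz
      obtain ⟨x', hx', hvx'⟩ := mem_biUnion.1 hv'
      exact mem_biUnion.2 ⟨z', hz', mem_biUnion.2 ⟨(x, x'), mem_product.2 ⟨hx, hx'⟩,
        mem_inter.2 ⟨hvx, hvx'⟩⟩⟩
    calc ∑ v ∈ F z, C.w v ≤ _ := Finset.sum_le_sum_of_subset_of_nonneg hsub fun v _ _ => hw0 v
      _ ≤ ∑ z' ∈ P.erase z, ∑ q ∈ Xf z ×ˢ Xf z', ∑ v ∈ capSet C.V (z - q.1) (tau n - 8 * rho n) ∩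
            capSet C.V (z' - q.2) (tau n - 8 * rho n), C.w v :=
          (patch_sum_biUnion_le _ _ _ hw0).trans (Finset.sum_le_sum fun z' _ => patch_sum_biUnion_le _ _ _ hw0)
      _ ≤ ∑ z' ∈ P.erase z, ∑ _q ∈ Xf z ×ˢ Xf z', B := by
          refine Finset.sum_le_sum fun z' hz' => Finset.sum_le_sum fun q hq => ?_
          obtain ⟨hne, hz'P⟩ := mem_erase.1 hz'
          obtain ⟨hq1, hq2⟩ := mem_product.1 hq
          obtain ⟨hx, hnx⟩ := mem_filter.1 hq1
          obtain ⟨hx', hnx'⟩ := mem_filter.1 hq2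
          refine pair_mass_le C hn hnx hnx' (d := 1 / 4096) ?_ (by linarith) ?_ hgeo
          · calc (1 / 4096 : ℝ) = (1 / 64) ^ 2 := by norm_num
              _ ≤ _ := pow_le_pow_left₀ (by norm_num) (hsep z hz z' hz'P hne.symm _ hx _ hx') 2
          · rw [tau]; linarith
      _ = (∑ z' ∈ P.erase z, ((Xf z).card : ℝ) * (Xf z').card) * B := by
          simp only [Finset.sum_const, Finset.card_product, nsmul_eq_mul, Nat.cast_mul, Finset.sum_mul]
      _ ≤ ((P.card : ℝ) * (3 ^ n * 3 ^ n)) * B := by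
          refine mul_le_mul_of_nonneg_right ?_ hB0
          have h3 : ∀ z, ((Xf z).card : ℝ) ≤ 3 ^ n := fun z =>
            le_trans (by exact_mod_cast Finset.card_filter_le _ _) hcard
          calc _ ≤ ∑ _z' ∈ P.erase z, (3 : ℝ) ^ n * 3 ^ n :=
                Finset.sum_le_sum fun z' _ =>
                  mul_le_mul (h3 z) (h3 z') (Nat.cast_nonneg _) (by positivity)
            _ ≤ _ := by
                rw [Finset.sum_const, nsmul_eq_mul]
                exact mul_le_mul_of_nonneg_right (by exact_mod_cast Finset.card_erase_le)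
                  (by positivity)
      _ ≤ _ := by
          refine le_trans (le_of_eq ?_) hFn
          rw [hPc, Nat.cast_pow, hB, ← mul_pow, ← mul_pow]
          norm_num
  have hpatch : ∀ z ∈ P, pr C.w (S z)
      (fun T => ¬ ∃ y ∈ Y z, ∃ A : Finset (Sp n), ∃ W : Sp n → Finset (Sp n),
        (∀ x ∈ coverers X' y, ∃ a ∈ A, W a ⊆ capSet C.V (y - x) (tau n)) ∧
        ∀ a ∈ A, ∃ v ∈ W a, v ∈ T) ≤ 3 / 4 := by
    intro z hz
    obtain ⟨hYG, hYnum, hYsep⟩ := hY z hz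
    have hu : ∀ y ∈ Y z, ∃ (A : Finset (Sp n)) (W : Sp n → Finset (Sp n)) (κ : Sp n → ℝ),
        (∀ a ∈ A, 1 ≤ κ a ∧ 2 * Real.exp (-κ a) ≤ ∑ v ∈ W a, C.w v ∧
          W a ⊆ ((coverers X' y).biUnion fun x => capSet C.V (y - x) (tau n)) \ F z) ∧
        (∀ x ∈ coverers X' y, ∃ a ∈ A, W a ⊆ capSet C.V (y - x) (tau n)) ∧
        ∑ a ∈ A, κ a ≤ C2 * DD n ∧
        ∀ v, ∑ a ∈ A.filter (fun a => v ∈ W a), κ a ≤ QQ n := fun y hy => by
      obtain ⟨hgood⟩ : Nonempty (IsGood X' y) := ⟨(hYG (mem_coe.2 hy)).1.2⟩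
      exact hU C (coverers X' y) (fun x => y - x) (F z) (hF z hz) hgood.1 hgood.2.1
        fun x hx => ⟨(patch_mem_coverers.1 hx).2, hgood.2.2 x hx⟩
    choose! A W κ hA hcov hcost hload using hu
    have hWS : ∀ y ∈ Y z, ∀ a ∈ A y, W y a ⊆ S z := by
      intro y hy a ha v hv
      obtain ⟨hvc, hvF⟩ := mem_sdiff.1 ((hA y hy a ha).2.2 hv)
      obtain ⟨x, hx, hvx⟩ := mem_biUnion.1 hvc
      obtain ⟨hxX, hxn⟩ := patch_mem_coverers.1 hx
      obtain ⟨hvV, hvt⟩ := mem_capSet.1 hvx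
      have hyz : ‖z - y‖ ≤ 2 * rho n := by
        have h := (hYG (mem_coe.2 hy)).2
        rwa [Metric.mem_closedBall, dist_comm, dist_eq_norm] at h
      refine mem_sdiff.2 ⟨mem_biUnion.2 ⟨x, mem_filter.2 ⟨hxX, ?_⟩, mem_capSet.2 ⟨hvV, ?_⟩⟩, hvF⟩
      · calc ‖z - x‖ = ‖(z - y) + (y - x)‖ := by rw [sub_add_sub_cancel]
          _ ≤ _ := (norm_add_le _ _).trans (by linarith)
      · have h1 := abs_real_inner_le_norm v (z - y)
        have h2 : ‖v‖ * ‖z - y‖ ≤ 4 * (2 * rho n) :=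
          mul_le_mul (C.norm_le v hvV) hyz (norm_nonneg _) (by norm_num)
        have h3 : ⟪v, z - x⟫ = ⟪v, z - y⟫ + ⟪v, y - x⟫ := by
          rw [← inner_add_right, sub_add_sub_cancel]
        linarith [(abs_le.1 h1).1]
    have hDD0 : 0 ≤ 200 * DD n := by
      have hl0 : 0 ≤ Real.log n := Real.log_nonneg hnR
      have : 0 ≤ cc := by rw [cc, C2, AA]; norm_num
      rw [DD]; positivity
    have hsm := second_moment C.w (S z) hw0 hw1 (Y z) A W κ (QQ n) (C2 * DD n)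
      (Real.rpow_nonneg (Nat.cast_nonneg n) _) hWS (fun y hy a ha => (hA y hy a ha).1)
      (fun y hy a ha => (hA y hy a ha).2.1) hcost hload ?_ hYnum
    · rw [pr_not]
      have hle : pr C.w (S z) (fun T => ∃ y ∈ Y z, ∀ a ∈ A y, ∃ v ∈ W y a, v ∈ T) ≤
          pr C.w (S z) (fun T => ∃ y ∈ Y z, ∃ A : Finset (Sp n), ∃ W : Sp n → Finset (Sp n),
            (∀ x ∈ coverers X' y, ∃ a ∈ A, W a ⊆ capSet C.V (y - x) (tau n)) ∧
            ∀ a ∈ A, ∃ v ∈ W a, v ∈ T) :=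
        pr_mono _ _ hw0 hw1 fun T _ ⟨y, hy, h⟩ => ⟨y, hy, A y, W y, hcov y hy, h⟩
      linarith
    intro y hy y' hy' hne
    set B := 20 * zz n * Real.exp (-(AA * n / 2 * (r1 n ^ 2 / 5))) with hB
    have hB0 : 0 ≤ B := by have := Real.sqrt_nonneg (AA * n); rw [hB, zz]; positivity
    have hsub : (A y).biUnion (W y) ∩ (A y').biUnion (W y') ⊆
        (coverers X' y ×ˢ coverers X' y').biUnion fun q =>
          capSet C.V (y - q.1) (tau n) ∩ capSet C.V (y' - q.2) (tau n) := by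
      intro v hv
      obtain ⟨h1, h2⟩ := mem_inter.1 hv
      obtain ⟨a, ha, hva⟩ := mem_biUnion.1 h1
      obtain ⟨a', ha', hva'⟩ := mem_biUnion.1 h2
      obtain ⟨x, hx, hvx⟩ := mem_biUnion.1 (mem_sdiff.1 ((hA y hy a ha).2.2 hva)).1
      obtain ⟨x', hx', hvx'⟩ := mem_biUnion.1 (mem_sdiff.1 ((hA y' hy' a' ha').2.2 hva')).1
      exact mem_biUnion.2 ⟨(x, x'), mem_product.2 ⟨hx, hx'⟩, mem_inter.2 ⟨hvx, hvx'⟩⟩
    have hk : ∀ y ∈ Y z, ((coverers X' y).card : ℝ) ≤ 200 * DD n := fun y hy =>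
      (hYG (mem_coe.2 hy)).1.2.1
    calc ∑ v ∈ (A y).biUnion (W y) ∩ (A y').biUnion (W y'), C.w v ≤ _ :=
          Finset.sum_le_sum_of_subset_of_nonneg hsub fun v _ _ => hw0 v
      _ ≤ ∑ _q ∈ coverers X' y ×ˢ coverers X' y', B := by
          refine (patch_sum_biUnion_le _ _ _ hw0).trans (Finset.sum_le_sum fun q hq => ?_)
          obtain ⟨hq1, hq2⟩ := mem_product.1 hq
          have hr0 : 0 ≤ r1 n := Real.rpow_nonneg (Nat.cast_nonneg n) _
          refine pair_mass_le C hn (patch_mem_coverers.1 hq1).2 (patch_mem_coverers.1 hq2).2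
            (d := r1 n ^ 2) (pow_le_pow_left₀ hr0 (hYsep y hy y' hy' hne _ hq1 _ hq2) 2)
            (by linarith) (by rw [tau]; linarith) ?_
          have hr1 : r1 n ^ 2 ≤ 1 := pow_le_one₀ hr0
            (Real.rpow_le_one_of_one_le_of_nonpos hnR (by norm_num))
          rw [tau]
          have h4 : 4 * (1 + eta n) ^ 2 / 5 ≤ 1 := by nlinarith
          nlinarith [mul_nonneg (sq_nonneg (r1 n)) (sub_nonneg.2 h4), sq_nonneg (r1 n),
            mul_nonneg (sq_nonneg (r1 n)) (sq_nonneg (r1 n))]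
      _ = ((coverers X' y).card : ℝ) * (coverers X' y').card * B := by
          rw [Finset.sum_const, Finset.card_product, nsmul_eq_mul, Nat.cast_mul]
      _ ≤ (200 * DD n) ^ 2 * B := by
          rw [sq]
          exact mul_le_mul_of_nonneg_right
            (mul_le_mul (hk y hy) (hk y' hy') (Nat.cast_nonneg _) hDD0) hB0
      _ ≤ _ := hpairn
  let Ev : Sp n → Finset (Sp n) → Prop := fun z T =>
    ¬ ∃ y ∈ Y z, ∃ A : Finset (Sp n), ∃ W : Sp n → Finset (Sp n),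
      (∀ x ∈ coverers X' y, ∃ a ∈ A, W a ⊆ capSet C.V (y - x) (tau n)) ∧
      ∀ a ∈ A, ∃ v ∈ W a, v ∈ T
  calc pr C.w C.V (Covered X') ≤ pr C.w C.V (fun T => ∀ z ∈ P, Ev z (T ∩ S z)) := by
        refine pr_mono _ _ hw0 hw1 fun T _ hcv z hz => ?_
        rintro ⟨y, hy, A, W, hcov, hhit⟩
        have hy1 := mem_closedBall_zero_iff.1 (((hY z hz).1 (mem_coe.2 hy)).1.1)
        obtain ⟨x, hx, hlt⟩ := hcv y (by linarith)
        obtain ⟨a, ha, hWa⟩ := hcov x hx
        obtain ⟨v, hv, hvT⟩ := hhit a ha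
        exact absurd (mem_capSet.1 (hWa hv)).2 (not_le.2 (hlt v (mem_inter.1 hvT).1))
    _ = ∏ z ∈ P, pr C.w (S z) (Ev z) :=
        pr_forall_indep P C.w C.V S Ev (fun z _ => sdiff_subset.trans (hEV z)) hSd
    _ ≤ ∏ _z ∈ P, (3 / 4 : ℝ) :=
        Finset.prod_le_prod (fun z _ => pr_nonneg _ _ _ hw0 hw1) hpatch
    _ = _ := by rw [Finset.prod_const, hPc]

end Vale.Agent.P230
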