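import Mathlib
import Vale.Agent.P230.Defs
import Vale.Agent.P230.Prob
import Vale.Agent.P230.CapExists
import Vale.Agent.P230.Averaging
import Vale.Agent.P230.Packing
import Vale.Agent.P230.Body
import Vale.Agent.P230.Counting
import Vale.Agent.P230.Patch

/-!
# P230: every large dimension has a convex body without thin translative coverings
-/

namespace Vale.Agent.P230

open Finset Filter MeasureTheory Metric
open scoped RealInnerProductSpace ENNReal

theorem main : ∃ c : ℝ, 0 < c ∧ ∀ᶠ n : ℕ in atTop, ∃ K : Set (Sp n),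
    Convex ℝ K ∧ IsCompact K ∧ (interior K).Nonempty ∧
    ∀ X : Set (Sp n), (∀ R : ℝ, (X ∩ cube n R).Finite) → (∀ y, ∃ x ∈ X, y - x ∈ K) →
      ENNReal.ofReal (c * n * Real.log n) ≤
        limsup (fun R : ℝ => volume K * ((X ∩ cube n R).encard : ℝ≥0∞) /
          ENNReal.ofReal ((2 * R) ^ n)) atTop := by
  classical
  refine ⟨Real.exp (-9) * cc, mul_pos (Real.exp_pos _) (by unfold cc C2 AA; positivity), ?_⟩
  filter_upwards [eventually_ge_atTop 2, nonempty_capSys, exists_config, config_fails,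
    config_count] with n hn ⟨C⟩ hconfig hfail hcount
  have hn1 : 1 ≤ n := by omega
  have he : 0 < eta n := eta_pos hn1
  obtain ⟨Nt, hNtcard, hNt⟩ := exists_net hn1 3 (eta n) (by norm_num) he
  have hw0 := C.w_nonneg
  have hw1 : ∀ v, C.w v ≤ 1 := fun v => (C.w_le v).trans (by norm_num)
  set V0 := volume (closedBall (0 : Sp n) 1) with hV0
  set cfgs := (Nt.powerset.filter fun S => S.card ≤ 3 ^ n).filter fun S =>
    V0 / 2 ≤ volume {y ∈ closedBall (0 : Sp n) 1 | IsGood S y}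
  -- a set of half spaces that beats every configuration
  obtain ⟨T, hTV, hvol, hT⟩ : ∃ T ⊆ C.V,
      ENNReal.ofReal (Real.exp (-9)) * V0 ≤ volume (body T) ∧
      ¬ ∃ S ∈ cfgs, Covered S T := by
    refine exists_of_pr_lt C.w C.V _ _ hw0 hw1 ?_
    refine lt_of_le_of_lt (pr_exists_le cfgs C.w C.V Covered hw0 hw1) ?_
    refine lt_of_lt_of_le ?_ (body_volume hn1 C)
    have hsub : cfgs ⊆ Nt.powerset.filter fun S => S.card ≤ 3 ^ n := filter_subset _ _
    calc ∑ S ∈ cfgs, pr C.w C.V (Covered S)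
        ≤ ∑ _S ∈ cfgs, (3 / 4 : ℝ) ^ (4 ^ n) := by
          refine sum_le_sum fun S hS => ?_
          obtain ⟨hS1, hS2⟩ := mem_filter.1 hS
          exact hfail C S (by exact_mod_cast (mem_filter.1 hS1).2) hS2
      _ = (cfgs.card : ℝ) * (3 / 4 : ℝ) ^ (4 ^ n) := by rw [sum_const, nsmul_eq_mul]
      _ ≤ ((Nt.card : ℝ) + 1) ^ (3 ^ n) * (3 / 4 : ℝ) ^ (4 ^ n) := by
          gcongr
          exact le_trans (by exact_mod_cast card_le_card hsub) (configs_le Nt (3 ^ n))
      _ < _ := hcount Nt.card (by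
          refine le_trans hNtcard (le_of_eq ?_)
          rw [show (2 : ℝ) * 3 = 6 by norm_num])
  push Not at hT
  obtain ⟨hcv, hcp, hint⟩ := body_shape C hTV
  refine ⟨body T, hcv, hcp, hint, fun X hX hcov => ?_⟩
  by_contra hcon
  rw [not_le] at hcon
  -- the point set is thin
  have hdens : limsup (fun R : ℝ => V0 * ((X ∩ cube n R).encard : ℝ≥0∞) /
      ENNReal.ofReal ((2 * R) ^ n)) atTop < ENNReal.ofReal (DD n) := by
    have hE0 : ENNReal.ofReal (Real.exp (-9)) ≠ 0 := by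
      simp [ENNReal.ofReal_eq_zero, Real.exp_pos]
    have h1 : ENNReal.ofReal (Real.exp (-9)) *
        limsup (fun R : ℝ => V0 * ((X ∩ cube n R).encard : ℝ≥0∞) /
          ENNReal.ofReal ((2 * R) ^ n)) atTop
        < ENNReal.ofReal (Real.exp (-9)) * ENNReal.ofReal (DD n) := by
      rw [← ENNReal.limsup_const_mul_of_ne_top ENNReal.ofReal_ne_top,
        ← ENNReal.ofReal_mul (Real.exp_pos _).le]
      refine lt_of_le_of_lt (limsup_le_limsup (Eventually.of_forall fun R => ?_))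
        (lt_of_lt_of_le hcon (le_of_eq ?_))
      · simp only [div_eq_mul_inv]
        rw [← mul_assoc, ← mul_assoc]
        gcongr
      · congr 1
        unfold DD; ring
    exact (ENNReal.mul_lt_mul_iff_right hE0 ENNReal.ofReal_ne_top).1 h1
  obtain ⟨a, X', hX'sub, hX'card, hnear, hgood⟩ := hconfig Nt
    (fun x hx => hNt x (hx.trans (by norm_num))) X hX hdens
  have hmem : X' ∈ cfgs := mem_filter.2
    ⟨mem_filter.2 ⟨mem_powerset.2 hX'sub, by exact_mod_cast hX'card⟩, hgood⟩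
  have hnc := hT X' hmem
  simp only [Covered, not_forall, not_exists, not_and] at hnc
  obtain ⟨y, hy, hhole⟩ := hnc
  obtain ⟨x, hxX, hxK⟩ := hcov (a + y)
  obtain ⟨hxB, hxT⟩ := hxK
  rw [mem_closedBall_zero_iff] at hxB
  have hxa : ‖x - a‖ ≤ 5 / 2 := by
    calc ‖x - a‖ = ‖y - (a + y - x)‖ := by congr 1; abel
      _ ≤ ‖y‖ + ‖a + y - x‖ := norm_sub_le _ _
      _ ≤ _ := by linarith
  obtain ⟨p, hp, hpd⟩ := hnear x hxX hxa
  have hcovr : p ∈ coverers X' y := by
    simp only [coverers, mem_filter]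
    refine ⟨hp, ?_⟩
    calc ‖y - p‖ = ‖(a + y - x) + ((x - a) - p)‖ := by congr 1; abel
      _ ≤ ‖a + y - x‖ + ‖(x - a) - p‖ := norm_add_le _ _
      _ ≤ _ := by linarith
  obtain ⟨v, hv, hvt⟩ := hhole p hcovr
  rw [not_lt] at hvt
  have h1 : ⟪v, a + y - x⟫ ≤ 1 := hxT v hv
  have h2 : ⟪v, y - p⟫ = ⟪v, a + y - x⟫ + ⟪v, (x - a) - p⟫ := by
    rw [← inner_add_right]; congr 1; abel
  have h3 : ⟪v, (x - a) - p⟫ ≤ 4 * eta n :=
    le_trans (real_inner_le_norm _ _)
      (mul_le_mul (C.norm_le v (hTV hv)) hpd (norm_nonneg _) (by norm_num))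
  simp only [tau] at hvt
  linarith

end Vale.Agent.P230
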